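import Vale.Agent.P075.Gram

/-!
Atoms (rank one pieces), their potentials, and the removal lemma.
-/

namespace Vale.Agent.P075

variable {N : ℕ}

structure Atom (N : ℕ) where
  s : ℝ
  u : Pt N → ℝ
  v : Pt N → ℝ

noncomputable def Atom.val (a : Atom N) : Fn N := fun x y => a.s * (a.u x * a.v y)

def Atom.kid (a : Atom (N + 1)) (i j : Bool) : Atom N :=
  ⟨a.s, fun x => a.u (Fin.cons i x), fun y => a.v (Fin.cons j y)⟩

noncomputable def Atom.q (a : Atom N) : ℝ := 1 + (av fun x => a.u x ^ 2) + av fun y => a.v y ^ 2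

noncomputable def vals (L : List (Atom N)) : Fn N := fun x y => (L.map fun a => a.val x y).sum

def kids (L : List (Atom (N + 1))) (i j : Bool) : List (Atom N) := L.map fun a => a.kid i j

noncomputable def var (f : Pt N → ℝ) : ℝ := (av fun x => f x ^ 2) - av f ^ 2

noncomputable def ptens (a : Atom N) (F B : Fn N) : ℝ :=
  a.s / 2 * ((av fun z => var fun x => a.u x * B x z) + av fun z => var fun y => a.v y * F y z)

noncomputable def ppair (r : ℝ) (a b : Atom N) (F : Fn N) : ℝ :=
  a.s * b.s / 2 * av fun y => |a.v y| *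
    ((2 * r ^ 2 * (av fun x => |a.u x * b.u x|) - (av fun x => a.u x * b.u x) ^ 2) / r
      + r * var fun z => b.v z * F y z)

lemma var_nonneg (f : Pt N → ℝ) : 0 ≤ var f := by
  have := av_cs f fun _ => 1
  simp only [mul_one, one_pow, av_const] at this
  unfold var; linarith

lemma var_le (f : Pt N → ℝ) : var f ≤ av fun x => f x ^ 2 := by
  unfold var; linarith [sq_nonneg (av f)]

lemma var_succ (f : Pt (N + 1) → ℝ) :
    var f = ((var fun x => f (Fin.cons false x)) + var fun x => f (Fin.cons true x)) / 2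
      + (av fun x => hh x * f x) ^ 2 := by
  simp only [var, av_succ, hh_cons, sgn_false, sgn_true, av_mul_left]
  ring

lemma q_one_le (a : Atom N) : 1 ≤ a.q := by
  have h1 : 0 ≤ av fun x => a.u x ^ 2 := av_nonneg fun _ => sq_nonneg _
  have h2 : 0 ≤ av fun x => a.v x ^ 2 := av_nonneg fun _ => sq_nonneg _
  unfold Atom.q; linarith

lemma q_avg (a : Atom (N + 1)) :
    (∑ i : Bool, ∑ j : Bool, (a.kid i j).q) / 4 = a.q := by
  simp only [Atom.q, Atom.kid, av_succ, Fintype.sum_bool]
  ring

lemma abs_uv_le_two (f : Pt (N + 1) → ℝ) (i : Bool) :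
    (av fun x => |f (Fin.cons i x)|) ≤ 2 * av fun x => |f x| := by
  have h : ∀ j : Bool, 0 ≤ av fun x => |f (Fin.cons j x)| :=
    fun j => av_nonneg fun _ => abs_nonneg _
  rw [av_succ]
  cases i <;> linarith [h false, h true]

lemma sum_bool2_list {α : Type*} (L : List α) (f : α → Bool → Bool → ℝ) :
    ∑ i : Bool, ∑ j : Bool, (L.map fun a => f a i j).sum
      = (L.map fun a => ∑ i : Bool, ∑ j : Bool, f a i j).sum := by
  induction L with
  | nil => simp
  | cons a t ih => simp [Finset.sum_add_distrib, ih]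

lemma list_map_div {α : Type*} (L : List α) (f : α → ℝ) (d : ℝ) :
    (L.map fun a => f a / d).sum = (L.map f).sum / d := by
  induction L with
  | nil => simp
  | cons a t ih => simp [ih, add_div]

lemma kid_vals (L : List (Atom (N + 1))) (i j : Bool) : kid (vals L) i j = vals (kids L i j) := by
  funext x y; simp [kid, vals, kids, List.map_map, Function.comp_def, Atom.kid, Atom.val]

lemma vals_cons (a : Atom N) (L : List (Atom N)) : vals (a :: L) = a.val + vals L := by
  funext x y; simp [vals]

lemma vals_nil : vals ([] : List (Atom N)) = 0 := by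
  funext x y; simp [vals]

lemma vals_append (L L' : List (Atom N)) : vals (L ++ L') = vals L + vals L' := by
  funext x y; simp [vals]

lemma ptens_nonneg {a : Atom N} (ha : 0 ≤ a.s) (F B : Fn N) : 0 ≤ ptens a F B := by
  have h1 := av_nonneg fun z => var_nonneg fun x => a.u x * B x z
  have h2 := av_nonneg fun z => var_nonneg fun y => a.v y * F y z
  unfold ptens; positivity

lemma ppair_nonneg {r : ℝ} (hr : 0 < r) {a b : Atom N} (ha : 0 ≤ a.s) (hb : 0 ≤ b.s) (F : Fn N)
    (hab : (av fun x => |a.u x * b.u x|) ≤ 2 * r ^ 2) : 0 ≤ ppair r a b F := by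
  refine mul_nonneg (by positivity) (av_nonneg fun y => mul_nonneg (abs_nonneg _) ?_)
  have h1 := abs_av_le fun x => a.u x * b.u x
  have h2 := var_nonneg fun z => b.v z * F y z
  have h3 : 0 ≤ 2 * r ^ 2 * (av fun x => |a.u x * b.u x|) - (av fun x => a.u x * b.u x) ^ 2 := by
    nlinarith [sq_abs (av fun x => a.u x * b.u x), abs_nonneg (av fun x => a.u x * b.u x)]
  positivity

/-- The decrement of the tensor potential pays for the term. -/
lemma ptens_step {a : Atom (N + 1)} (ha : 0 ≤ a.s) (F B : Fn (N + 1)) :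
    |term a.val F B| + (∑ i : Bool, ∑ j : Bool,
      ptens (a.kid i j) (kid F j (i ^^ j)) (kid B i (i ^^ j))) / 4 ≤ ptens a F B := by
  have e : term a.val F B = a.s * av fun z => hh z *
      ((av fun x => hh x * (a.u x * B x z)) * av fun y => hh y * (a.v y * F y z)) := by
    simp only [term, Atom.val, av_mul_av]
    simp only [← av_mul_left]
    conv_lhs => enter [1, x]; rw [av_comm]
    rw [av_comm]
    congr! 6
    ring
  have h : |term a.val F B| ≤ a.s / 2 * ((av fun z => (av fun x => hh x * (a.u x * B x z)) ^ 2)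
      + av fun z => (av fun y => hh y * (a.v y * F y z)) ^ 2) := by
    rw [e, abs_mul, abs_of_nonneg ha, div_mul_eq_mul_div, mul_div_assoc]
    refine mul_le_mul_of_nonneg_left ?_ ha
    rw [← av_add, ← av_div]
    refine (abs_av_le _).trans (av_mono fun z => ?_)
    rw [abs_mul, abs_hh, one_mul, abs_mul]
    nlinarith [sq_nonneg (|av fun x => hh x * (a.u x * B x z)|
      - |av fun y => hh y * (a.v y * F y z)|), sq_abs (av fun x => hh x * (a.u x * B x z)),
      sq_abs (av fun y => hh y * (a.v y * F y z))]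
  refine le_trans (add_le_add_left h _) (le_of_eq ?_)
  simp only [ptens, Atom.kid, kid, var_succ, av_add, av_div, Fintype.sum_bool, Bool.xor_self,
    Bool.true_xor, Bool.false_xor, Bool.not_false, Bool.not_true]
  simp only [av_succ, av_add, av_div]
  ring

/-- The decrement of the pair potential pays for the term. -/
lemma ppair_step {r : ℝ} (hr : 0 < r) {a b : Atom (N + 1)} (ha : 0 ≤ a.s) (hb : 0 ≤ b.s)
    (F : Fn (N + 1)) :
    |term a.val F b.val| + (∑ i : Bool, ∑ j : Bool,
      ppair r (a.kid i j) (b.kid i (i ^^ j)) (kid F j (i ^^ j))) / 4 ≤ ppair r a b F := by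
  set cw := av fun x => hh x * (a.u x * b.u x) with hcw
  have e : term a.val F b.val = a.s * b.s * av fun y => hh y * a.v y *
      (cw * av fun z => hh z * (b.v z * F y z)) := by
    simp only [term, Atom.val, hcw, av_mul_av]
    simp only [← av_mul_left]
    rw [av_comm]
    congr! 6
    ring
  have h : |term a.val F b.val| ≤ a.s * b.s / 2 * av fun y => |a.v y| *
      (cw ^ 2 / r + r * (av fun z => hh z * (b.v z * F y z)) ^ 2) := by
    rw [e, abs_mul, abs_of_nonneg (mul_nonneg ha hb), div_mul_eq_mul_div, mul_div_assoc]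
    refine mul_le_mul_of_nonneg_left ?_ (mul_nonneg ha hb)
    rw [← av_div]
    refine (abs_av_le _).trans (av_mono fun y => ?_)
    rw [abs_mul, abs_mul, abs_hh, one_mul, abs_mul, mul_div_assoc]
    refine mul_le_mul_of_nonneg_left ?_ (abs_nonneg _)
    generalize (av fun z => hh z * (b.v z * F y z)) = d
    rw [le_div_iff₀ (by norm_num : (0 : ℝ) < 2), div_add' _ _ _ hr.ne', le_div_iff₀ hr,
      ← sq_abs cw, ← sq_abs d]
    nlinarith [sq_nonneg (|cw| - r * |d|)]
  refine le_trans (add_le_add_left h _) (le_of_eq ?_)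
  have hm : (av fun x => a.u x * b.u x) ^ 2 = ((av fun x => a.u (Fin.cons false x)
      * b.u (Fin.cons false x)) ^ 2 + (av fun x => a.u (Fin.cons true x)
      * b.u (Fin.cons true x)) ^ 2) / 2 - cw ^ 2 := by
    simp only [hcw, av_succ, hh_cons, sgn_false, sgn_true, av_mul_left]
    ring
  simp only [ppair, hm, Atom.kid, kid, var_succ, Fintype.sum_bool, Bool.xor_self,
    Bool.true_xor, Bool.false_xor, Bool.not_false, Bool.not_true]
  rw [av_succ fun x => |a.u x * b.u x|]
  simp only [mul_add, mul_sub, add_mul, sub_mul, add_div, sub_div, mul_div_assoc', div_mul_eq_mul_div,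
    av_succ, av_add, av_sub, av_div, av_mul_left, av_mul_right]
  ring

/-- A unit atom. -/
def Atom.Good (η : ℝ) (a : Atom N) : Prop :=
  η ≤ a.s ∧ (av fun x => a.u x ^ 2) = 1 ∧ (av fun y => a.v y ^ 2) = 1

/-- Sum of squared coefficients. -/
noncomputable def ee (L : List (Atom N)) : ℝ := (L.map fun a => a.s ^ 2).sum

lemma ee_nonneg (L : List (Atom N)) : 0 ≤ ee L :=
  List.sum_nonneg (by simpa using fun a _ => sq_nonneg _)

lemma exists_removal {η : ℝ} (hη : 0 < η) (A : Fn N) :
    ∃ L : List (Atom N), (∀ a ∈ L, a.Good η) ∧ En A = En (A - vals L) + ee L ∧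
      OpLE (A - vals L) (η ^ 2) ∧ ∀ r, 0 ≤ r → OpLE A r →
        OpLE (A - vals L) r ∧ ∀ B, OpLE B r → Zp A B ≤ Zp (A - vals L) B + 2 * r * ee L := by
  suffices H : ∀ n : ℕ, ∀ A : Fn N, En A ≤ n * η ^ 2 → ∃ L : List (Atom N),
      (∀ a ∈ L, a.Good η) ∧ En A = En (A - vals L) + ee L ∧
      OpLE (A - vals L) (η ^ 2) ∧ ∀ r, 0 ≤ r → OpLE A r →
        OpLE (A - vals L) r ∧ ∀ B, OpLE B r → Zp A B ≤ Zp (A - vals L) B + 2 * r * ee L by
    obtain ⟨n, hn⟩ := exists_nat_ge (En A / η ^ 2)
    exact H n A ((div_le_iff₀ (by positivity)).1 hn)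
  intro n
  induction n with
  | zero =>
    intro A hA
    refine ⟨[], by simp, by simp [vals_nil, ee], ?_, by simp [vals_nil, ee]⟩
    rw [vals_nil, sub_zero]
    intro v
    have h0 : En A = 0 := le_antisymm (by simpa using hA) (En_nonneg A)
    have hcs : ∀ x, (av fun y => A x y * v y) ^ 2
        ≤ (av fun y => A x y ^ 2) * av fun y => v y ^ 2 := fun x => av_cs _ _
    have := av_mono hcs
    rw [av_mul_right, show (av fun x => av fun y => A x y ^ 2) = En A from rfl, h0, zero_mul] at this
    exact this.trans (mul_nonneg (sq_nonneg _) (av_nonneg fun _ => sq_nonneg _))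
  | succ n ih =>
    intro A hA
    by_cases hop : OpLE A (η ^ 2)
    · refine ⟨[], by simp, by simp [vals_nil, ee], ?_, by simp [vals_nil, ee]⟩
      rw [vals_nil, sub_zero]; exact hop
    simp only [OpLE, not_forall, not_le] at hop
    obtain ⟨w, hw⟩ := hop
    set P := av fun y => w y ^ 2 with hP
    have hP0 : 0 < P := by
      by_contra hneg
      have hz : P = 0 := le_antisymm (not_lt.1 hneg) (av_nonneg fun _ => sq_nonneg _)
      have hcs : ∀ x, (av fun y => A x y * w y) ^ 2 ≤ (av fun y => A x y ^ 2) * P :=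
        fun x => av_cs _ _
      have := av_mono hcs
      rw [hz] at this hw
      simp only [mul_zero, av_const] at this hw
      linarith
    set v : Pt N → ℝ := fun y => w y / Real.sqrt P with hvd
    have hv : (av fun y => v y ^ 2) = 1 := by
      simp only [hvd, div_pow, Real.sq_sqrt hP0.le, av_div, ← hP, div_self hP0.ne']
    set Q := av fun x => (av fun y => A x y * v y) ^ 2 with hQ
    have hQη : η ^ 2 < Q := by
      have : Q = (av fun x => (av fun y => A x y * w y) ^ 2) / P := by
        simp only [hQ, hvd, mul_div_assoc', av_div, div_pow, Real.sq_sqrt hP0.le]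
      rw [this, lt_div_iff₀ hP0]; linarith
    have hQ0 : 0 < Q := lt_trans (by positivity) hQη
    let a : Atom N := ⟨Real.sqrt Q, fun x => (av fun y => A x y * v y) / Real.sqrt Q, v⟩
    have ha : a.Good η := by
      refine ⟨?_, ?_, hv⟩
      · exact (Real.le_sqrt hη.le hQ0.le).2 hQη.le
      · simp only [a, div_pow, Real.sq_sqrt hQ0.le, av_div, ← hQ, div_self hQ0.ne']
    have hval : A - a.val = rem1 A v := by
      funext x y
      have := Real.sqrt_pos.2 hQ0
      simp only [Pi.sub_apply, rem1, Atom.val, a]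
      field_simp
    have hE := En_rem1 A hv
    obtain ⟨L, hL1, hL2, hL3, hL4⟩ := ih (rem1 A v) (by push_cast at hA; nlinarith)
    have hsub : A - vals (a :: L) = rem1 A v - vals L := by rw [vals_cons, ← hval]; abel
    have hee : ee (a :: L) = Q + ee L := by simp [ee, a, Real.sq_sqrt hQ0.le]
    refine ⟨a :: L, by simpa [ha] using hL1, ?_, hsub ▸ hL3, fun r hr hA' => ?_⟩
    · rw [hsub, hee, hE, hL2]; ring
    obtain ⟨h1, h2⟩ := hL4 r hr (hA'.rem1 hr hv)
    refine ⟨hsub ▸ h1, fun B hB => ?_⟩
    rw [hsub, hee]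
    have := Zp_rem1 hr hA' hB hv
    linarith [h2 B hB]

end Vale.Agent.P075
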