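import Vale.Agent.P075.Defs

/-!
The dyadic model of the statement, and the finite bound that feeds it.
-/

namespace Vale.Agent.P075

open MeasureTheory

/-- The dyadic interval of scale `k` and index `n`. -/
noncomputable def ivl (k : ℤ) (n : ℕ) : Set ℝ :=
  Set.Ico ((2 : ℝ) ^ k * n) ((2 : ℝ) ^ k * (n + 1))

/-- The Haar function of an interval: 1 on the left half, -1 on the right half, 0 elsewhere. -/
noncomputable def haar (k : ℤ) (n : ℕ) (x : ℝ) : ℝ :=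
  (Set.Ico ((2 : ℝ) ^ k * n) ((2 : ℝ) ^ k * (n + 1 / 2))).indicator 1 x
    - (Set.Ico ((2 : ℝ) ^ k * (n + 1 / 2)) ((2 : ℝ) ^ k * (n + 1))).indicator 1 x

/-- One term of the dyadic triangular form, indexed by scale and the first two indices. -/
noncomputable def LI (k : ℤ) (p : ℕ × ℕ) (F0 F1 F2 : ℝ → ℝ → ℝ) : ℝ :=
  (2 : ℝ) ^ (-k) *
    ∫ x0 in ivl k p.1, ∫ x1 in ivl k p.2, ∫ x2 in ivl k (p.1 ^^^ p.2),
      F0 x0 x1 * F1 x1 x2 * F2 x2 x0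
        * (haar k p.1 x0 * haar k p.2 x1 * haar k (p.1 ^^^ p.2) x2)

/-- Admissible input: measurable, bounded, vanishing outside a bounded set. -/
def Adm (F : ℝ → ℝ → ℝ) : Prop :=
  Measurable (Function.uncurry F) ∧ (∃ K, ∀ x y, |F x y| ≤ K) ∧
    ∃ R, ∀ x y, R < max |x| |y| → F x y = 0

/-- The L^3 norm on the quarter plane. -/
noncomputable def L3 (F : ℝ → ℝ → ℝ) : ℝ :=
  (∫ p in Set.Ici (0 : ℝ) ×ˢ Set.Ici (0 : ℝ), |F p.1 p.2| ^ 3) ^ (1 / 3 : ℝ)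

/-- Finite L^3 average norm. -/
noncomputable def nrm3 {N : ℕ} (F : Fn N) : ℝ :=
  (av2 fun x y => |F x y| ^ 3) ^ (1 / 3 : ℝ)

/-- The finite form of the bound. -/
def FiniteBound (C θ : ℝ) : Prop :=
  ∀ (N : ℕ) (c : ℕ → ℝ) (A F B : Fn N) (M : ℝ),
    (∀ k, 0 ≤ c k) → (∀ k, c k ≤ 1) → 1 ≤ M → ∑ k ∈ Finset.range N, c k ≤ M →
      Tot N c A F B ≤ C * M ^ θ * (nrm3 A * nrm3 F * nrm3 B)

/-- The dyadic bound to be derived. -/
def DyadicBound (C θ : ℝ) : Prop :=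
  ∀ (S : Finset ℤ) (T : Finset (ℕ × ℕ)) (F0 F1 F2 : ℝ → ℝ → ℝ),
    Adm F0 → Adm F1 → Adm F2 →
      ∑ k ∈ S, ∑ p ∈ T, |LI k p F0 F1 F2| ≤ C * (1 + (S.card : ℝ)) ^ θ * (L3 F0 * L3 F1 * L3 F2)

end Vale.Agent.P075
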