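import Vale.Agent.P075.Local
import Vale.Agent.P075.Problem

/-!
From bounded inputs to cubic-integrable inputs: the (4,4,2) bound and amplitude classes.
-/

namespace Vale.Agent.P075

open Real

variable {N : ℕ}

noncomputable def p4 (A : Fn N) : ℝ := av2 fun x y => A x y ^ 4

lemma bx_le_p4 (A : Fn N) : bx A ≤ p4 A := by
  have h1 : ∀ x x', gram A x x' ^ 2 ≤ (av fun y => A x y ^ 2) * av fun y => A x' y ^ 2 :=
    fun x x' => av_cs _ _
  refine (av2_mono h1).trans ?_
  simp only [av2, av_mul_left, av_mul_right, ← sq]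
  refine (pow_le_pow_left₀ (av_nonneg fun _ => av_nonneg fun _ => sq_nonneg _) le_rfl 2).trans ?_
  have h2 := av_cs (fun x : Pt N => av fun y => A x y ^ 2) fun _ => 1
  simp only [mul_one, one_pow, av_const] at h2
  refine h2.trans (av_mono fun x => ?_)
  have h3 := av_cs (fun y => A x y ^ 2) fun _ => 1
  simp only [mul_one, one_pow, av_const, ← pow_mul] at h3
  exact h3

lemma p4_succ (A : Fn (N + 1)) : p4 A = (∑ i : Bool, ∑ j : Bool, p4 (kid A i j)) / 4 := av2_succ _

lemma quad_master {β M : ℝ} (hβ : 0 < β) : ∀ (N : ℕ) (c : ℕ → ℝ) (A F B : Fn N),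
    (∀ k, 0 ≤ c k) → (∀ k, c k ≤ 1) → ∑ k ∈ Finset.range N, c k ≤ M →
      Tot N c A F B ≤ En F * (∑ k ∈ Finset.range N, c k) / (2 * β)
        + β / 2 * (p4 A + p4 B - Zp A B) := by
  intro N
  induction N with
  | zero =>
    intro c A F B _ _ _
    have h : 0 ≤ p4 A + p4 B - Zp A B := by
      unfold Zp; linarith [mx_le A B, bx_le_p4 A, bx_le_p4 B]
    simp only [Tot_zero, Finset.range_zero, Finset.sum_empty, mul_zero, zero_div, zero_add]
    positivity
  | succ n ih =>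
    intro c A F B hc hc1 hcM
    have hk := Finset.sum_le_sum fun i (_ : i ∈ (Finset.univ : Finset Bool)) =>
      Finset.sum_le_sum fun j (_ : j ∈ (Finset.univ : Finset Bool)) =>
        ih (fun k => c (k + 1)) (kid A i j) (kid F j (i ^^ j)) (kid B i (i ^^ j))
          (fun k => hc _) (fun k => hc1 _)
          (by rw [Finset.sum_range_succ'] at hcM; linarith [hc 0])
    have eF : (∑ i : Bool, ∑ j : Bool, En (kid F j (i ^^ j))) / 4 = En F := by
      rw [sum_swap_xor fun a b => En (kid F a b), En_succ]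
    have eA : (∑ i : Bool, ∑ j : Bool, p4 (kid A i j)) / 4 = p4 A := (p4_succ A).symm
    have eB : (∑ i : Bool, ∑ j : Bool, p4 (kid B i (i ^^ j))) / 4 = p4 B := by
      rw [sum_xor fun a b => p4 (kid B a b), p4_succ]
    have e : (∑ i : Bool, ∑ j : Bool,
        (En (kid F j (i ^^ j)) * (∑ k ∈ Finset.range n, c (k + 1)) / (2 * β)
          + β / 2 * (p4 (kid A i j) + p4 (kid B i (i ^^ j))
            - Zp (kid A i j) (kid B i (i ^^ j))))) / 4
        = En F * (∑ k ∈ Finset.range n, c (k + 1)) / (2 * β) + β / 2 * (p4 A + p4 B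
            - (∑ i : Bool, ∑ j : Bool, Zp (kid A i j) (kid B i (i ^^ j))) / 4) := by
      rw [← eF, ← eA, ← eB]
      simp only [Fintype.sum_bool]
      ring
    have hdiv := div_le_div_of_nonneg_right hk (show (0 : ℝ) ≤ 4 by norm_num)
    rw [e] at hdiv
    have h2 : 0 ≤ sqTerm A B := av_nonneg fun _ => av_nonneg fun _ => sq_nonneg _
    have h1 := mul_le_mul_of_nonneg_left (abs_term_le A F B hβ) (hc 0)
    have h3 := mul_nonneg (sub_nonneg.2 (hc1 0)) (mul_nonneg hβ.le h2)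
    have hz := mul_le_mul_of_nonneg_left (sqTerm_add_Zp_le A B) (half_pos hβ).le
    rw [Tot_succ, Finset.sum_range_succ', mul_add (En F), add_div (En F * _)]
    rw [mul_add (c 0), mul_div_assoc', mul_comm (c 0) (En F)] at h1
    nlinarith [hdiv, hz, h1, h3]

lemma quad_bound {c : ℕ → ℝ} {M β : ℝ} (hβ : 0 < β) (hc : ∀ k, 0 ≤ c k) (hc1 : ∀ k, c k ≤ 1)
    (hcM : ∑ k ∈ Finset.range N, c k ≤ M) (A F B : Fn N) :
    Tot N c A F B ≤ En F * M / (2 * β) + β / 2 * (p4 A + p4 B) := by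
  refine (quad_master hβ N c A F B hc hc1 hcM).trans (add_le_add ?_ ?_)
  · exact div_le_div_of_nonneg_right (mul_le_mul_of_nonneg_left hcM (En_nonneg F)) (by linarith)
  · nlinarith [Zp_nonneg A B]

lemma master_any {η r A₀ β M : ℝ} (hη : 0 < η) (hr : r * η = 5) (hA₀ : 0 ≤ A₀) (hβ : 0 < β)
    (hG : ∀ m, GBound A₀ M m) : ∀ n, MBound η r A₀ β M n := by
  intro n
  induction n with
  | zero => exact master_zero hη hr hA₀ hβ
  | succ k ih => exact master_succ hη hr hA₀ hβ (hG (k + 1)) ih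

lemma bounded_bound {c : ℕ → ℝ} {M s : ℝ} (hs : 0 < s) (hM : 1 ≤ M) (hc : ∀ k, 0 ≤ c k)
    (hc1 : ∀ k, c k ≤ 1) (hcM : ∑ k ∈ Finset.range N, c k ≤ M) {A F B : Fn N}
    (bA : ∀ x y, |A x y| ≤ 1) (bF : ∀ x y, |F x y| ≤ 1) (bB : ∀ x y, |B x y| ≤ 1) :
    Tot N c A F B ≤ M ^ (3 / 8 : ℝ) * (En F / (2 * s) + (6 * s + 669) * (En A + En B)) := by
  set η : ℝ := M ^ (-(1 / 8) : ℝ) with hηdef
  set T : ℝ := M ^ (3 / 8 : ℝ) with hT
  have hM0 : 0 < M := by linarith
  have hη : 0 < η := rpow_pos_of_pos hM0 _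
  have hη1 : η ≤ 1 := rpow_le_one_of_one_le_of_nonpos hM (by norm_num)
  have hT0 : 0 < T := rpow_pos_of_pos hM0 _
  have e3 : (1 / η) ^ 3 = T := by
    rw [hηdef, rpow_neg hM0.le, one_div, inv_inv, ← rpow_natCast, ← rpow_mul hM0.le, hT]
    norm_num
  set Q : ℝ := Real.sqrt M / η with hQ
  have hQ0 : 0 < Q := by positivity
  have eQ1 : M / Q = T := by
    rw [hQ, hηdef, Real.sqrt_eq_rpow, ← rpow_sub hM0, hT]
    nth_rewrite 1 [show M = M ^ (1 : ℝ) by simp]
    rw [← rpow_sub hM0]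
    norm_num
  have eQ2 : Q * η ^ 2 = T := by
    rw [hQ, hηdef, Real.sqrt_eq_rpow, ← rpow_sub hM0, ← rpow_natCast, ← rpow_mul hM0.le,
      ← rpow_add hM0, hT]
    norm_num
  have h1η : 1 / η ≤ T := by
    rw [← e3]
    exact le_self_pow₀ ((one_le_div hη).2 hη1) (by norm_num)
  have hK : 1 / η + 4 * (5 / η) ^ 3 ≤ 501 * T := by
    rw [show (5 / η) ^ 3 = 125 * (1 / η) ^ 3 by ring, e3]; linarith
  have hr : 5 / η * η = 5 := div_mul_cancel₀ _ hη.ne'
  have hb := both_bounds (M := M) (A₀ := 1400 * T) hη hη1 hr (by positivity) hQ0 (by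
    rw [show M / (2 * Q) = M / Q / 2 by ring, eQ1, show 6 * Q * η ^ 2 = 6 * (Q * η ^ 2) by ring,
      eQ2]
    linarith)
  cases N with
  | zero =>
    rw [Tot_zero]
    have := En_nonneg F
    have := En_nonneg A
    have := En_nonneg B
    positivity
  | succ n =>
    have hs' : 0 < s * Q := mul_pos hs hQ0
    have hroot := root_bound (A₀ := 1400 * T) (β := s * Q) hη hη1 hr (by positivity) hs'
      (master_any hη hr (by positivity) hs' (fun m => (hb m).1) n) hc hc1 hcM bA bF bB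
    refine hroot.trans ?_
    have h1 : En F * M / (2 * (s * Q)) = T * (En F / (2 * s)) := by
      rw [← eQ1]; field_simp
    have h2 : 6 * (s * Q) * η ^ 2 = 6 * s * T := by rw [← eQ2]; ring
    rw [h1, h2, mul_add T]
    refine add_le_add le_rfl ?_
    refine (mul_le_mul_of_nonneg_right ?_ (add_nonneg (En_nonneg A) (En_nonneg B))).trans_eq
      (mul_assoc _ _ _)
    linarith

lemma sqr_le_cube {a t : ℝ} (ha : 0 < a) (h : t ≠ 0 → a / 2 ≤ |t|) : t ^ 2 ≤ 2 / a * |t| ^ 3 := by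
  rcases eq_or_ne t 0 with rfl | ht
  · simp
  · have := h ht
    rw [div_mul_eq_mul_div, le_div_iff₀ ha, ← sq_abs t]
    nlinarith [sq_nonneg |t|, abs_nonneg t]

/-- A piece of amplitude about `a`. -/
def Piece (a : ℝ) (F : Fn N) : Prop :=
  ∀ x y, |F x y| ≤ a ∧ (F x y ≠ 0 → a / 2 ≤ |F x y|)

noncomputable def cube (F : Fn N) : ℝ := av2 fun x y => |F x y| ^ 3

lemma cube_nonneg (F : Fn N) : 0 ≤ cube F := av2_nonneg fun _ _ => by positivity

lemma Piece.en {a : ℝ} {F : Fn N} (ha : 0 < a) (h : Piece a F) : En F ≤ 2 / a * cube F := by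
  rw [cube, ← av2_mul_left]
  exact av2_mono fun x y => sqr_le_cube ha (h x y).2

lemma Piece.p4 {a : ℝ} {F : Fn N} (h : Piece a F) : P075.p4 F ≤ a * cube F := by
  rw [cube, ← av2_mul_left]
  refine av2_mono fun x y => ?_
  rw [← Even.pow_abs (by decide) (F x y), show |F x y| ^ 4 = |F x y| * |F x y| ^ 3 by ring]
  exact mul_le_mul_of_nonneg_right (h x y).1 (by positivity)

lemma Piece.swap {a : ℝ} {F : Fn N} (h : Piece a F) : Piece a fun z y => F y z :=
  fun z y => h y z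

lemma cube_swap (F : Fn N) : cube (fun z y => F y z) = cube F := by
  simp only [cube, av2]; rw [av_comm]

lemma Tot_scale (a b d : ℝ) (ha : 0 < a) (hb : 0 < b) (hd : 0 < d) (c : ℕ → ℝ) (A F B : Fn N) :
    Tot N c A F B = a * b * d * Tot N c (a⁻¹ • A) (b⁻¹ • F) (d⁻¹ • B) := by
  rw [Tot_smul, abs_of_pos (by positivity)]
  field_simp

lemma en_smul (a : ℝ) (F : Fn N) : En (a • F) = a ^ 2 * En F := by
  simp only [En, ← av2_mul_left, Pi.smul_apply, smul_eq_mul, mul_pow]

lemma p4_smul (a : ℝ) (F : Fn N) : p4 (a • F) = a ^ 4 * p4 F := by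
  simp only [p4, ← av2_mul_left, Pi.smul_apply, smul_eq_mul, mul_pow]

lemma side_arith {a b d e m s G : ℝ} (hb : 0 ≤ b) (hbm : b ≤ m) (hme : m ≤ e) (hs : 0 ≤ s)
    (hG : 0 ≤ G) (hprod : a * d ≤ m * (G * b)) (hms : s * b ^ 2 ≤ m * m) :
    2 * (6 * s + 669) * (a * b * d) ≤ 1350 * G * e ^ 3 := by
  have hm : 0 ≤ m := hb.trans hbm
  have hG3 : G * m ^ 3 ≤ G * e ^ 3 := mul_le_mul_of_nonneg_left (pow_le_pow_left₀ hm hme 3) hG
  have k1 : s * (a * b * d) ≤ G * m ^ 3 := by
    calc s * (a * b * d) = s * b * (a * d) := by ring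
      _ ≤ s * b * (m * (G * b)) := mul_le_mul_of_nonneg_left hprod (mul_nonneg hs hb)
      _ = G * m * (s * b ^ 2) := by ring
      _ ≤ G * m * (m * m) := mul_le_mul_of_nonneg_left hms (mul_nonneg hG hm)
      _ = _ := by ring
  have k2 : a * b * d ≤ G * m ^ 3 := by
    calc a * b * d = b * (a * d) := by ring
      _ ≤ b * (m * (G * b)) := mul_le_mul_of_nonneg_left hprod hb
      _ = G * m * (b * b) := by ring
      _ ≤ G * m * (m * m) := mul_le_mul_of_nonneg_left (mul_le_mul hbm hbm hb hm) (mul_nonneg hG hm)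
      _ = _ := by ring
  linarith

lemma mid_arith {a b d m s G : ℝ} (hb : 0 < b) (hG : 0 ≤ G) (hs : m / b ≤ s) (hs0 : 0 < s)
    (hprod : a * d ≤ m * (G * b)) : a * d / (b * b * s) ≤ G := by
  rw [div_le_iff₀ (by positivity)]
  refine hprod.trans ?_
  calc m * (G * b) = G * b * b * (m / b) := by field_simp
    _ ≤ G * b * b * s := mul_le_mul_of_nonneg_left hs (by positivity)
    _ = _ := by ring

lemma s_arith {b m : ℝ} (hb : 0 < b) (hmb : b ≤ m) :
    m / b ≤ Real.sqrt ((m / b) ^ 3) ∧ Real.sqrt ((m / b) ^ 3) * b ^ 2 ≤ m * m := by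
  have hm : 0 < m := hb.trans_le hmb
  have h1 : 1 ≤ m / b := (one_le_div hb).2 hmb
  constructor
  · exact Real.le_sqrt_of_sq_le (pow_le_pow_right₀ h1 (by norm_num))
  · calc Real.sqrt ((m / b) ^ 3) * b ^ 2 ≤ (m / b) ^ 2 * b ^ 2 := by
          refine mul_le_mul_of_nonneg_right ((Real.sqrt_le_left (by positivity)).2 ?_) (sq_nonneg _)
          rw [← pow_mul]; exact pow_le_pow_right₀ h1 (by norm_num)
      _ = m * m := by field_simp

/-- Smallest amplitude in the middle: local bound. -/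
lemma near_bound {c : ℕ → ℝ} {M a b d G : ℝ} (hM : 1 ≤ M) (hc : ∀ k, 0 ≤ c k)
    (hc1 : ∀ k, c k ≤ 1) (hcM : ∑ k ∈ Finset.range N, c k ≤ M) {A F B : Fn N}
    (hA : Piece a A) (hF : Piece b F) (hB : Piece d B) (hb : 0 < b) (hba : b ≤ a) (hbd : b ≤ d)
    (haG : a ≤ G * b) (hdG : d ≤ G * b) :
    Tot N c A F B ≤ 1400 * M ^ (3 / 8 : ℝ) * G * (cube A + cube F + cube B) := by
  have ha : 0 < a := hb.trans_le hba
  have hd : 0 < d := hb.trans_le hbd
  have hG : 0 ≤ G := by
    by_contra h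
    have : G * b < 0 := mul_neg_of_neg_of_pos (not_le.1 h) hb
    linarith
  set m := min a d with hm
  have hmb : b ≤ m := le_min hba hbd
  have hm0 : 0 < m := hb.trans_le hmb
  set s : ℝ := Real.sqrt ((m / b) ^ 3) with hs
  have hs0 : 0 < s := Real.sqrt_pos.2 (by positivity)
  obtain ⟨hs1, hms⟩ := s_arith hb hmb
  rw [← hs] at hs1 hms
  have hprod : a * d ≤ m * (G * b) := by
    rcases le_total a d with h' | h'
    · rw [hm, min_eq_left h']; exact mul_le_mul_of_nonneg_left hdG ha.le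
    · rw [hm, min_eq_right h', mul_comm a]; exact mul_le_mul_of_nonneg_left haG hd.le
  have hbd' : ∀ {e : ℝ} {P : Fn N}, 0 < e → Piece e P → ∀ x y, |(e⁻¹ • P) x y| ≤ 1 := by
    intro e P he hP x y
    simp only [Pi.smul_apply, smul_eq_mul, abs_mul, abs_inv, abs_of_pos he]
    exact inv_mul_le_one_of_le₀ (hP x y).1 he.le
  have h := bounded_bound hs0 hM hc hc1 hcM (hbd' ha hA) (hbd' hb hF) (hbd' hd hB)
  rw [en_smul, en_smul, en_smul] at h
  rw [Tot_scale a b d ha hb hd]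
  refine (mul_le_mul_of_nonneg_left h (by positivity)).trans ?_
  have hT : 0 ≤ M ^ (3 / 8 : ℝ) := rpow_nonneg (by linarith) _
  have h1 : a * b * d * (b⁻¹ ^ 2 * En F / (2 * s)) ≤ 1400 * G * cube F := by
    refine (mul_le_mul_of_nonneg_left (div_le_div_of_nonneg_right
      (mul_le_mul_of_nonneg_left (hF.en hb) (sq_nonneg _)) (by positivity)) (by positivity)).trans ?_
    have e : a * b * d * (b⁻¹ ^ 2 * (2 / b * cube F) / (2 * s))
        = a * d / (b * b * s) * cube F := by field_simp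
    rw [e]
    refine mul_le_mul_of_nonneg_right ((mid_arith hb hG hs1 hs0 hprod).trans ?_) (cube_nonneg F)
    linarith
  have h2 : ∀ {e : ℝ} {P : Fn N}, 0 < e → m ≤ e → Piece e P →
      a * b * d * ((6 * s + 669) * (e⁻¹ ^ 2 * En P)) ≤ 1400 * G * cube P := by
    intro e P he hme hP
    refine (mul_le_mul_of_nonneg_left (mul_le_mul_of_nonneg_left (mul_le_mul_of_nonneg_left
      (hP.en he) (sq_nonneg _)) (by positivity)) (by positivity)).trans ?_
    have e' : a * b * d * ((6 * s + 669) * (e⁻¹ ^ 2 * (2 / e * cube P)))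
        = 2 * (6 * s + 669) * (a * b * d) / e ^ 3 * cube P := by field_simp
    rw [e']
    refine mul_le_mul_of_nonneg_right ?_ (cube_nonneg P)
    rw [div_le_iff₀ (by positivity)]
    refine (side_arith hb.le hmb hme hs0.le hG hprod hms).trans ?_
    exact mul_le_mul_of_nonneg_right (by linarith) (by positivity)
  calc a * b * d * (M ^ (3 / 8 : ℝ) * (b⁻¹ ^ 2 * En F / (2 * s)
        + (6 * s + 669) * (a⁻¹ ^ 2 * En A + d⁻¹ ^ 2 * En B)))
      = M ^ (3 / 8 : ℝ) * (a * b * d * (b⁻¹ ^ 2 * En F / (2 * s))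
        + a * b * d * ((6 * s + 669) * (a⁻¹ ^ 2 * En A))
        + a * b * d * ((6 * s + 669) * (d⁻¹ ^ 2 * En B))) := by ring
    _ ≤ M ^ (3 / 8 : ℝ) * (1400 * G * cube F + 1400 * G * cube A + 1400 * G * cube B) :=
        mul_le_mul_of_nonneg_left (add_le_add (add_le_add h1 (h2 ha (min_le_left _ _) hA))
          (h2 hd (min_le_right _ _) hB)) hT
    _ = _ := by ring

/-- Largest amplitude in the middle: (4,4,2) bound. -/
lemma far_bound {c : ℕ → ℝ} {M a b d G : ℝ} (hM : 1 ≤ M) (hc : ∀ k, 0 ≤ c k)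
    (hc1 : ∀ k, c k ≤ 1) (hcM : ∑ k ∈ Finset.range N, c k ≤ M) {A F B : Fn N}
    (hA : Piece a A) (hF : Piece b F) (hB : Piece d B) (ha : 0 < a) (hb : 0 < b) (hd : 0 < d)
    (hG : 0 < G) (hG' : a * d * G ≤ b ^ 2) :
    Tot N c A F B ≤ Real.sqrt M * G ^ (-(1 / 4) : ℝ) * (cube A + cube F + cube B) := by
  set s : ℝ := (d / a) ^ (1 / 8 : ℝ) with hs
  have hs0 : 0 < s := rpow_pos_of_pos (by positivity) _
  set w : ℝ := Real.sqrt (a * d) with hw
  have hw0 : 0 < w := Real.sqrt_pos.2 (by positivity)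
  have hs4 : s ^ 4 * a = w := by
    have e : s ^ 4 = Real.sqrt (d / a) := by
      rw [hs, ← rpow_natCast, ← rpow_mul (by positivity), Real.sqrt_eq_rpow]; norm_num
    rw [e, hw, show a * d = d / a * a ^ 2 by field_simp, Real.sqrt_mul (by positivity),
      Real.sqrt_sq ha.le]
  have hs4' : d / s ^ 4 = w := by
    rw [div_eq_iff (by positivity)]
    refine mul_right_cancel₀ ha.ne' ?_
    rw [mul_assoc, hs4, hw, Real.mul_self_sqrt (by positivity)]
    ring
  set u : ℝ := Real.sqrt (w / b) with hu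
  have hu0 : 0 < u := Real.sqrt_pos.2 (by positivity)
  set β : ℝ := Real.sqrt M * u / w with hβ
  have hβ0 : 0 < β := by positivity
  have h := quad_bound hβ0 hc hc1 hcM (s • A) F (s⁻¹ • B)
  rw [show Tot N c (s • A) F (s⁻¹ • B) = Tot N c A F B by
    rw [← one_smul ℝ F, Tot_smul, mul_one, mul_inv_cancel₀ hs0.ne', abs_one, one_mul, one_smul],
    p4_smul, p4_smul] at h
  have eF := hF.en hb
  have cA := cube_nonneg A
  have cF := cube_nonneg F
  have cB := cube_nonneg B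
  refine h.trans ?_
  have k1 : En F * M / (2 * β) ≤ Real.sqrt M * u * cube F := by
    refine (div_le_div_of_nonneg_right (mul_le_mul_of_nonneg_right eF (by linarith))
      (by positivity)).trans (le_of_eq ?_)
    have hM' : Real.sqrt M * Real.sqrt M = M := Real.mul_self_sqrt (by linarith)
    have hu' : u * u = w / b := Real.mul_self_sqrt (by positivity)
    rw [hβ]
    field_simp
    rw [sq, sq, hM', hu']
    field_simp
  have k2 : β / 2 * (s ^ 4 * p4 A + s⁻¹ ^ 4 * p4 B) ≤ Real.sqrt M * u * (cube A + cube B) := by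
    refine (mul_le_mul_of_nonneg_left (add_le_add
      (mul_le_mul_of_nonneg_left hA.p4 (by positivity))
      (mul_le_mul_of_nonneg_left hB.p4 (by positivity))) (by positivity)).trans ?_
    rw [← mul_assoc (s ^ 4), hs4, ← mul_assoc, inv_pow, inv_mul_eq_div, hs4', hβ]
    have : Real.sqrt M * u / w / 2 * (w * cube A + w * cube B)
        = Real.sqrt M * u * (cube A + cube B) / 2 := by field_simp
    rw [this]
    have : 0 ≤ Real.sqrt M * u * (cube A + cube B) := by positivity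
    linarith
  have k3 : u ≤ G ^ (-(1 / 4) : ℝ) := by
    rw [hu, hw, Real.sqrt_eq_rpow, Real.sqrt_eq_rpow]
    have h2 : a * d / b ^ 2 ≤ G⁻¹ := by
      rw [div_le_iff₀ (by positivity), inv_mul_eq_div, le_div_iff₀ hG]; exact hG'
    have e : ((a * d) ^ (1 / 2 : ℝ) / b) ^ (1 / 2 : ℝ) = (a * d / b ^ 2) ^ (1 / 4 : ℝ) := by
      rw [show (1 / 4 : ℝ) = 1 / 2 * (1 / 2) by norm_num, rpow_mul (by positivity)]
      congr 1
      rw [div_rpow (by positivity) (by positivity), ← Real.sqrt_eq_rpow (b ^ 2), Real.sqrt_sq hb.le]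
    rw [e, rpow_neg hG.le, ← inv_rpow hG.le]
    exact rpow_le_rpow (by positivity) h2 (by norm_num)
  nlinarith [mul_le_mul_of_nonneg_left k3 (mul_nonneg (Real.sqrt_nonneg M)
    (show 0 ≤ cube A + cube F + cube B by linarith))]

end Vale.Agent.P075
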