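import Mathlib

/-!
Finite bit model of the dyadic triangular form: points are bit vectors, the top bit comes first.
-/

namespace Vale.Agent.P075

abbrev Pt (N : ℕ) := Fin N → Bool

abbrev Fn (N : ℕ) := Pt N → Pt N → ℝ

variable {N : ℕ}

/-- Haar sign. -/
def sgn (b : Bool) : ℝ := if b then -1 else 1

/-- Haar sign of the top bit. -/
def hh (x : Pt (N + 1)) : ℝ := sgn (x 0)

/-- Normalised average. -/
noncomputable def av (f : Pt N → ℝ) : ℝ := (∑ x, f x) / 2 ^ N

/-- Average over a square. -/
noncomputable def av2 (f : Fn N) : ℝ := av fun x => av fun y => f x y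

/-- Restriction to a child square. -/
def kid (F : Fn (N + 1)) (i j : Bool) : Fn N := fun x y => F (Fin.cons i x) (Fin.cons j y)

/-- The root term of the form; the three functions live on (x,y), (y,z), (x,z). -/
noncomputable def term (A F B : Fn (N + 1)) : ℝ :=
  av fun x => av fun y => av fun z => hh x * hh y * hh z * (A x y * F y z * B x z)

/-- Weighted sum of the absolute values of all terms, normalised by area. -/
noncomputable def Tot : (N : ℕ) → (ℕ → ℝ) → Fn N → Fn N → Fn N → ℝ
  | 0, _, _, _, _ => 0
  | _ + 1, c, A, F, B => c 0 * |term A F B|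
      + (∑ i : Bool, ∑ j : Bool,
          Tot _ (fun k => c (k + 1)) (kid A i j) (kid F j (i ^^ j)) (kid B i (i ^^ j))) / 4

lemma av_def (f : Pt N → ℝ) : av f = (∑ x, f x) / 2 ^ N := rfl

lemma av_add (f g : Pt N → ℝ) : (av fun x => f x + g x) = av f + av g := by
  simp only [av_def, Finset.sum_add_distrib, add_div]

lemma av_sub (f g : Pt N → ℝ) : (av fun x => f x - g x) = av f - av g := by
  simp only [av_def, Finset.sum_sub_distrib, sub_div]

lemma av_mul_left (a : ℝ) (f : Pt N → ℝ) : (av fun x => a * f x) = a * av f := by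
  simp only [av_def, ← Finset.mul_sum, mul_div_assoc]

lemma av_mul_right (a : ℝ) (f : Pt N → ℝ) : (av fun x => f x * a) = av f * a := by
  simp only [av_def, ← Finset.sum_mul, div_mul_eq_mul_div]

lemma av_div (a : ℝ) (f : Pt N → ℝ) : (av fun x => f x / a) = av f / a := by
  simp only [div_eq_mul_inv, av_mul_right]

lemma av_neg (f : Pt N → ℝ) : (av fun x => -f x) = -av f := by
  simp only [av_def, Finset.sum_neg_distrib, neg_div]

@[simp] lemma av_const (a : ℝ) : (av fun _ : Pt N => a) = a := by
  simp [av_def, mul_comm]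

lemma av_nonneg {f : Pt N → ℝ} (h : ∀ x, 0 ≤ f x) : 0 ≤ av f :=
  div_nonneg (Finset.sum_nonneg fun x _ => h x) (by positivity)

lemma av_mono {f g : Pt N → ℝ} (h : ∀ x, f x ≤ g x) : av f ≤ av g :=
  div_le_div_of_nonneg_right (Finset.sum_le_sum fun x _ => h x) (by positivity)

lemma abs_av_le (f : Pt N → ℝ) : |av f| ≤ av fun x => |f x| := by
  simp only [av_def, abs_div, abs_of_pos (show (0 : ℝ) < 2 ^ N by positivity)]
  exact div_le_div_of_nonneg_right (Finset.abs_sum_le_sum_abs _ _) (by positivity)

lemma av_cs (f g : Pt N → ℝ) :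
    (av fun x => f x * g x) ^ 2 ≤ (av fun x => f x ^ 2) * av fun x => g x ^ 2 := by
  simp only [av_def, div_pow, div_mul_div_comm, ← sq]
  exact div_le_div_of_nonneg_right (Finset.sum_mul_sq_le_sq_mul_sq _ _ _) (by positivity)

lemma av_comm (f : Fn N) : (av fun x => av fun y => f x y) = av fun y => av fun x => f x y := by
  simp only [av_def, ← Finset.sum_div]
  rw [Finset.sum_comm]

lemma av_mul_av (f g : Pt N → ℝ) : av f * av g = av fun x => av fun y => f x * g y := by
  simp only [av_mul_left, av_mul_right]

lemma av_zero_dim (f : Pt 0 → ℝ) : av f = f default := by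
  rw [av_def, Fintype.sum_unique, pow_zero, div_one]
  exact congrArg f (Subsingleton.elim _ _)

lemma av_succ (f : Pt (N + 1) → ℝ) :
    av f = ((av fun x => f (Fin.cons false x)) + av fun x => f (Fin.cons true x)) / 2 := by
  simp only [av_def]
  have h : ∑ x : Pt (N + 1), f x
      = ∑ p : Bool × Pt N, f (Fin.cons p.1 p.2) :=
    (Fintype.sum_equiv (Fin.consEquiv fun _ => Bool) (fun p => f (Fin.cons p.1 p.2)) f
      fun _ => rfl).symm
  rw [h, Fintype.sum_prod_type, Fintype.sum_bool, pow_succ]
  ring

lemma av_succ_sum (f : Pt (N + 1) → ℝ) :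
    av f = (∑ i : Bool, av fun x => f (Fin.cons i x)) / 2 := by
  rw [av_succ, Fintype.sum_bool, add_comm]

@[simp] lemma hh_cons (i : Bool) (x : Pt N) : hh (Fin.cons i x) = sgn i := by simp [hh]

@[simp] lemma sgn_false : sgn false = 1 := by simp [sgn]

@[simp] lemma sgn_true : sgn true = -1 := by simp [sgn]

lemma abs_hh (x : Pt (N + 1)) : |hh x| = 1 := by
  cases h : x 0 <;> simp [hh, sgn, h]

lemma hh_sq (x : Pt (N + 1)) : hh x ^ 2 = 1 := by
  rw [← sq_abs, abs_hh, one_pow]

lemma av2_succ (f : Fn (N + 1)) :
    av2 f = (∑ i : Bool, ∑ j : Bool, av2 (kid f i j)) / 4 := by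
  simp only [av2, kid, av_succ, av_add, av_div, Fintype.sum_bool]
  ring

lemma Tot_zero (c : ℕ → ℝ) (A F B : Fn 0) : Tot 0 c A F B = 0 := rfl

lemma Tot_succ (c : ℕ → ℝ) (A F B : Fn (N + 1)) : Tot (N + 1) c A F B = c 0 * |term A F B|
    + (∑ i : Bool, ∑ j : Bool,
        Tot N (fun k => c (k + 1)) (kid A i j) (kid F j (i ^^ j)) (kid B i (i ^^ j))) / 4 := rfl

lemma Tot_nonneg {c : ℕ → ℝ} (hc : ∀ k, 0 ≤ c k) (A F B : Fn N) : 0 ≤ Tot N c A F B := by
  induction N generalizing c with
  | zero => exact le_rfl
  | succ n ih =>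
    rw [Tot_succ]
    exact add_nonneg (mul_nonneg (hc 0) (abs_nonneg _))
      (div_nonneg (Finset.sum_nonneg fun i _ => Finset.sum_nonneg fun j _ =>
        ih (fun k => hc (k + 1)) _ _ _) (by norm_num))

lemma term_smul (a b d : ℝ) (A F B : Fn (N + 1)) :
    term (a • A) (b • F) (d • B) = a * b * d * term A F B := by
  simp only [term, ← av_mul_left, Pi.smul_apply, smul_eq_mul]
  congr! 6
  ring

lemma Tot_smul (a b d : ℝ) (c : ℕ → ℝ) (A F B : Fn N) :
    Tot N c (a • A) (b • F) (d • B) = |a * b * d| * Tot N c A F B := by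
  induction N generalizing c with
  | zero => simp [Tot_zero]
  | succ n ih =>
    have hk : ∀ (r : ℝ) (G : Fn (n + 1)) (i j : Bool), kid (r • G) i j = r • kid G i j :=
      fun _ _ _ _ => rfl
    simp only [Tot_succ, term_smul, hk, ih, abs_mul, Fintype.sum_bool]
    ring

lemma term_swap (A F B : Fn (N + 1)) :
    term B (fun z y => F y z) A = term A F B := by
  unfold term
  congr 1
  funext x
  rw [av_comm]
  congr! 4
  ring

lemma Tot_swap (c : ℕ → ℝ) (A F B : Fn N) :
    Tot N c B (fun z y => F y z) A = Tot N c A F B := by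
  induction N generalizing c with
  | zero => rfl
  | succ n ih =>
    have hk : ∀ i j : Bool, kid (fun z y => F y z) i j = fun z y => kid F j i y z :=
      fun _ _ => rfl
    simp only [Tot_succ, term_swap, Fintype.sum_bool, Bool.xor_self, Bool.true_xor,
      Bool.false_xor, Bool.not_true, Bool.not_false]
    rw [hk, hk, hk, hk]
    have e := fun i j l => ih (fun k => c (k + 1)) (kid A i j) (kid F j l) (kid B i l)
    linarith [e true true false, e true false true, e false true true, e false false false]

lemma term_rot (A F B : Fn (N + 1)) :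
    term F (fun z x => B x z) (fun y x => A x y) = term A F B := by
  unfold term
  conv_rhs => rw [av_comm]
  congr 1
  funext y
  conv_rhs => rw [av_comm]
  congr! 4
  ring

lemma Tot_rot (c : ℕ → ℝ) (A F B : Fn N) :
    Tot N c F (fun z x => B x z) (fun y x => A x y) = Tot N c A F B := by
  induction N generalizing c with
  | zero => rfl
  | succ n ih =>
    have hk : ∀ (G : Fn (n + 1)) (i j : Bool),
        kid (fun z y => G y z) i j = fun z y => kid G j i y z := fun _ _ _ => rfl
    simp only [Tot_succ, term_rot, Fintype.sum_bool, Bool.xor_self, Bool.true_xor,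
      Bool.false_xor, Bool.not_true, Bool.not_false]
    rw [hk B, hk B, hk B, hk B, hk A, hk A, hk A, hk A]
    have e := fun i j l => ih (fun k => c (k + 1)) (kid A i j) (kid F j l) (kid B i l)
    linarith [e true true false, e true false true, e false true true, e false false false]

lemma term_add_left (A A' F B : Fn (N + 1)) :
    term (A + A') F B = term A F B + term A' F B := by
  simp only [term, ← av_add, Pi.add_apply]
  congr! 6
  ring

lemma Tot_add_left {c : ℕ → ℝ} (hc : ∀ k, 0 ≤ c k) (A A' F B : Fn N) :
    Tot N c (A + A') F B ≤ Tot N c A F B + Tot N c A' F B := by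
  induction N generalizing c with
  | zero => simp [Tot_zero]
  | succ n ih =>
    have hk : ∀ i j : Bool, kid (A + A') i j = kid A i j + kid A' i j := fun _ _ => rfl
    simp only [Tot_succ, hk, Fintype.sum_bool, term_add_left]
    have h0 := mul_le_mul_of_nonneg_left (abs_add_le (term A F B) (term A' F B)) (hc 0)
    have h1 := ih (c := fun k => c (k + 1)) (fun k => hc (k + 1))
    linarith [h1 (kid A true true) (kid A' true true) (kid F true (true ^^ true))
        (kid B true (true ^^ true)),
      h1 (kid A true false) (kid A' true false) (kid F false (true ^^ false))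
        (kid B true (true ^^ false)),
      h1 (kid A false true) (kid A' false true) (kid F true (false ^^ true))
        (kid B false (false ^^ true)),
      h1 (kid A false false) (kid A' false false) (kid F false (false ^^ false))
        (kid B false (false ^^ false))]

end Vale.Agent.P075
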