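import Vale.Agent.P075.Classes

/-!
Summation over amplitude classes.
-/

namespace Vale.Agent.P075

open Real

variable {N : ℕ}

/-- Amplitude class: `2^(j-1) ≤ |x| < 2^j`. -/
noncomputable def cls (x : ℝ) : ℤ := Int.log 2 |x| + 1

lemma cls_lt {x : ℝ} : |x| ≤ (2 : ℝ) ^ cls x := by
  have := Int.lt_zpow_succ_log_self (b := 2) (by norm_num) |x|
  exact le_of_lt (by simpa [cls] using this)

lemma le_cls {x : ℝ} (hx : x ≠ 0) : (2 : ℝ) ^ cls x / 2 ≤ |x| := by
  have := Int.zpow_log_le_self (b := 2) (by norm_num) (abs_pos.2 hx)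
  rw [cls, zpow_add_one₀ two_ne_zero, mul_div_assoc, div_self two_ne_zero, mul_one]
  simpa using this

noncomputable def piece (j : ℤ) (F : Fn N) : Fn N := fun x y => if cls (F x y) = j then F x y else 0

lemma piece_piece (j : ℤ) (F : Fn N) : Piece ((2 : ℝ) ^ j) (piece j F) := by
  intro x y
  unfold piece
  split_ifs with h
  · exact ⟨h ▸ cls_lt, fun hne => h ▸ le_cls hne⟩
  · exact ⟨by simp [(zpow_pos (by norm_num : (0 : ℝ) < 2) j).le], fun hne => absurd rfl hne⟩

noncomputable def classes (F : Fn N) : Finset ℤ :=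
  (Finset.univ : Finset (Pt N × Pt N)).image fun p => cls (F p.1 p.2)

lemma sum_piece (F : Fn N) : ∑ j ∈ classes F, piece j F = F := by
  funext x y
  simp only [Finset.sum_apply, piece]
  rw [Finset.sum_eq_single (cls (F x y))]
  · simp
  · intro j _ hj; simp [Ne.symm hj]
  · intro h; exact absurd (Finset.mem_image.2 ⟨(x, y), Finset.mem_univ _, rfl⟩) h

lemma av2_sum {α : Type*} (J : Finset α) (f : α → Fn N) :
    (av2 fun x y => ∑ j ∈ J, f j x y) = ∑ j ∈ J, av2 (f j) := by
  simp only [av2, av_def, Finset.sum_div]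
  rw [Finset.sum_comm (s := J)]
  refine Finset.sum_congr rfl fun x _ => ?_
  rw [Finset.sum_comm]

lemma sum_cube (F : Fn N) : ∑ j ∈ classes F, cube (piece j F) = cube F := by
  unfold cube
  rw [← av2_sum]
  congr 1
  funext x y
  rw [Finset.sum_eq_single (cls (F x y))]
  · simp [piece]
  · intro j _ hj; simp [piece, Ne.symm hj]
  · intro h; exact absurd (Finset.mem_image.2 ⟨(x, y), Finset.mem_univ _, rfl⟩) h

lemma Tot_zero_left (c : ℕ → ℝ) (F B : Fn N) : Tot N c 0 F B = 0 := by
  have := Tot_smul 0 1 1 c (0 : Fn N) F B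
  simpa using this

lemma Tot_sum_left {α : Type*} {c : ℕ → ℝ} (hc : ∀ k, 0 ≤ c k) (J : Finset α) (f : α → Fn N)
    (F B : Fn N) : Tot N c (∑ j ∈ J, f j) F B ≤ ∑ j ∈ J, Tot N c (f j) F B := by
  classical
  induction J using Finset.induction with
  | empty => simp [Tot_zero_left]
  | insert a s ha ih =>
    rw [Finset.sum_insert ha, Finset.sum_insert ha]
    exact (Tot_add_left hc _ _ F B).trans (add_le_add le_rfl ih)

lemma Tot_expand {c : ℕ → ℝ} (hc : ∀ k, 0 ≤ c k) (J K L : Finset ℤ) (f g h : ℤ → Fn N) :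
    Tot N c (∑ j ∈ J, f j) (∑ k ∈ K, g k) (∑ l ∈ L, h l)
      ≤ ∑ j ∈ J, ∑ k ∈ K, ∑ l ∈ L, Tot N c (f j) (g k) (h l) := by
  refine (Tot_sum_left hc J f _ _).trans (Finset.sum_le_sum fun j _ => ?_)
  rw [← Tot_rot c (f j)]
  refine (Tot_sum_left hc K g _ _).trans (Finset.sum_le_sum fun k _ => ?_)
  rw [Tot_rot c (f j), ← Tot_swap c (f j)]
  exact (Tot_sum_left hc L h _ _).trans_eq (Finset.sum_congr rfl fun l _ => Tot_swap c _ _ _)

lemma Tot_rot2 (c : ℕ → ℝ) (A F B : Fn N) :
    Tot N c (fun z x => B x z) A (fun z y => F y z) = Tot N c A F B :=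
  (Tot_rot c F (fun z x => B x z) fun y x => A x y).trans (Tot_rot c A F B)

section triple

variable {c : ℕ → ℝ} {M : ℝ}

/-- The bound for three pieces with the amplitude exponents `i, j, k`. -/
lemma triple_bound (hM : 1 ≤ M) (hc : ∀ k, 0 ≤ c k) (hc1 : ∀ k, c k ≤ 1)
    (hcM : ∑ k ∈ Finset.range N, c k ≤ M) {i j k : ℤ} {A F B : Fn N}
    (hA : Piece ((2 : ℝ) ^ i) A) (hF : Piece ((2 : ℝ) ^ j) F) (hB : Piece ((2 : ℝ) ^ k) B) :
    Tot N c A F B ≤ 1400 * M ^ (77 / 160 : ℝ)
      * ((2 : ℝ) ^ (max i (max j k) - min i (min j k))) ^ (-(1 / 16) : ℝ)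
      * (cube A + cube F + cube B) := by
  set G : ℝ := (2 : ℝ) ^ (max i (max j k) - min i (min j k)) with hG
  have hG1 : 1 ≤ G := one_le_zpow₀ (by norm_num) (by omega)
  have hG0 : 0 < G := by linarith
  have hM0 : 0 < M := by linarith
  have hsum : 0 ≤ cube A + cube F + cube B := by
    linarith [cube_nonneg A, cube_nonneg F, cube_nonneg B]
  have hp : ∀ t : ℤ, (0 : ℝ) < 2 ^ t := fun t => zpow_pos (by norm_num) t
  have hle : ∀ u v : ℤ, u - v ≤ max i (max j k) - min i (min j k) →
      (2 : ℝ) ^ u ≤ G * 2 ^ v := by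
    intro u v h
    rw [hG, ← zpow_add₀ two_ne_zero]
    exact zpow_le_zpow_right₀ (by norm_num) (by omega)
  have hmono : ∀ {u v : ℤ}, u ≤ v → (2 : ℝ) ^ u ≤ 2 ^ v := fun h =>
    zpow_le_zpow_right₀ (by norm_num) h
  by_cases hcase : G ≤ M ^ (1 / 10 : ℝ)
  · have key : Tot N c A F B ≤ 1400 * M ^ (3 / 8 : ℝ) * G * (cube A + cube F + cube B) := by
      rcases le_total j i with h1 | h1
      · rcases le_total j k with h2 | h2
        · exact near_bound hM hc hc1 hcM hA hF hB (hp j) (hmono h1) (hmono h2)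
            (hle _ _ (by omega)) (hle _ _ (by omega))
        · have := near_bound hM hc hc1 hcM hF hB.swap hA.swap (hp k) (hmono h2)
            (hmono (h2.trans h1)) (hle j k (by omega)) (hle i k (by omega))
          rw [Tot_rot, cube_swap B, cube_swap A] at this
          linarith
      · rcases le_total i k with h2 | h2
        · have := near_bound hM hc hc1 hcM hB.swap hA hF.swap (hp i) (hmono h2)
            (hmono h1) (hle k i (by omega)) (hle j i (by omega))
          rw [Tot_rot2, cube_swap B, cube_swap F] at this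
          linarith
        · have := near_bound hM hc hc1 hcM hF hB.swap hA.swap (hp k) (hmono (h2.trans h1))
            (hmono h2) (hle j k (by omega)) (hle i k (by omega))
          rw [Tot_rot, cube_swap B, cube_swap A] at this
          linarith
    refine key.trans (mul_le_mul_of_nonneg_right ?_ hsum)
    rw [mul_assoc, mul_assoc]
    refine mul_le_mul_of_nonneg_left ?_ (by norm_num)
    have e : G = G ^ (17 / 16 : ℝ) * G ^ (-(1 / 16) : ℝ) := by
      rw [← rpow_add hG0]; norm_num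
    conv_lhs => rw [e]
    rw [← mul_assoc]
    refine mul_le_mul_of_nonneg_right ?_ (rpow_nonneg hG0.le _)
    have h2 := rpow_le_rpow hG0.le hcase (by norm_num : (0 : ℝ) ≤ 17 / 16)
    rw [← rpow_mul hM0.le] at h2
    refine (mul_le_mul_of_nonneg_left h2 (rpow_nonneg hM0.le _)).trans_eq ?_
    rw [← rpow_add hM0]
    norm_num
  · push Not at hcase
    have key : Tot N c A F B ≤ Real.sqrt M * G ^ (-(1 / 4) : ℝ) * (cube A + cube F + cube B) := by
      have hfar : ∀ u v w : ℤ, u ≤ w → v ≤ w →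
          max i (max j k) - min i (min j k) ≤ 2 * w - u - v →
          (2 : ℝ) ^ u * 2 ^ v * G ≤ ((2 : ℝ) ^ w) ^ 2 := by
        intro u v w _ _ h
        rw [hG, sq, ← zpow_add₀ two_ne_zero, ← zpow_add₀ two_ne_zero, ← zpow_add₀ two_ne_zero]
        exact zpow_le_zpow_right₀ (by norm_num) (by omega)
      rcases le_total i j with h1 | h1
      · rcases le_total k j with h2 | h2
        · exact far_bound hM hc hc1 hcM hA hF hB (hp i) (hp j) (hp k) hG0
            (hfar i k j h1 h2 (by omega))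
        · have := far_bound hM hc hc1 hcM hF hB.swap hA.swap (hp j) (hp k) (hp i) hG0
            (hfar j i k h2 (h1.trans h2) (by omega))
          rw [Tot_rot, cube_swap B, cube_swap A] at this
          linarith
      · rcases le_total k i with h2 | h2
        · have := far_bound hM hc hc1 hcM hB.swap hA hF.swap (hp k) (hp i) (hp j) hG0
            (hfar k j i h2 h1 (by omega))
          rw [Tot_rot2, cube_swap B, cube_swap F] at this
          linarith
        · have := far_bound hM hc hc1 hcM hF hB.swap hA.swap (hp j) (hp k) (hp i) hG0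
            (hfar j i k (h1.trans h2) h2 (by omega))
          rw [Tot_rot, cube_swap B, cube_swap A] at this
          linarith
    refine key.trans (mul_le_mul_of_nonneg_right ?_ hsum)
    have e : G ^ (-(1 / 4) : ℝ) = G ^ (-(3 / 16) : ℝ) * G ^ (-(1 / 16) : ℝ) := by
      rw [← rpow_add hG0]; norm_num
    rw [e, ← mul_assoc]
    refine mul_le_mul_of_nonneg_right ?_ (rpow_nonneg hG0.le _)
    have h2 := rpow_le_rpow_of_nonpos (rpow_pos_of_pos hM0 _) hcase.le
      (by norm_num : (-(3 / 16) : ℝ) ≤ 0)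
    rw [← rpow_mul hM0.le] at h2
    refine (mul_le_mul_of_nonneg_left h2 (Real.sqrt_nonneg _)).trans ?_
    rw [Real.sqrt_eq_rpow, ← rpow_add hM0]
    norm_num
    have := rpow_nonneg hM0.le (77 / 160)
    linarith

/-- Decay in the exponent. -/
noncomputable def wgt (t : ℤ) : ℝ := ((2 : ℝ) ^ (-(1 / 32) : ℝ)) ^ t.natAbs

lemma wgt_nonneg (t : ℤ) : 0 ≤ wgt t := pow_nonneg (rpow_nonneg (by norm_num) _) _

lemma wgt_summable : Summable wgt := by
  have h : Summable fun n : ℕ => ((2 : ℝ) ^ (-(1 / 32) : ℝ)) ^ n :=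
    summable_geometric_of_lt_one (rpow_nonneg (by norm_num) _)
      (rpow_lt_one_of_one_lt_of_neg (by norm_num) (by norm_num))
  refine Summable.of_nat_of_neg ?_ ?_ <;> simpa [wgt] using h

lemma sum_wgt_le (J : Finset ℤ) (i : ℤ) : ∑ j ∈ J, wgt (j - i) ≤ ∑' t, wgt t := by
  refine le_trans (le_of_eq ?_)
    (wgt_summable.sum_le_tsum (J.image fun j => j - i) fun t _ => wgt_nonneg t)
  rw [Finset.sum_image fun a _ b _ h => by simpa using h]

lemma decay_le {i j k u v : ℤ} (hu : u.natAbs + v.natAbs ≤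
    2 * (max i (max j k) - min i (min j k)).natAbs) :
    ((2 : ℝ) ^ (max i (max j k) - min i (min j k))) ^ (-(1 / 16) : ℝ) ≤ wgt u * wgt v := by
  set g := max i (max j k) - min i (min j k) with hg
  have hg0 : 0 ≤ g := by omega
  rw [wgt, wgt, ← pow_add, ← rpow_natCast _ (u.natAbs + v.natAbs), ← rpow_mul (by norm_num),
    ← rpow_intCast, ← rpow_mul (by norm_num)]
  refine rpow_le_rpow_of_exponent_le (by norm_num) ?_
  have h : ((u.natAbs + v.natAbs : ℕ) : ℝ) ≤ 2 * (g.natAbs : ℕ) := by exact_mod_cast hu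
  have h2 : ((g.natAbs : ℕ) : ℝ) = g := by
    rw [← Int.cast_natCast (R := ℝ), Int.natAbs_of_nonneg hg0]
  rw [h2] at h
  linarith

lemma unit_bound (hM : 1 ≤ M) (hc : ∀ k, 0 ≤ c k) (hc1 : ∀ k, c k ≤ 1)
    (hcM : ∑ k ∈ Finset.range N, c k ≤ M) (A F B : Fn N) :
    Tot N c A F B ≤ 1400 * (∑' t, wgt t) ^ 2 * M ^ (77 / 160 : ℝ)
      * (cube A + cube F + cube B) := by
  set D := ∑' t, wgt t with hD
  have hD0 : 0 ≤ D := tsum_nonneg wgt_nonneg
  set P := 1400 * M ^ (77 / 160 : ℝ) with hP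
  have hP0 : 0 ≤ P := mul_nonneg (by norm_num) (rpow_nonneg (by linarith) _)
  conv_lhs => rw [← sum_piece A, ← sum_piece F, ← sum_piece B]
  refine (Tot_expand hc _ _ _ (piece · A) (piece · F) (piece · B)).trans ?_
  refine (Finset.sum_le_sum fun i _ => Finset.sum_le_sum fun j _ => Finset.sum_le_sum fun k _ =>
    (triple_bound hM hc hc1 hcM (piece_piece i A) (piece_piece j F) (piece_piece k B)).trans
      (show _ ≤ P * (wgt (j - i) * wgt (k - i) * cube (piece i A))
        + P * (wgt (i - j) * wgt (k - j) * cube (piece j F))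
        + P * (wgt (i - k) * wgt (j - k) * cube (piece k B)) from ?_)).trans ?_
  · rw [mul_add, mul_add, mul_assoc P, mul_assoc P, mul_assoc P]
    exact add_le_add (add_le_add
      (mul_le_mul_of_nonneg_left (mul_le_mul_of_nonneg_right (decay_le (by omega))
        (cube_nonneg _)) hP0)
      (mul_le_mul_of_nonneg_left (mul_le_mul_of_nonneg_right (decay_le (by omega))
        (cube_nonneg _)) hP0))
      (mul_le_mul_of_nonneg_left (mul_le_mul_of_nonneg_right (decay_le (by omega))
        (cube_nonneg _)) hP0)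
  have key : ∀ (I J K : Finset ℤ) (f : ℤ → ℝ), (∀ t, 0 ≤ f t) →
      ∑ i ∈ I, ∑ j ∈ J, ∑ k ∈ K, wgt (j - i) * wgt (k - i) * f i ≤ D ^ 2 * ∑ i ∈ I, f i := by
    intro I J K f hf
    rw [Finset.mul_sum]
    refine Finset.sum_le_sum fun i _ => ?_
    simp only [← Finset.sum_mul, ← Finset.mul_sum]
    refine mul_le_mul_of_nonneg_right ?_ (hf i)
    rw [sq]
    exact mul_le_mul (sum_wgt_le J i) (sum_wgt_le K i)
      (Finset.sum_nonneg fun _ _ => wgt_nonneg _) hD0
  simp only [Finset.sum_add_distrib, ← Finset.mul_sum]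
  have e1 := key (classes A) (classes F) (classes B) (fun t => cube (piece t A))
    fun t => cube_nonneg _
  have e2 := key (classes F) (classes A) (classes B) (fun t => cube (piece t F))
    fun t => cube_nonneg _
  have e3 := key (classes B) (classes A) (classes F) (fun t => cube (piece t B))
    fun t => cube_nonneg _
  rw [Finset.sum_comm] at e2
  rw [Finset.sum_comm (γ := ℤ)] at e3
  simp_rw [Finset.sum_comm (s := classes B) (t := classes F)] at e3
  rw [sum_cube] at e1 e2 e3
  have := mul_le_mul_of_nonneg_left (add_le_add (add_le_add e1 e2) e3) hP0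
  simp only [mul_add, ← Finset.mul_sum] at this
  linarith

end triple

/-- The finite bound. -/
theorem finite_bound : FiniteBound (4200 * (∑' t, wgt t) ^ 2) (77 / 160) := by
  intro N c A F B M hc hc1 hM hcM
  have hn : ∀ G : Fn N, nrm3 G ^ 3 = cube G := fun G => by
    rw [show nrm3 G = cube G ^ (1 / 3 : ℝ) from rfl, ← rpow_natCast, ← rpow_mul (cube_nonneg G)]
    norm_num
  have hn0 : ∀ G : Fn N, 0 ≤ nrm3 G := fun G => rpow_nonneg (cube_nonneg G) _
  have hzero : ∀ G : Fn N, nrm3 G = 0 → G = 0 := by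
    intro G h
    have hc0 : cube G = 0 := by rw [← hn G, h]; norm_num
    simp only [cube, av2, av_def, div_eq_zero_iff, pow_eq_zero_iff', OfNat.ofNat_ne_zero,
      false_and, or_false] at hc0
    rw [Finset.sum_eq_zero_iff_of_nonneg fun x _ => by positivity] at hc0
    funext x y
    have hx := hc0 x (Finset.mem_univ x)
    simp only [div_eq_zero_iff, pow_eq_zero_iff', OfNat.ofNat_ne_zero, false_and, or_false] at hx
    rw [Finset.sum_eq_zero_iff_of_nonneg fun y _ => by positivity] at hx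
    simpa using hx y (Finset.mem_univ y)
  have hK : 0 ≤ 4200 * (∑' t, wgt t) ^ 2 * M ^ (77 / 160 : ℝ) :=
    mul_nonneg (by positivity) (rpow_nonneg (by linarith) _)
  have hR : 0 ≤ 4200 * (∑' t, wgt t) ^ 2 * M ^ (77 / 160 : ℝ) * (nrm3 A * nrm3 F * nrm3 B) :=
    mul_nonneg hK (mul_nonneg (mul_nonneg (hn0 A) (hn0 F)) (hn0 B))
  by_cases hA : nrm3 A = 0
  · rw [hzero A hA, Tot_zero_left]; exact (hzero A hA) ▸ hR
  by_cases hF : nrm3 F = 0
  · have : Tot N c A F B = 0 := by rw [hzero F hF, ← Tot_rot, Tot_zero_left]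
    rw [this]; exact hR
  by_cases hB : nrm3 B = 0
  · have : Tot N c A F B = 0 := by rw [hzero B hB, ← Tot_swap, Tot_zero_left]
    rw [this]; exact hR
  have hcs : ∀ (G : Fn N), nrm3 G ≠ 0 → cube ((nrm3 G)⁻¹ • G) = 1 := by
    intro G h
    simp only [cube, Pi.smul_apply, smul_eq_mul, abs_mul, mul_pow, av2_mul_left, abs_inv,
      abs_of_nonneg (hn0 G)]
    rw [← cube, ← hn G, inv_pow, inv_mul_cancel₀ (pow_ne_zero _ h)]
  have h := unit_bound hM hc hc1 hcM ((nrm3 A)⁻¹ • A) ((nrm3 F)⁻¹ • F) ((nrm3 B)⁻¹ • B)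
  rw [hcs A hA, hcs F hF, hcs B hB] at h
  have pA := lt_of_le_of_ne (hn0 A) (Ne.symm hA)
  have pF := lt_of_le_of_ne (hn0 F) (Ne.symm hF)
  have pB := lt_of_le_of_ne (hn0 B) (Ne.symm hB)
  rw [Tot_scale _ _ _ pA pF pB]
  refine (mul_le_mul_of_nonneg_left h (by positivity)).trans_eq ?_
  ring

end Vale.Agent.P075
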