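import Vale.Agent.P075.Defs

/-!
Gram kernels, the energy identity between a square and its children, removal of large components.
-/

namespace Vale.Agent.P075

variable {N : ℕ}

noncomputable def gram (A : Fn N) (x x' : Pt N) : ℝ := av fun y => A x y * A x' y

noncomputable def bx (A : Fn N) : ℝ := av2 fun x x' => gram A x x' ^ 2

noncomputable def mx (A B : Fn N) : ℝ := av2 fun x x' => gram A x x' * gram B x x'

noncomputable def Zp (A B : Fn N) : ℝ := mx A B + (bx A + bx B) / 2

noncomputable def En (A : Fn N) : ℝ := av2 fun x y => A x y ^ 2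

noncomputable def sqTerm (A B : Fn (N + 1)) : ℝ :=
  av fun y => av fun z => (av fun x => hh x * (A x y * B x z)) ^ 2

def OpLE (A : Fn N) (r : ℝ) : Prop :=
  ∀ v : Pt N → ℝ, (av fun x => (av fun y => A x y * v y) ^ 2) ≤ r * av fun y => v y ^ 2

lemma av2_add (f g : Fn N) : (av2 fun x y => f x y + g x y) = av2 f + av2 g := by
  simp only [av2, av_add]

lemma av2_sub (f g : Fn N) : (av2 fun x y => f x y - g x y) = av2 f - av2 g := by
  simp only [av2, av_sub]

lemma av2_mul_left (a : ℝ) (f : Fn N) : (av2 fun x y => a * f x y) = a * av2 f := by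
  simp only [av2, av_mul_left]

lemma av2_div (a : ℝ) (f : Fn N) : (av2 fun x y => f x y / a) = av2 f / a := by
  simp only [av2, av_div]

lemma av2_mono {f g : Fn N} (h : ∀ x y, f x y ≤ g x y) : av2 f ≤ av2 g :=
  av_mono fun x => av_mono fun y => h x y

lemma av2_nonneg {f : Fn N} (h : ∀ x y, 0 ≤ f x y) : 0 ≤ av2 f :=
  av_nonneg fun x => av_nonneg fun y => h x y

lemma av_comm4 (g : Pt N → Pt N → Pt N → Pt N → ℝ) :
    (av fun x => av fun x' => av fun y => av fun z => g x x' y z)
      = av fun y => av fun z => av fun x => av fun x' => g x x' y z := by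
  calc (av fun x => av fun x' => av fun y => av fun z => g x x' y z)
      = av fun x => av fun y => av fun x' => av fun z => g x x' y z := by
        congr 1; funext x; exact av_comm _
    _ = av fun y => av fun x => av fun x' => av fun z => g x x' y z := av_comm _
    _ = av fun y => av fun x => av fun z => av fun x' => g x x' y z := by
        congr 1; funext y; congr 1; funext x; exact av_comm _
    _ = _ := by congr 1; funext y; exact av_comm _

lemma gram_inner (f : Pt N → ℝ) (P Q : Fn N) :
    (av2 fun x x' => f x * f x' * (gram P x x' * gram Q x x'))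
      = av fun y => av fun z => (av fun x => f x * (P x y * Q x z)) ^ 2 := by
  simp only [av2, gram, sq, av_mul_av]
  simp only [← av_mul_left]
  rw [av_comm4]
  congr! 8
  ring

lemma gram_inner_one (P Q : Fn N) :
    mx P Q = av fun y => av fun z => (av fun x => P x y * Q x z) ^ 2 := by
  simpa [mx] using gram_inner (fun _ => (1 : ℝ)) P Q

lemma mx_nonneg (A B : Fn N) : 0 ≤ mx A B := by
  rw [gram_inner_one]; exact av_nonneg fun y => av_nonneg fun z => sq_nonneg _

lemma bx_nonneg (A : Fn N) : 0 ≤ bx A := av2_nonneg fun _ _ => sq_nonneg _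

lemma Zp_nonneg (A B : Fn N) : 0 ≤ Zp A B := by
  unfold Zp; linarith [mx_nonneg A B, bx_nonneg A, bx_nonneg B]

lemma mx_le (A B : Fn N) : mx A B ≤ (bx A + bx B) / 2 := by
  simp only [mx, bx, ← av2_add, ← av2_div]
  exact av2_mono fun x x' => by nlinarith [sq_nonneg (gram A x x' - gram B x x')]

lemma mx_comm (A B : Fn N) : mx A B = mx B A := by
  simp only [mx, mul_comm]

lemma En_nonneg (A : Fn N) : 0 ≤ En A := av2_nonneg fun _ _ => sq_nonneg _

lemma En_succ (A : Fn (N + 1)) : En A = (∑ i : Bool, ∑ j : Bool, En (kid A i j)) / 4 :=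
  av2_succ _

/-- The middle function is split off pointwise. -/
lemma abs_term_le (A F B : Fn (N + 1)) {β : ℝ} (hβ : 0 < β) :
    |term A F B| ≤ En F / (2 * β) + β / 2 * sqTerm A B := by
  have e : term A F B
      = av fun y => av fun z => (hh y * hh z * F y z) * av fun x => hh x * (A x y * B x z) := by
    simp only [term, ← av_mul_left]
    rw [av_comm]
    congr 1; funext y
    rw [av_comm]
    congr! 4
    ring
  rw [e]
  refine ((abs_av_le _).trans (av_mono fun y => (abs_av_le _).trans (av_mono fun z => ?_))).trans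
    (le_of_eq (b := En F / (2 * β) + β / 2 * sqTerm A B) (by
      simp only [En, av2, sqTerm]
      exact (show (av fun y => av fun z => F y z ^ 2 / (2 * β)
          + β / 2 * (av fun x => hh x * (A x y * B x z)) ^ 2) = _ by
        simp only [av_add, av_div, av_mul_left])))
  rw [abs_mul, abs_mul, abs_mul, abs_hh, abs_hh, one_mul, one_mul]
  generalize (av fun x => hh x * (A x y * B x z)) = g
  rw [← sq_abs g, ← sq_abs (F y z), div_add' _ _ _ (by positivity), le_div_iff₀ (by positivity)]
  nlinarith [sq_nonneg (|F y z| - β * |g|), abs_nonneg g, abs_nonneg (F y z)]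

noncomputable def gb (A : Fn (N + 1)) (i i' : Bool) (x x' : Pt N) : ℝ :=
  ((av fun y => kid A i false x y * kid A i' false x' y)
    + av fun y => kid A i true x y * kid A i' true x' y) / 2

lemma gram_cons (A : Fn (N + 1)) (i i' : Bool) (x x' : Pt N) :
    gram A (Fin.cons i x) (Fin.cons i' x') = gb A i i' x x' := by
  simp only [gb, gram, kid]
  rw [av_succ]

lemma sqTerm_add_Zp_le (A B : Fn (N + 1)) :
    sqTerm A B + Zp A B ≤
      (∑ i : Bool, ∑ j : Bool, Zp (kid A i j) (kid B i (i ^^ j))) / 4 := by
  have hX : sqTerm A B = av2 fun x x' => hh x * hh x' * (gram A x x' * gram B x x') :=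
    (gram_inner hh A B).symm
  have hT : ∀ P : Fn (N + 1), 0 ≤ av2 fun x x' => hh x * hh x' * gram P x x' ^ 2 := by
    intro P
    have := gram_inner hh P P
    simp only [← sq] at this
    rw [this]
    exact av_nonneg fun y => av_nonneg fun z => sq_nonneg _
  have key : ∀ i : Bool, (av2 fun x x' => (gb A i i x x' * gb B i i x x'
        + (gb A i i x x' ^ 2 + gb B i i x x' ^ 2) / 2) * 2)
      ≤ Zp (kid A i false) (kid B i i) + Zp (kid A i true) (kid B i (!i)) := by
    intro i
    simp only [Zp, mx, bx, ← av2_add, ← av2_div]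
    refine av2_mono fun x x' => ?_
    cases i <;>
    · simp only [gb, gram, Bool.not_false, Bool.not_true]
      generalize (av fun y => kid A _ false x y * kid A _ false x' y) = p
      generalize (av fun y => kid A _ true x y * kid A _ true x' y) = q
      generalize (av fun y => kid B _ false x y * kid B _ false x' y) = r
      generalize (av fun y => kid B _ true x y * kid B _ true x' y) = s
      nlinarith [sq_nonneg (p + r - q - s), sq_nonneg (p + s - q - r)]
  have e : ∀ (g : Pt (N + 1) → Pt (N + 1) → ℝ),
      (av2 fun x x' => (1 + hh x * hh x') * g x x') =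
        ((av2 fun x x' => 2 * g (Fin.cons false x) (Fin.cons false x'))
          + av2 fun x x' => 2 * g (Fin.cons true x) (Fin.cons true x')) / 4 := by
    intro g
    rw [av2_succ]
    simp [kid, Fintype.sum_bool, av2, one_add_one_eq_two]
    ring
  have hsum := e fun x x' => gram A x x' * gram B x x'
      + (gram A x x' ^ 2 + gram B x x' ^ 2) / 2
  have hl : (av2 fun x x' => (1 + hh x * hh x') *
      (gram A x x' * gram B x x' + (gram A x x' ^ 2 + gram B x x' ^ 2) / 2))
      = sqTerm A B + Zp A B + ((av2 fun x x' => hh x * hh x' * gram A x x' ^ 2)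
          + av2 fun x x' => hh x * hh x' * gram B x x' ^ 2) / 2 := by
    simp only [hX, Zp, mx, bx, ← av2_add, ← av2_div]
    congr! 3
    ring
  rw [hl] at hsum
  simp only [gram_cons] at hsum
  have hf := key false
  have ht := key true
  simp only [mul_comm _ (2 : ℝ)] at hf ht
  simp only [Fintype.sum_bool, Bool.xor_self, Bool.true_xor, Bool.false_xor, Bool.not_false,
    Bool.not_true] at *
  linarith [hT A, hT B]

lemma OpLE.mono {A : Fn N} {r s : ℝ} (h : OpLE A r) (hrs : r ≤ s) : OpLE A s :=
  fun v => (h v).trans (mul_le_mul_of_nonneg_right hrs (av_nonneg fun _ => sq_nonneg _))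

lemma OpLE.transpose {A : Fn N} {r : ℝ} (hr : 0 ≤ r) (h : OpLE A r) (u : Pt N → ℝ) :
    (av fun y => (av fun x => A x y * u x) ^ 2) ≤ r * av fun x => u x ^ 2 := by
  set g : Pt N → ℝ := fun y => av fun x => A x y * u x with hg
  have e : (av fun y => g y ^ 2) = av fun x => u x * av fun y => A x y * g y := by
    calc (av fun y => g y ^ 2) = av fun y => av fun x => A x y * u x * g y := by
          congr 1; funext y; rw [av_mul_right, sq]
      _ = av fun x => av fun y => A x y * u x * g y := av_comm _
      _ = _ := by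
          congr 1; funext x; rw [← av_mul_left]; congr 1; funext y; ring
  have hcs := av_cs u fun x => av fun y => A x y * g y
  rw [← e] at hcs
  have hu : 0 ≤ av fun x => u x ^ 2 := av_nonneg fun _ => sq_nonneg _
  have hG : 0 ≤ av fun y => g y ^ 2 := av_nonneg fun _ => sq_nonneg _
  show (av fun y => g y ^ 2) ≤ _
  rcases hG.lt_or_eq with hpos | hz
  · refine le_of_mul_le_mul_right ?_ hpos
    nlinarith [mul_le_mul_of_nonneg_left (h g) hu]
  · rw [← hz]; positivity

lemma bx_le {A : Fn N} {r : ℝ} (hr : 0 ≤ r) (h : OpLE A r) : bx A ≤ r * En A := by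
  have e : bx A = mx A A := by simp only [bx, mx, sq]
  rw [e, gram_inner_one, En, av2, av_comm fun x y => A x y ^ 2, ← av_mul_left]
  refine av_mono fun y => le_of_eq_of_le ?_ (h.transpose hr fun x => A x y)
  congr 1; funext z; congr 2; funext x; ring

lemma Zp_le {A B : Fn N} {r : ℝ} (hr : 0 ≤ r) (hA : OpLE A r) (hB : OpLE B r) :
    Zp A B ≤ r * (En A + En B) := by
  unfold Zp; linarith [mx_le A B, bx_le hr hA, bx_le hr hB]

lemma OpLE.kid {A : Fn (N + 1)} {r : ℝ} (h : OpLE A r) (i j : Bool) :
    OpLE (kid A i j) (4 * r) := by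
  intro v
  let w : Pt (N + 1) → ℝ := fun y => if y 0 = j then v (Fin.tail y) else 0
  have hw : (av fun y => w y ^ 2) = (av fun y => v y ^ 2) / 2 := by
    rw [av_succ]; cases j <;> simp [w]
  have hA : ∀ x : Pt (N + 1), (av fun y => A x y * w y)
      = (av fun y => A x (Fin.cons j y) * v y) / 2 := by
    intro x; rw [av_succ]; cases j <;> simp [w]
  have key := h w
  rw [hw] at key
  simp only [hA] at key
  rw [av_succ] at key
  have h1 := av_nonneg fun x : Pt N =>
    sq_nonneg ((av fun y => A (Fin.cons (!i) x) (Fin.cons j y) * v y) / 2)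
  simp only [div_pow, av_div] at key h1
  show (av fun x => (av fun y => A (Fin.cons i x) (Fin.cons j y) * v y) ^ 2) ≤ _
  cases i <;> simp only [Bool.not_false, Bool.not_true] at h1 <;> linarith

/-- Removal of the component in direction `v`. -/
noncomputable def rem1 (A : Fn N) (v : Pt N → ℝ) : Fn N :=
  fun x y => A x y - (av fun y' => A x y' * v y') * v y

lemma gram_rem1 (A : Fn N) {v : Pt N → ℝ} (hv : (av fun y => v y ^ 2) = 1) (x x' : Pt N) :
    gram (rem1 A v) x x' =
      gram A x x' - (av fun y => A x y * v y) * av fun y => A x' y * v y := by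
  set p := av fun y => A x y * v y with hp
  set q := av fun y => A x' y * v y with hq
  have e : gram (rem1 A v) x x' = av fun y =>
      A x y * A x' y - q * (A x y * v y) - p * (A x' y * v y) + p * q * v y ^ 2 := by
    simp only [gram, rem1, ← hp, ← hq]
    congr! 2
    ring
  rw [e, av_add, av_sub, av_sub, av_mul_left, av_mul_left, av_mul_left, ← hp, ← hq, hv, gram]
  ring

lemma En_eq_gram (A : Fn N) : En A = av fun x => gram A x x := by
  simp only [En, av2, gram, sq]

lemma En_rem1 (A : Fn N) {v : Pt N → ℝ} (hv : (av fun y => v y ^ 2) = 1) :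
    En A = En (rem1 A v) + av fun x => (av fun y => A x y * v y) ^ 2 := by
  simp only [En_eq_gram, gram_rem1 A hv, sq, av_sub]
  ring

lemma OpLE.rem1 {A : Fn N} {r : ℝ} (hr : 0 ≤ r) (h : OpLE A r) {v : Pt N → ℝ}
    (hv : (av fun y => v y ^ 2) = 1) : OpLE (rem1 A v) r := by
  intro w
  set c := av fun y => v y * w y with hc
  have e : ∀ x, (av fun y => P075.rem1 A v x y * w y) = av fun y => A x y * (w y - c * v y) := by
    intro x
    have e1 : (av fun y => P075.rem1 A v x y * w y) =
        av fun y => A x y * w y - (av fun y' => A x y' * v y') * (v y * w y) := by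
      simp only [P075.rem1]; congr! 2; ring
    have e2 : (av fun y => A x y * (w y - c * v y)) =
        av fun y => A x y * w y - c * (A x y * v y) := by congr! 2; ring
    rw [e1, e2, av_sub, av_sub, av_mul_left, av_mul_left, ← hc, mul_comm]
  simp only [e]
  refine (h _).trans (mul_le_mul_of_nonneg_left ?_ hr)
  have e3 : (av fun y => (w y - c * v y) ^ 2) =
      av fun y => w y ^ 2 - 2 * c * (v y * w y) + c ^ 2 * v y ^ 2 := by congr! 2; ring
  rw [e3, av_add, av_sub, av_mul_left, av_mul_left, ← hc, hv]
  nlinarith [sq_nonneg c]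

lemma Zp_rem1 {A B : Fn N} {r : ℝ} (hr : 0 ≤ r) (hA : OpLE A r) (hB : OpLE B r)
    {v : Pt N → ℝ} (hv : (av fun y => v y ^ 2) = 1) :
    Zp A B ≤ Zp (P075.rem1 A v) B + 2 * r * av fun x => (av fun y => A x y * v y) ^ 2 := by
  set u : Pt N → ℝ := fun x => av fun y => A x y * v y with hu
  have hq : ∀ C : Fn N, (av2 fun x x' => u x * u x' * gram C x x')
      = av fun y => (av fun x => C x y * u x) ^ 2 := by
    intro C
    simp only [av2, gram, sq, av_mul_av]
    simp only [← av_mul_left]
    conv_lhs => enter [1, x]; rw [av_comm]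
    rw [av_comm]
    congr! 6
    ring
  have h1 : mx A B = mx (P075.rem1 A v) B + av2 fun x x' => u x * u x' * gram B x x' := by
    simp only [mx, ← av2_add]
    congr! 3 with x x'
    rw [gram_rem1 A hv]
    ring
  have h2 : bx A ≤ bx (P075.rem1 A v) + 2 * av2 fun x x' => u x * u x' * gram A x x' := by
    simp only [bx, ← av2_mul_left, ← av2_add]
    refine av2_mono fun x x' => ?_
    rw [gram_rem1 A hv]
    nlinarith [sq_nonneg (u x * u x')]
  rw [hq] at h1 h2
  unfold Zp
  linarith [hA.transpose hr u, hB.transpose hr u]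

lemma Zp_comm (A B : Fn N) : Zp A B = Zp B A := by
  rw [Zp, Zp, mx_comm, add_comm (bx A)]

end Vale.Agent.P075
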