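import Vale.Agent.P075.Atom

/-!
The bound for bounded functions, by induction on the depth with potentials.
-/

namespace Vale.Agent.P075

variable {N : ℕ}

section lists

lemma sum_map_add_map {α : Type*} (L : List α) (f g : α → ℝ) :
    (L.map fun a => f a + g a).sum = (L.map f).sum + (L.map g).sum := List.sum_map_add

lemma sum_map_le_of {α : Type*} {L : List α} {f g : α → ℝ} (h : ∀ a ∈ L, f a ≤ g a) :
    (L.map f).sum ≤ (L.map g).sum := List.sum_le_sum h

lemma sum_map_nonneg_of {α : Type*} {L : List α} {f : α → ℝ} (h : ∀ a ∈ L, 0 ≤ f a) :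
    0 ≤ (L.map f).sum := List.sum_nonneg (by simpa using h)

lemma sum_map_mul_const {α : Type*} (L : List α) (f : α → ℝ) (c : ℝ) :
    (L.map fun a => c * f a).sum = c * (L.map f).sum := by
  induction L <;> simp [*, mul_add]

lemma sum_map_const_mul {α : Type*} (L : List α) (f : α → ℝ) (c : ℝ) :
    (L.map fun a => f a * c).sum = (L.map f).sum * c := by
  induction L <;> simp [*, add_mul]

lemma sum_map_const' {α : Type*} (L : List α) (c : ℝ) :
    (L.map fun _ => c).sum = L.length * c := by simp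

end lists

noncomputable def wq (L : List (Atom N)) : ℝ := (L.map Atom.q).sum

noncomputable def sq' (L : List (Atom N)) : ℝ := (L.map fun a => a.s ^ 2 * a.q).sum

lemma len_le_wq (L : List (Atom N)) : (L.length : ℝ) ≤ wq L := by
  have := sum_map_le_of (L := L) (f := fun _ => (1 : ℝ)) (g := Atom.q) fun a _ => q_one_le a
  simpa [wq, sum_map_const'] using this

lemma wq_nonneg (L : List (Atom N)) : 0 ≤ wq L := (Nat.cast_nonneg _).trans (len_le_wq L)

lemma q_le_wq {L : List (Atom N)} {a : Atom N} (ha : a ∈ L) : a.q ≤ wq L := by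
  refine List.single_le_sum (fun x hx => ?_) _ (List.mem_map_of_mem ha)
  obtain ⟨b, -, rfl⟩ := List.mem_map.1 hx
  exact zero_le_one.trans (q_one_le b)

lemma sq'_nonneg (L : List (Atom N)) : 0 ≤ sq' L :=
  sum_map_nonneg_of fun a _ => mul_nonneg (sq_nonneg _) (zero_le_one.trans (q_one_le a))

noncomputable def tensL (LA : List (Atom N)) (F B : Fn N) : ℝ :=
  (LA.map fun a => ptens a F B).sum

noncomputable def pairL (r : ℝ) (LA LB : List (Atom N)) (F : Fn N) : ℝ :=
  (LA.map fun a => (LB.map fun b => ppair r a b F).sum).sum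

/-- All potentials except the one of the square function and the middle function. -/
noncomputable def Rest (η r A₀ : ℝ) (A F B : Fn N) (LA LB : List (Atom N)) : ℝ :=
  (1 / η + 4 * r ^ 3 + 3 * A₀ / 25) * (En (A - vals LA) + En (B - vals LB))
    + tensL LA F B + tensL LB (fun z y => F y z) A + pairL r LA LB F
    + r * (r ^ 2 - (LA.length + LB.length)) * (sq' LA + sq' LB)
    + A₀ / r ^ 2 * (wq LA + wq LB)

/-- The potential. -/
noncomputable def Pot (η r A₀ β : ℝ) (c : ℕ → ℝ) (A F B : Fn N) (LA LB : List (Atom N)) : ℝ :=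
  En F * (∑ k ∈ Finset.range N, c k) / (2 * β)
    + β / 2 * (12 * η ^ 2 * (En (A - vals LA) + En (B - vals LB)) - Zp (A - vals LA) (B - vals LB))
    + Rest η r A₀ A F B LA LB

/-- Invariant of the states. -/
structure Inv (r : ℝ) (A F B : Fn N) (LA LB : List (Atom N)) : Prop where
  bA : ∀ x y, |A x y| ≤ 1
  bF : ∀ x y, |F x y| ≤ 1
  bB : ∀ x y, |B x y| ≤ 1
  sA : ∀ a ∈ LA, 0 ≤ a.s
  sB : ∀ b ∈ LB, 0 ≤ b.s
  len : (LA.length : ℝ) + LB.length ≤ r ^ 2
  uu : ∀ a ∈ LA, ∀ b ∈ LB, (av fun x => |a.u x * b.u x|) ≤ 2 * r ^ 2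

lemma term_sub_left (A A' F B : Fn (N + 1)) :
    term (A - A') F B = term A F B - term A' F B := by
  have := term_add_left (A - A') A' F B
  rw [sub_add_cancel] at this
  linarith

lemma term_sub_right (A F B B' : Fn (N + 1)) :
    term A F (B - B') = term A F B - term A F B' := by
  rw [← term_swap A F (B - B'), ← term_swap A F B, ← term_swap A F B', term_sub_left]

lemma term_vals_left (L : List (Atom (N + 1))) (F B : Fn (N + 1)) :
    term (vals L) F B = (L.map fun a => term a.val F B).sum := by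
  induction L with
  | nil => simp [vals_nil, term, av_const]
  | cons a t ih => rw [vals_cons, term_add_left, ih]; simp

lemma abs_list_sum {α : Type*} (L : List α) (f : α → ℝ) :
    |(L.map f).sum| ≤ (L.map fun a => |f a|).sum := by
  induction L with
  | nil => simp
  | cons a t ih => simpa using (abs_add_le _ _).trans (add_le_add_right ih _)

/-- The term is split into residual, tensor and pair parts. -/
lemma abs_term_split (A F B : Fn (N + 1)) (LA LB : List (Atom (N + 1))) :
    |term A F B| ≤ |term (A - vals LA) F (B - vals LB)|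
      + (LA.map fun a => |term a.val F B|).sum
      + (LB.map fun b => |term b.val (fun z y => F y z) A|).sum
      + (LA.map fun a => (LB.map fun b => |term a.val F b.val|).sum).sum := by
  have h1 : term A F B = term (A - vals LA) F (B - vals LB) + term (vals LA) F B
      + term (vals LB) (fun z y => F y z) A - term (vals LA) F (vals LB) := by
    rw [term_swap A F (vals LB), term_sub_left, term_sub_right, term_sub_right]
    ring
  have h2 : term (vals LA) F (vals LB)
      = (LA.map fun a => (LB.map fun b => term a.val F b.val).sum).sum := by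
    rw [term_vals_left]
    refine congrArg List.sum (List.map_congr_left fun a _ => ?_)
    rw [← term_swap, term_vals_left]
    simp only [term_swap a.val F]
  rw [h1, h2, term_vals_left, term_vals_left]
  refine (abs_sub _ _).trans ?_
  refine add_le_add ((abs_add_le _ _).trans (add_le_add ((abs_add_le _ _).trans
    (add_le_add_right (abs_list_sum _ _) _)) (abs_list_sum _ _))) ?_
  exact (abs_list_sum _ _).trans (sum_map_le_of fun a _ => abs_list_sum _ _)

lemma kids_length (L : List (Atom (N + 1))) (i j : Bool) : (kids L i j).length = L.length := by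
  simp [kids]

lemma inv_kid {r : ℝ} {A F B : Fn (N + 1)} {LA LB : List (Atom (N + 1))}
    (h : Inv r A F B LA LB) (hW : wq LA + wq LB ≤ r ^ 2) (i j : Bool) :
    Inv r (kid A i j) (kid F j (i ^^ j)) (kid B i (i ^^ j)) (kids LA i j)
      (kids LB i (i ^^ j)) := by
  refine ⟨fun x y => h.bA _ _, fun x y => h.bF _ _, fun x y => h.bB _ _, ?_, ?_, ?_, ?_⟩
  · simp only [kids, List.mem_map]; rintro _ ⟨a, ha, rfl⟩; exact h.sA a ha
  · simp only [kids, List.mem_map]; rintro _ ⟨a, ha, rfl⟩; exact h.sB a ha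
  · simpa [kids_length] using h.len
  · simp only [kids, List.mem_map]
    rintro _ ⟨a, ha, rfl⟩ _ ⟨b, hb, rfl⟩
    refine (abs_uv_le_two (fun x => a.u x * b.u x) i).trans ?_
    have h1 : (av fun x => |a.u x * b.u x|) ≤ (a.q + b.q) / 2 := by
      have e : (av fun x => |a.u x * b.u x|) ≤
          ((av fun x => a.u x ^ 2) + av fun x => b.u x ^ 2) / 2 := by
        rw [← av_add, ← av_div]
        refine av_mono fun x => ?_
        rw [abs_mul]
        nlinarith [sq_nonneg (|a.u x| - |b.u x|), sq_abs (a.u x), sq_abs (b.u x)]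
      have h1 : 0 ≤ av fun y => a.v y ^ 2 := av_nonneg fun _ => sq_nonneg _
      have h2 : 0 ≤ av fun y => b.v y ^ 2 := av_nonneg fun _ => sq_nonneg _
      unfold Atom.q; linarith
    have h2 : a.q ≤ wq LA := List.single_le_sum
      (by simpa using fun a _ => zero_le_one.trans (q_one_le a)) _ (List.mem_map_of_mem ha)
    have h3 : b.q ≤ wq LB := List.single_le_sum
      (by simpa using fun a _ => zero_le_one.trans (q_one_le a)) _ (List.mem_map_of_mem hb)
    nlinarith [sq_nonneg r]

lemma kid_sub_vals (A : Fn (N + 1)) (L : List (Atom (N + 1))) (i j : Bool) :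
    kid A i j - vals (kids L i j) = kid (A - vals L) i j := by
  rw [← kid_vals]; rfl

lemma avg_kids (L : List (Atom (N + 1))) (f : Atom N → ℝ) :
    (∑ i : Bool, ∑ j : Bool, ((kids L i j).map f).sum) / 4
      = (L.map fun a => (∑ i : Bool, ∑ j : Bool, f (a.kid i j)) / 4).sum := by
  simp only [kids, List.map_map, Function.comp_def]
  rw [sum_bool2_list, list_map_div]

lemma avg_kids' (L : List (Atom (N + 1))) (f : Atom N → Bool → Bool → ℝ) :
    (∑ i : Bool, ∑ j : Bool, ((kids L i (i ^^ j)).map fun b => f b i j).sum) / 4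
      = (L.map fun a => (∑ i : Bool, ∑ j : Bool, f (a.kid i (i ^^ j)) i j) / 4).sum := by
  simp only [kids, List.map_map, Function.comp_def]
  rw [sum_bool2_list, list_map_div]

lemma sum_xor (f : Bool → Bool → ℝ) :
    ∑ i : Bool, ∑ j : Bool, f i (i ^^ j) = ∑ i : Bool, ∑ j : Bool, f i j := by
  simp only [Fintype.sum_bool, Bool.xor_self, Bool.true_xor, Bool.false_xor, Bool.not_false]
  ring

lemma sum_swap_xor (f : Bool → Bool → ℝ) :
    ∑ i : Bool, ∑ j : Bool, f j (i ^^ j) = ∑ i : Bool, ∑ j : Bool, f i j := by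
  simp only [Fintype.sum_bool, Bool.xor_self, Bool.true_xor, Bool.false_xor, Bool.not_false]
  ring

/-- One step after removal. -/
lemma step {η r A₀ β : ℝ} (hr : 0 < r) (hβ : 0 < β) {c : ℕ → ℝ}
    (hc : ∀ k, 0 ≤ c k) (hc1 : ∀ k, c k ≤ 1) {A F B : Fn (N + 1)} {LA LB : List (Atom (N + 1))}
    (h : Inv r A F B LA LB) (hA : OpLE (A - vals LA) (η ^ 2)) (hB : OpLE (B - vals LB) (η ^ 2))
    (hW : wq LA + wq LB ≤ r ^ 2)
    (ih : ∀ (A' F' B' : Fn N) (LA' LB' : List (Atom N)), Inv r A' F' B' LA' LB' →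
      OpLE (A' - vals LA') (4 * η ^ 2) → OpLE (B' - vals LB') (4 * η ^ 2) →
        Tot N (fun k => c (k + 1)) A' F' B' ≤ Pot η r A₀ β (fun k => c (k + 1)) A' F' B' LA' LB') :
    Tot (N + 1) c A F B ≤ Pot η r A₀ β c A F B LA LB := by
  set R := A - vals LA with hR
  set S := B - vals LB with hS
  set Ft : Fn (N + 1) := fun z y => F y z with hFt
  have hkid : ∀ i j : Bool,
      Tot N (fun k => c (k + 1)) (kid A i j) (kid F j (i ^^ j)) (kid B i (i ^^ j))
        ≤ Pot η r A₀ β (fun k => c (k + 1)) (kid A i j) (kid F j (i ^^ j)) (kid B i (i ^^ j))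
            (kids LA i j) (kids LB i (i ^^ j)) := by
    intro i j
    refine ih _ _ _ _ _ (inv_kid h hW i j) ?_ ?_
    · rw [kid_sub_vals]; exact hA.kid i j
    · rw [kid_sub_vals]; exact hB.kid i (i ^^ j)
  rw [Tot_succ]
  have hsum := Finset.sum_le_sum fun i (_ : i ∈ Finset.univ) =>
    Finset.sum_le_sum fun j (_ : j ∈ Finset.univ) => hkid i j
  -- martingales
  have eF : (∑ i : Bool, ∑ j : Bool, En (kid F j (i ^^ j))) / 4 = En F := by
    rw [sum_swap_xor fun a b => En (kid F a b), En_succ]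
  have eR : (∑ i : Bool, ∑ j : Bool, En (kid R i j)) / 4 = En R := (En_succ R).symm
  have eS : (∑ i : Bool, ∑ j : Bool, En (kid S i (i ^^ j))) / 4 = En S := by
    rw [sum_xor fun a b => En (kid S a b), En_succ]
  have eZ := sqTerm_add_Zp_le R S
  have eq1 : (∑ i : Bool, ∑ j : Bool, wq (kids LA i j)) / 4 = wq LA :=
    (avg_kids LA Atom.q).trans (congrArg List.sum (List.map_congr_left fun a _ => q_avg a))
  have eq2 : (∑ i : Bool, ∑ j : Bool, wq (kids LB i (i ^^ j))) / 4 = wq LB := by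
    rw [sum_xor fun a b => wq (kids LB a b)]
    exact (avg_kids LB Atom.q).trans (congrArg List.sum (List.map_congr_left fun a _ => q_avg a))
  have es : ∀ a : Atom (N + 1),
      (∑ i : Bool, ∑ j : Bool, (a.kid i j).s ^ 2 * (a.kid i j).q) / 4 = a.s ^ 2 * a.q := by
    intro a
    rw [← q_avg a]
    simp only [Atom.kid, Fintype.sum_bool]
    ring
  have es1 : (∑ i : Bool, ∑ j : Bool, sq' (kids LA i j)) / 4 = sq' LA :=
    (avg_kids LA _).trans (congrArg List.sum (List.map_congr_left fun a _ => es a))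
  have es2 : (∑ i : Bool, ∑ j : Bool, sq' (kids LB i (i ^^ j))) / 4 = sq' LB := by
    rw [sum_xor fun a b => sq' (kids LB a b)]
    exact (avg_kids LB _).trans (congrArg List.sum (List.map_congr_left fun a _ => es a))
  have eT1 : (LA.map fun a => |term a.val F B|).sum + (∑ i : Bool, ∑ j : Bool,
      tensL (kids LA i j) (kid F j (i ^^ j)) (kid B i (i ^^ j))) / 4 ≤ tensL LA F B := by
    simp only [tensL, kids, List.map_map, Function.comp_def]
    rw [sum_bool2_list, ← list_map_div, ← sum_map_add_map]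
    exact sum_map_le_of fun a ha => ptens_step (h.sA a ha) F B
  have eT2 : (LB.map fun b => |term b.val Ft A|).sum + (∑ i : Bool, ∑ j : Bool,
      tensL (kids LB i (i ^^ j)) (fun z y => kid F j (i ^^ j) y z) (kid A i j)) / 4
        ≤ tensL LB Ft A := by
    simp only [tensL, kids, List.map_map, Function.comp_def]
    rw [sum_bool2_list, ← list_map_div, ← sum_map_add_map]
    refine sum_map_le_of fun b hb => le_trans (le_of_eq ?_) (ptens_step (h.sB b hb) Ft A)
    simp only [Fintype.sum_bool, Bool.xor_self, Bool.true_xor, Bool.false_xor, Bool.not_false,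
      Bool.not_true]
    have hk : ∀ i j : Bool, kid Ft i j = fun z y => kid F j i y z := fun _ _ => rfl
    rw [hk, hk, hk, hk]
    ring
  have eP : (LA.map fun a => (LB.map fun b => |term a.val F b.val|).sum).sum
      + (∑ i : Bool, ∑ j : Bool,
        pairL r (kids LA i j) (kids LB i (i ^^ j)) (kid F j (i ^^ j))) / 4 ≤ pairL r LA LB F := by
    simp only [pairL, kids, List.map_map, Function.comp_def]
    rw [sum_bool2_list, ← list_map_div, ← sum_map_add_map]
    refine sum_map_le_of fun a ha => ?_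
    rw [sum_bool2_list, ← list_map_div, ← sum_map_add_map]
    exact sum_map_le_of fun b hb => ppair_step hr (h.sA a ha) (h.sB b hb) F
  -- the residual
  have hres : c 0 * |term R F S| ≤ c 0 * En F / (2 * β) + β / 2 * sqTerm R S := by
    have h1 := mul_le_mul_of_nonneg_left (abs_term_le R F S hβ) (hc 0)
    have h2 : 0 ≤ sqTerm R S := av_nonneg fun _ => av_nonneg fun _ => sq_nonneg _
    rw [mul_add, mul_div_assoc'] at h1
    nlinarith [mul_nonneg (sub_nonneg.2 (hc1 0)) (mul_nonneg hβ.le h2)]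
  have hsplit := mul_le_mul_of_nonneg_left (abs_term_split A F B LA LB) (hc 0)
  have hle : ∀ {x : ℝ}, 0 ≤ x → c 0 * x ≤ x := fun hx => mul_le_of_le_one_left hx (hc1 0)
  have n1 := hle (sum_map_nonneg_of (L := LA) fun a _ => abs_nonneg (term a.val F B))
  have n2 := hle (sum_map_nonneg_of (L := LB) fun b _ => abs_nonneg (term b.val Ft A))
  have n3 := hle (sum_map_nonneg_of (L := LA) fun a _ => sum_map_nonneg_of (L := LB)
    fun b _ => abs_nonneg (term a.val F b.val))
  -- expansion of the average of the kids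
  have eavg : (∑ i : Bool, ∑ j : Bool, Pot η r A₀ β (fun k => c (k + 1)) (kid A i j)
      (kid F j (i ^^ j)) (kid B i (i ^^ j)) (kids LA i j) (kids LB i (i ^^ j))) / 4
      = En F * (∑ k ∈ Finset.range N, c (k + 1)) / (2 * β)
        + β / 2 * (12 * η ^ 2 * (En R + En S)
          - (∑ i : Bool, ∑ j : Bool, Zp (kid R i j) (kid S i (i ^^ j))) / 4)
        + ((1 / η + 4 * r ^ 3 + 3 * A₀ / 25) * (En R + En S)
          + (∑ i : Bool, ∑ j : Bool,
              tensL (kids LA i j) (kid F j (i ^^ j)) (kid B i (i ^^ j))) / 4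
          + (∑ i : Bool, ∑ j : Bool,
              tensL (kids LB i (i ^^ j)) (fun z y => kid F j (i ^^ j) y z) (kid A i j)) / 4
          + (∑ i : Bool, ∑ j : Bool,
              pairL r (kids LA i j) (kids LB i (i ^^ j)) (kid F j (i ^^ j))) / 4
          + r * (r ^ 2 - (LA.length + LB.length)) * (sq' LA + sq' LB)
          + A₀ / r ^ 2 * (wq LA + wq LB)) := by
    rw [← eq1, ← eq2, ← es1, ← es2, ← eF, ← eR, ← eS]
    simp only [Pot, Rest, kid_sub_vals, ← hR, ← hS, kids_length, Fintype.sum_bool]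
    ring
  unfold Pot Rest
  rw [← hR, ← hS, Finset.sum_range_succ']
  have hdiv := div_le_div_of_nonneg_right hsum (show (0 : ℝ) ≤ 4 by norm_num)
  rw [eavg] at hdiv
  simp only [← hFt]
  rw [mul_add, add_div (En F * _), mul_comm (En F) (c 0)]
  have hz := mul_le_mul_of_nonneg_left eZ (half_pos hβ).le
  linarith

lemma av_abs_sq_le (f : Pt N → ℝ) : (av fun x => |f x|) ^ 2 ≤ av fun x => f x ^ 2 := by
  simpa [sq_abs] using av_cs (fun x => |f x|) fun _ => 1

lemma ptens_le {η : ℝ} (hη : 0 < η) {a : Atom N} (ha : a.Good η) {F B : Fn N}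
    (hF : ∀ x y, |F x y| ≤ 1) (hB : ∀ x y, |B x y| ≤ 1) : ptens a F B ≤ a.s ^ 2 / η := by
  obtain ⟨hs, hu, hv⟩ := ha
  have key : ∀ (w : Pt N → ℝ) (G : Fn N), (∀ x y, |G x y| ≤ 1) → (av fun x => w x ^ 2) = 1 →
      (av fun z => var fun x => w x * G x z) ≤ 1 := by
    intro w G hG hw
    refine (av_mono fun z => (var_le _).trans ?_).trans_eq (av_const 1)
    rw [← hw]
    refine av_mono fun x => ?_
    rw [mul_pow]
    exact mul_le_of_le_one_right (sq_nonneg _) (by nlinarith [sq_abs (G x z), abs_nonneg (G x z), hG x z])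
  have h1 := key a.u B hB hu
  have h2 := key a.v F hF hv
  rw [le_div_iff₀ hη]
  unfold ptens
  nlinarith [mul_le_mul_of_nonneg_left hs (le_trans hη.le hs),
    mul_le_mul_of_nonneg_left (add_le_add h1 h2) (mul_nonneg (le_trans hη.le hs) hη.le)]

lemma ppair_le {r : ℝ} (hr : 0 < r) {a b : Atom N} (ha : 0 ≤ a.s) (hb : 0 ≤ b.s) {F : Fn N}
    (hF : ∀ x y, |F x y| ≤ 1) :
    ppair r a b F ≤ r * a.s * b.s * ((av fun y => |a.v y|)
      * ((av fun x => |a.u x * b.u x|) + (av fun z => b.v z ^ 2) / 2)) := by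
  have hin : ∀ y, (2 * r ^ 2 * (av fun x => |a.u x * b.u x|)
      - (av fun x => a.u x * b.u x) ^ 2) / r + r * var (fun z => b.v z * F y z)
      ≤ 2 * r * ((av fun x => |a.u x * b.u x|) + (av fun z => b.v z ^ 2) / 2) := by
    intro y
    have h1 : var (fun z => b.v z * F y z) ≤ av fun z => b.v z ^ 2 := by
      refine (var_le _).trans (av_mono fun z => ?_)
      rw [mul_pow]
      exact mul_le_of_le_one_right (sq_nonneg _)
        (by nlinarith [sq_abs (F y z), abs_nonneg (F y z), hF y z])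
    have h2 : (2 * r ^ 2 * (av fun x => |a.u x * b.u x|)
        - (av fun x => a.u x * b.u x) ^ 2) / r ≤ 2 * r * (av fun x => |a.u x * b.u x|) := by
      rw [div_le_iff₀ hr]; nlinarith [sq_nonneg (av fun x => a.u x * b.u x)]
    nlinarith [mul_le_mul_of_nonneg_left h1 hr.le]
  have := mul_le_mul_of_nonneg_left
    (av_mono fun y => mul_le_mul_of_nonneg_left (hin y) (abs_nonneg (a.v y)))
    (show 0 ≤ a.s * b.s / 2 by positivity)
  unfold ppair
  refine this.trans (le_of_eq ?_)
  rw [av_mul_right]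
  ring

/-- A pair with one new member. -/
lemma ppair_le_new {η r : ℝ} (hη : 0 < η) (hr : 0 < r) {a b : Atom N} (ha : 0 ≤ a.s)
    (hb : 0 ≤ b.s) {F : Fn N} (hF : ∀ x y, |F x y| ≤ 1) :
    (a.Good η → ppair r a b F ≤ r / 2 * (a.s ^ 2 * b.q + b.s ^ 2 * b.q)) ∧
    (b.Good η → ppair r a b F ≤ r / 2 * (b.s ^ 2 * a.q + a.s ^ 2 * a.q)) := by
  have h := ppair_le hr ha hb hF
  have hv := av_abs_sq_le a.v
  have hcs : (av fun x => |a.u x * b.u x|) ^ 2 ≤ (av fun x => a.u x ^ 2) * av fun x => b.u x ^ 2 := by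
    simpa [abs_mul, sq_abs] using av_cs (fun x => |a.u x|) fun x => |b.u x|
  have g0 : 0 ≤ av fun y => |a.v y| := av_nonneg fun _ => abs_nonneg _
  have g1 : 0 ≤ av fun x => |a.u x * b.u x| := av_nonneg fun _ => abs_nonneg _
  have g2 : 0 ≤ av fun x => a.u x ^ 2 := av_nonneg fun _ => sq_nonneg _
  have g3 : 0 ≤ av fun y => a.v y ^ 2 := av_nonneg fun _ => sq_nonneg _
  have g4 : 0 ≤ av fun x => b.u x ^ 2 := av_nonneg fun _ => sq_nonneg _
  have g5 : 0 ≤ av fun y => b.v y ^ 2 := av_nonneg fun _ => sq_nonneg _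
  unfold Atom.Good
  unfold Atom.q at *
  revert h hv hcs g0 g1 g2 g3 g4 g5
  generalize (av fun y => |a.v y|) = p
  generalize (av fun x => |a.u x * b.u x|) = w
  generalize (av fun x => a.u x ^ 2) = P at *
  generalize (av fun y => a.v y ^ 2) = Q at *
  generalize (av fun x => b.u x ^ 2) = P' at *
  generalize (av fun y => b.v y ^ 2) = Q' at *
  intro h hv hcs g0 g1 g2 g3 g4 g5
  have hrr : 0 ≤ r * a.s * b.s := by positivity
  constructor
  · rintro ⟨-, hu', hv'⟩
    have hP : P = 1 := hu'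
    have hQ : Q = 1 := hv'
    have hp : p ≤ 1 := by nlinarith
    have hk : p * (w + Q' / 2) ≤ 1 + P' + Q' := by
      nlinarith [mul_le_of_le_one_left (show 0 ≤ w + Q' / 2 by linarith) hp,
        sq_nonneg (w - 1)]
    refine h.trans ((mul_le_mul_of_nonneg_left hk hrr).trans ?_)
    nlinarith [mul_nonneg (mul_nonneg hr.le (show 0 ≤ 1 + P' + Q' by linarith))
      (sq_nonneg (a.s - b.s))]
  · rintro ⟨-, hu', hv'⟩
    have hP : P' = 1 := hu'
    have hQ : Q' = 1 := hv'
    have hk : p * (w + Q' / 2) ≤ 1 + P + Q := by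
      nlinarith [sq_nonneg (p - w), sq_nonneg (p - 1)]
    refine h.trans ((mul_le_mul_of_nonneg_left hk hrr).trans ?_)
    nlinarith [mul_nonneg (mul_nonneg hr.le (show 0 ≤ 1 + P + Q by linarith))
      (sq_nonneg (a.s - b.s))]

lemma Good.s_nonneg {η : ℝ} (hη : 0 ≤ η) {a : Atom N} (ha : a.Good η) : 0 ≤ a.s :=
  hη.trans ha.1

lemma good_q {η : ℝ} {a : Atom N} (ha : a.Good η) : a.q = 3 := by
  rw [Atom.q, ha.2.1, ha.2.2]; norm_num

lemma good_wq {η : ℝ} {L : List (Atom N)} (h : ∀ a ∈ L, a.Good η) :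
    wq L = 3 * L.length := by
  rw [wq, List.map_congr_left fun a ha => good_q (h a ha), sum_map_const', mul_comm]

lemma good_sq' {η : ℝ} {L : List (Atom N)} (h : ∀ a ∈ L, a.Good η) :
    sq' L = 3 * ee L := by
  rw [sq', ee, ← sum_map_mul_const]
  exact congrArg List.sum (List.map_congr_left fun a ha => by rw [good_q (h a ha), mul_comm])

lemma good_len {η : ℝ} (hη : 0 ≤ η) {L : List (Atom N)} (h : ∀ a ∈ L, a.Good η) :
    η ^ 2 * L.length ≤ ee L := by
  rw [mul_comm, ← sum_map_const']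
  exact sum_map_le_of fun a ha => pow_le_pow_left₀ hη (h a ha).1 2

/-- Adding new atoms does not increase the potentials. -/
lemma rest_create {η r A₀ : ℝ} (hη : 0 < η) (hr : r * η = 5) (hA₀ : 0 ≤ A₀)
    {A F B : Fn N} {LA LB NA NB : List (Atom N)} (h : Inv r A F B LA LB)
    (gA : ∀ a ∈ NA, a.Good η) (gB : ∀ b ∈ NB, b.Good η)
    (hEA : En (A - vals LA) = En (A - vals (NA ++ LA)) + ee NA)
    (hEB : En (B - vals LB) = En (B - vals (NB ++ LB)) + ee NB)
    (hW : wq (NA ++ LA) + wq (NB ++ LB) ≤ r ^ 2) :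
    Rest η r A₀ A F B (NA ++ LA) (NB ++ LB) ≤ Rest η r A₀ A F B LA LB := by
  have hr0 : 0 < r := by nlinarith
  have hk : ∀ L : List (Atom N), ∀ e, η ^ 2 * L.length ≤ e →
      A₀ / r ^ 2 * (3 * L.length) ≤ 3 * A₀ / 25 * e := by
    intro L e he
    have h1 : η = 5 / r := by field_simp; linarith
    rw [h1, div_pow] at he
    have h2 := mul_le_mul_of_nonneg_left he (show 0 ≤ 3 * A₀ / 25 by positivity)
    refine le_trans (le_of_eq ?_) h2
    field_simp
    ring
  have w1 := hk NA _ (good_len hη.le gA)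
  have w2 := hk NB _ (good_len hη.le gB)
  have ht : ∀ (L : List (Atom N)) (F' B' : Fn N), (∀ a ∈ L, a.Good η) → (∀ x y, |F' x y| ≤ 1) →
      (∀ x y, |B' x y| ≤ 1) → tensL L F' B' ≤ 1 / η * ee L := by
    intro L F' B' hL h1 h2
    rw [ee, ← sum_map_mul_const]
    exact sum_map_le_of fun a ha => (ptens_le hη (hL a ha) h1 h2).trans_eq (by ring)
  have t1 := ht NA F B gA h.bF h.bB
  have t2 := ht NB (fun z y => F y z) A gB (fun x y => h.bF y x) h.bA
  have hqB : ∀ L : List (Atom N), 0 ≤ sq' L := sq'_nonneg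
  have sB' : ∀ b ∈ NB ++ LB, 0 ≤ b.s := by
    intro b hb; rcases List.mem_append.1 hb with hb | hb
    exacts [Good.s_nonneg hη.le (gB b hb), h.sB b hb]
  have p1 : pairL r NA (NB ++ LB) F
      ≤ r / 2 * (wq (NB ++ LB) * ee NA + NA.length * sq' (NB ++ LB)) := by
    have : ∀ a ∈ NA, ((NB ++ LB).map fun b => ppair r a b F).sum
        ≤ r / 2 * (wq (NB ++ LB) * a.s ^ 2 + sq' (NB ++ LB)) := by
      intro a ha
      refine (sum_map_le_of fun b hb => (ppair_le_new hη hr0 (Good.s_nonneg hη.le (gA a ha))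
        (sB' b hb) h.bF).1 (gA a ha)).trans (le_of_eq ?_)
      rw [sum_map_mul_const, sum_map_add_map, sum_map_mul_const, mul_comm (a.s ^ 2)]
      rfl
    refine (sum_map_le_of this).trans (le_of_eq ?_)
    rw [sum_map_mul_const, sum_map_add_map, sum_map_mul_const, sum_map_const']
    rfl
  have p2 : pairL r LA NB F ≤ r / 2 * (wq LA * ee NB + NB.length * sq' LA) := by
    have : ∀ a ∈ LA, (NB.map fun b => ppair r a b F).sum
        ≤ r / 2 * (a.q * ee NB + NB.length * (a.s ^ 2 * a.q)) := by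
      intro a ha
      refine (sum_map_le_of fun b hb => (ppair_le_new hη hr0 (h.sA a ha)
        (Good.s_nonneg hη.le (gB b hb)) h.bF).2 (gB b hb)).trans (le_of_eq ?_)
      rw [sum_map_mul_const, sum_map_add_map, sum_map_const', sum_map_const_mul, mul_comm a.q]
      rfl
    refine (sum_map_le_of this).trans (le_of_eq ?_)
    rw [sum_map_mul_const, sum_map_add_map, sum_map_mul_const]
    simp only [mul_comm _ (ee NB), sum_map_mul_const]
    rfl
  have hsplitP : pairL r (NA ++ LA) (NB ++ LB) F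
      = pairL r NA (NB ++ LB) F + pairL r LA NB F + pairL r LA LB F := by
    simp only [pairL, List.map_append, List.sum_append, sum_map_add_map]
    ring
  have hsplitT : ∀ (L L' : List (Atom N)) (F' B' : Fn N),
      tensL (L ++ L') F' B' = tensL L F' B' + tensL L' F' B' := by simp [tensL]
  have hs : ∀ L L' : List (Atom N), sq' (L ++ L') = sq' L + sq' L' := by simp [sq']
  have hw : ∀ L L' : List (Atom N), wq (L ++ L') = wq L + wq L' := by simp [wq]
  rw [hw, hw] at hW
  have eA0 := ee_nonneg NA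
  have eB0 := ee_nonneg NB
  unfold Rest
  rw [hsplitP, hsplitT, hsplitT, hs, hs, hw, hw, hEA, hEB, List.length_append, List.length_append]
  rw [hs, hw] at p1
  rw [good_sq' gA, good_sq' gB, good_wq gA, good_wq gB]
  rw [good_sq' gB] at p1
  rw [good_wq gA, good_wq gB] at hW
  rw [good_wq gB] at p1
  push_cast
  have hnA : (0 : ℝ) ≤ NA.length := Nat.cast_nonneg _
  have hnB : (0 : ℝ) ≤ NB.length := Nat.cast_nonneg _
  have hla : (0 : ℝ) ≤ LA.length := Nat.cast_nonneg _
  have hlb : (0 : ℝ) ≤ LB.length := Nat.cast_nonneg _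
  have wA := wq_nonneg LA
  have wB := wq_nonneg LB
  have qA := sq'_nonneg LA
  have qB := sq'_nonneg LB
  have k1 := mul_le_mul_of_nonneg_left
    (show 3 * (NB.length : ℝ) + wq LB ≤ r ^ 2 by linarith) (mul_nonneg hr0.le eA0)
  have k2 := mul_le_mul_of_nonneg_left
    (show wq LA + 3 * (NA.length : ℝ) ≤ r ^ 2 by linarith) (mul_nonneg hr0.le eB0)
  have k3 := mul_nonneg (mul_nonneg hr0.le (add_nonneg eA0 eB0))
    (show (0 : ℝ) ≤ NA.length + NB.length + LA.length + LB.length by linarith)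
  have k4 := mul_nonneg (mul_nonneg hr0.le qA) hnA
  have k5 := mul_nonneg (mul_nonneg hr0.le qB) hnB
  have k6 := mul_nonneg (mul_nonneg hr0.le qA) hnB
  have k7 := mul_nonneg (mul_nonneg hr0.le qB) hnA
  have k8 := mul_nonneg (mul_nonneg hr0.le (sq_nonneg r)) (add_nonneg eA0 eB0)
  linarith [w1, w2, t1, t2]

lemma rest_nonneg {η r A₀ : ℝ} (hη : 0 < η) (hr : 0 < r) (hA₀ : 0 ≤ A₀) {A F B : Fn N}
    {LA LB : List (Atom N)} (h : Inv r A F B LA LB) :
    (1 / η + 4 * r ^ 3 + 3 * A₀ / 25) * (En (A - vals LA) + En (B - vals LB))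
      + A₀ / r ^ 2 * (wq LA + wq LB) ≤ Rest η r A₀ A F B LA LB := by
  have t1 : 0 ≤ tensL LA F B := sum_map_nonneg_of fun a ha => ptens_nonneg (h.sA a ha) F B
  have t2 : 0 ≤ tensL LB (fun z y => F y z) A :=
    sum_map_nonneg_of fun a ha => ptens_nonneg (h.sB a ha) _ A
  have p : 0 ≤ pairL r LA LB F := sum_map_nonneg_of fun a ha => sum_map_nonneg_of fun b hb =>
    ppair_nonneg hr (h.sA a ha) (h.sB b hb) F (h.uu a ha b hb)
  have q := mul_nonneg (mul_nonneg hr.le (sub_nonneg.2 h.len))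
    (add_nonneg (sq'_nonneg LA) (sq'_nonneg LB))
  unfold Rest; linarith

/-- Every bounded input at depth at most `N` has normalised total at most `A₀`. -/
def GBound (A₀ M : ℝ) (N : ℕ) : Prop :=
  ∀ (c : ℕ → ℝ) (A F B : Fn N), (∀ k, 0 ≤ c k) → (∀ k, c k ≤ 1) →
    ∑ k ∈ Finset.range N, c k ≤ M → (∀ x y, |A x y| ≤ 1) → (∀ x y, |F x y| ≤ 1) →
      (∀ x y, |B x y| ≤ 1) → Tot N c A F B ≤ A₀

/-- Every admissible state is controlled by the potential. -/
def MBound (η r A₀ β M : ℝ) (N : ℕ) : Prop :=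
  ∀ (c : ℕ → ℝ) (A F B : Fn N) (LA LB : List (Atom N)), (∀ k, 0 ≤ c k) → (∀ k, c k ≤ 1) →
    ∑ k ∈ Finset.range N, c k ≤ M → Inv r A F B LA LB →
      OpLE (A - vals LA) (4 * η ^ 2) → OpLE (B - vals LB) (4 * η ^ 2) →
        Tot N c A F B ≤ Pot η r A₀ β c A F B LA LB

variable {η r A₀ β M : ℝ}

lemma pot_nonneg_part (hη : 0 < η) {A B : Fn N} {LA LB : List (Atom N)}
    (hA : OpLE (A - vals LA) (4 * η ^ 2)) (hB : OpLE (B - vals LB) (4 * η ^ 2)) :
    0 ≤ 12 * η ^ 2 * (En (A - vals LA) + En (B - vals LB))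
      - Zp (A - vals LA) (B - vals LB) := by
  nlinarith [Zp_le (by positivity) hA hB, En_nonneg (A - vals LA), En_nonneg (B - vals LB)]

lemma master_zero (hη : 0 < η) (hr : r * η = 5) (hA₀ : 0 ≤ A₀) (hβ : 0 < β) :
    MBound η r A₀ β M 0 := by
  intro c A F B LA LB _ _ _ h hA hB
  have hr0 : 0 < r := by nlinarith
  have h1 := rest_nonneg hη hr0 hA₀ h
  have h2 := pot_nonneg_part hη hA hB
  have h3 := add_nonneg (En_nonneg (A - vals LA)) (En_nonneg (B - vals LB))
  have h4 := add_nonneg (wq_nonneg LA) (wq_nonneg LB)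
  rw [Tot_zero]
  simp only [Pot, Finset.range_zero, Finset.sum_empty, mul_zero, zero_div, zero_add]
  have : 0 ≤ Rest η r A₀ A F B LA LB := le_trans (by positivity) h1
  positivity

lemma master_succ (hη : 0 < η) (hr : r * η = 5) (hA₀ : 0 ≤ A₀) (hβ : 0 < β)
    (hG : GBound A₀ M (N + 1)) (hM : MBound η r A₀ β M N) : MBound η r A₀ β M (N + 1) := by
  intro c A F B LA LB hc hc1 hcM h hA hB
  have hr0 : 0 < r := by nlinarith
  obtain ⟨NA, gA, eA, oA, dA⟩ := exists_removal hη (A - vals LA)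
  obtain ⟨NB, gB, eB, oB, dB⟩ := exists_removal hη (B - vals LB)
  have sA : A - vals LA - vals NA = A - vals (NA ++ LA) := by rw [vals_append]; abel
  have sB : B - vals LB - vals NB = B - vals (NB ++ LB) := by rw [vals_append]; abel
  rw [sA] at eA oA dA
  rw [sB] at eB oB dB
  by_cases hW : wq (NA ++ LA) + wq (NB ++ LB) ≤ r ^ 2
  · have h' : Inv r A F B (NA ++ LA) (NB ++ LB) := by
      refine ⟨h.bA, h.bF, h.bB, ?_, ?_, ?_, ?_⟩
      · intro a ha; rcases List.mem_append.1 ha with ha | ha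
        exacts [Good.s_nonneg hη.le (gA a ha), h.sA a ha]
      · intro a ha; rcases List.mem_append.1 ha with ha | ha
        exacts [Good.s_nonneg hη.le (gB a ha), h.sB a ha]
      · exact (add_le_add (len_le_wq _) (len_le_wq _)).trans hW
      · intro a ha b hb
        have e : (av fun x => |a.u x * b.u x|) ≤ (a.q + b.q) / 2 := by
          have h1 : (av fun x => |a.u x * b.u x|) ≤
              ((av fun x => a.u x ^ 2) + av fun x => b.u x ^ 2) / 2 := by
            rw [← av_add, ← av_div]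
            refine av_mono fun x => ?_
            rw [abs_mul]
            nlinarith [sq_nonneg (|a.u x| - |b.u x|), sq_abs (a.u x), sq_abs (b.u x)]
          have h2 : 0 ≤ av fun y => a.v y ^ 2 := av_nonneg fun _ => sq_nonneg _
          have h3 : 0 ≤ av fun y => b.v y ^ 2 := av_nonneg fun _ => sq_nonneg _
          unfold Atom.q; linarith
        have h2 : a.q ≤ wq (NA ++ LA) := q_le_wq ha
        have h3 : b.q ≤ wq (NB ++ LB) := q_le_wq hb
        nlinarith [sq_nonneg r]
    have hst := step hr0 hβ hc hc1 (η := η) (A₀ := A₀) h' oA oB hW fun A' F' B' LA' LB' =>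
      hM (fun k => c (k + 1)) A' F' B' LA' LB' (fun k => hc _) (fun k => hc1 _) (by
        rw [Finset.sum_range_succ'] at hcM; linarith [hc 0])
    refine hst.trans ?_
    have hR := rest_create (A₀ := A₀) hη hr hA₀ h gA gB eA eB hW
    obtain ⟨oA', zA⟩ := dA _ (by positivity) hA
    obtain ⟨-, zB⟩ := dB _ (by positivity) hB
    have z1 := zA _ hB
    have z2 := zB _ oA'
    rw [Zp_comm, Zp_comm (B - vals (NB ++ LB))] at z2
    unfold Pot
    rw [eA, eB]
    nlinarith [mul_nonneg hβ.le (mul_nonneg (sq_nonneg η) (add_nonneg (ee_nonneg NA) (ee_nonneg NB)))]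
  · have hb := hG c A F B hc hc1 hcM h.bA h.bF h.bB
    refine hb.trans ?_
    have h1 := rest_nonneg (η := η) (A₀ := A₀) hη hr0 hA₀ h
    have h2 := pot_nonneg_part hη hA hB
    have h3 : 0 ≤ En F * (∑ k ∈ Finset.range (N + 1), c k) / (2 * β) :=
      div_nonneg (mul_nonneg (En_nonneg F) (Finset.sum_nonneg fun k _ => hc k)) (by linarith)
    have hw : ∀ L L' : List (Atom (N + 1)), wq (L ++ L') = wq L + wq L' := by simp [wq]
    rw [hw, hw, good_wq gA, good_wq gB] at hW
    push_neg at hW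
    have lA := good_len hη.le gA
    have lB := good_len hη.le gB
    have hE : η ^ 2 * (NA.length + NB.length) ≤ En (A - vals LA) + En (B - vals LB) := by
      rw [eA, eB]
      nlinarith [En_nonneg (A - vals (NA ++ LA)), En_nonneg (B - vals (NB ++ LB))]
    have h25 : η ^ 2 * r ^ 2 = 25 := by rw [← mul_pow, mul_comm η, hr]; norm_num
    have key : A₀ ≤ A₀ / r ^ 2 * (wq LA + wq LB)
        + 3 * A₀ / 25 * (En (A - vals LA) + En (B - vals LB)) := by
      have hx : r ^ 2 ≤ wq LA + wq LB + 3 / η ^ 2 * (En (A - vals LA) + En (B - vals LB)) := by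
        have := mul_le_mul_of_nonneg_left hE (show 0 ≤ 3 / η ^ 2 by positivity)
        rw [← mul_assoc, div_mul_cancel₀ _ (by positivity)] at this
        linarith
      have := mul_le_mul_of_nonneg_left hx (show 0 ≤ A₀ / r ^ 2 by positivity)
      rw [div_mul_cancel₀ _ (by positivity)] at this
      refine this.trans (le_of_eq ?_)
      rw [← h25]
      field_simp
    have h4 := add_nonneg (En_nonneg (A - vals LA)) (En_nonneg (B - vals LB))
    have h5 : 0 ≤ (1 / η + 4 * r ^ 3) * (En (A - vals LA) + En (B - vals LB)) := by positivity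
    have h6 : 0 ≤ β / 2 * (12 * η ^ 2 * (En (A - vals LA) + En (B - vals LB))
        - Zp (A - vals LA) (B - vals LB)) := by positivity
    unfold Pot
    linarith

/-- The bound at the root. -/
lemma root_bound (hη : 0 < η) (hη1 : η ≤ 1) (hr : r * η = 5) (hA₀ : 0 ≤ A₀) (hβ : 0 < β)
    (hM : MBound η r A₀ β M N) {c : ℕ → ℝ} {A F B : Fn (N + 1)} (hc : ∀ k, 0 ≤ c k)
    (hc1 : ∀ k, c k ≤ 1) (hcM : ∑ k ∈ Finset.range (N + 1), c k ≤ M)
    (bA : ∀ x y, |A x y| ≤ 1) (bF : ∀ x y, |F x y| ≤ 1) (bB : ∀ x y, |B x y| ≤ 1) :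
    Tot (N + 1) c A F B ≤ En F * M / (2 * β)
      + (6 * β * η ^ 2 + (1 / η + 4 * r ^ 3 + 3 * A₀ / 25)) * (En A + En B) := by
  have hr0 : 0 < r := by nlinarith
  obtain ⟨NA, gA, eA, oA, -⟩ := exists_removal hη A
  obtain ⟨NB, gB, eB, oB, -⟩ := exists_removal hη B
  have hE : ∀ G : Fn (N + 1), (∀ x y, |G x y| ≤ 1) → En G ≤ 1 := fun G hG =>
    (av2_mono (g := fun _ _ => (1 : ℝ)) fun x y => by
      nlinarith [sq_abs (G x y), abs_nonneg (G x y), hG x y]).trans_eq (by simp [av2])
  have h0 : Inv r A F B [] [] :=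
    ⟨bA, bF, bB, by simp, by simp, by simpa using sq_nonneg r, by simp⟩
  have hW : wq (NA ++ []) + wq (NB ++ []) ≤ r ^ 2 := by
    have hlA := good_len hη.le gA
    have hlB := good_len hη.le gB
    rw [List.append_nil, List.append_nil, good_wq gA, good_wq gB]
    have h25 : η ^ 2 * r ^ 2 = 25 := by rw [← mul_pow, mul_comm η, hr]; norm_num
    refine le_of_mul_le_mul_left ?_ (show (0 : ℝ) < η ^ 2 by positivity)
    nlinarith [hE A bA, hE B bB, En_nonneg (A - vals NA), En_nonneg (B - vals NB)]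
  have hR := rest_create (A₀ := A₀) hη hr hA₀ h0 gA gB (by simpa [vals_nil] using eA)
    (by simpa [vals_nil] using eB) hW
  rw [List.append_nil, List.append_nil] at hR hW
  have h' : Inv r A F B NA NB := by
    refine ⟨bA, bF, bB, fun a ha => Good.s_nonneg hη.le (gA a ha),
      fun a ha => Good.s_nonneg hη.le (gB a ha),
      (add_le_add (len_le_wq _) (len_le_wq _)).trans hW, fun a ha b hb => ?_⟩
    have e : (av fun x => |a.u x * b.u x|) ^ 2 ≤ 1 := by
      have := av_cs (fun x => |a.u x|) fun x => |b.u x|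
      simpa [abs_mul, sq_abs, (gA a ha).2.1, (gB b hb).2.1] using this
    have h5 : 5 ≤ r := by nlinarith
    have : (av fun x => |a.u x * b.u x|) ≤ 1 := by
      nlinarith [av_nonneg fun x => abs_nonneg (a.u x * b.u x)]
    nlinarith
  have hst := step hr0 hβ hc hc1 (η := η) (A₀ := A₀) h' oA oB hW fun A' F' B' LA' LB' =>
    hM (fun k => c (k + 1)) A' F' B' LA' LB' (fun k => hc _) (fun k => hc1 _) (by
      rw [Finset.sum_range_succ'] at hcM; linarith [hc 0])
  refine hst.trans ?_
  have e0 : Rest η r A₀ A F B [] [] = (1 / η + 4 * r ^ 3 + 3 * A₀ / 25) * (En A + En B) := by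
    simp [Rest, tensL, pairL, sq', wq, vals_nil]
  rw [e0] at hR
  have hz := Zp_nonneg (A - vals NA) (B - vals NB)
  have hF : En F * (∑ k ∈ Finset.range (N + 1), c k) / (2 * β) ≤ En F * M / (2 * β) :=
    div_le_div_of_nonneg_right (mul_le_mul_of_nonneg_left hcM (En_nonneg F)) (by linarith)
  unfold Pot
  rw [eA, eB] at hR ⊢
  nlinarith [mul_nonneg hβ.le hz, mul_nonneg hβ.le (mul_nonneg (sq_nonneg η)
    (add_nonneg (ee_nonneg NA) (ee_nonneg NB)))]

lemma both_bounds (hη : 0 < η) (hη1 : η ≤ 1) (hr : r * η = 5) (hA₀ : 0 ≤ A₀) (hβ : 0 < β)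
    (hfix : M / (2 * β) + 2 * (6 * β * η ^ 2 + (1 / η + 4 * r ^ 3 + 3 * A₀ / 25)) ≤ A₀) :
    ∀ N, GBound A₀ M N ∧ MBound η r A₀ β M N := by
  intro N
  induction N with
  | zero =>
    exact ⟨fun c A F B _ _ _ _ _ _ => by rw [Tot_zero]; exact hA₀, master_zero hη hr hA₀ hβ⟩
  | succ n ih =>
    have hr0 : 0 < r := by nlinarith
    have hg : GBound A₀ M (n + 1) := by
      intro c A F B hc hc1 hcM bA bF bB
      refine (root_bound hη hη1 hr hA₀ hβ ih.2 hc hc1 hcM bA bF bB).trans (le_trans ?_ hfix)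
      have hE : ∀ G : Fn (n + 1), (∀ x y, |G x y| ≤ 1) → En G ≤ 1 := fun G hG =>
        (av2_mono (g := fun _ _ => (1 : ℝ)) fun x y => by
          nlinarith [sq_abs (G x y), abs_nonneg (G x y), hG x y]).trans_eq (by simp [av2])
      have hM0 : 0 ≤ M := (Finset.sum_nonneg fun k _ => hc k).trans hcM
      refine add_le_add (div_le_div_of_nonneg_right (mul_le_of_le_one_left hM0 (hE F bF))
        (by linarith)) ?_
      rw [mul_comm 2]
      exact mul_le_mul_of_nonneg_left (by linarith [hE A bA, hE B bB]) (by positivity)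
    exact ⟨hg, master_succ hη hr hA₀ hβ hg ih.2⟩

end Vale.Agent.P075
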