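import Vale.Agent.P075.Res
import Vale.Agent.P075.Problem

/-!
The potential gap between a square and its four children at one vertex of the triangle.
-/

namespace Vale.Agent.P075

open Matrix

variable {N : ℕ} {s : ℝ}

/-- The operator at one vertex: the two functions next to each other. -/
noncomputable def sm (A B : Fn N) : Matrix (Pt N) (Pt N ⊕ Pt N) ℝ :=
  fun x => Sum.elim (fun y => A x y / 2 ^ N) (fun z => B x z / 2 ^ N)

/-- Kernel of a child block. -/
noncomputable def mk (A : Fn (N + 1)) (i j : Bool) : Matrix (Pt N) (Pt N) ℝ :=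
  fun x y => kid A i j x y / 2 ^ N

abbrev Col (N : ℕ) := (Bool × Pt N) ⊕ (Bool × Pt N)

/-- One half of the rows. -/
noncomputable def row (A B : Fn (N + 1)) (i : Bool) : Matrix (Pt N) (Col N) ℝ :=
  fun x => Sum.elim (fun p => mk A i p.1 x p.2) (fun p => mk B i p.1 x p.2)

/-- Regularised inverse of one half. -/
noncomputable def rs (s : ℝ) (A B : Fn (N + 1)) (i : Bool) : Matrix (Pt N) (Pt N) ℝ :=
  res (1 / 2) s (row A B i)

/-- Difference between the two halves. -/
noncomputable def dt (s : ℝ) (A B : Fn (N + 1)) : Matrix (Col N) (Col N) ℝ :=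
  tee (1 / 2) s (row A B false) - tee (1 / 2) s (row A B true)

lemma sum_pt_succ (f : Pt (N + 1) → ℝ) :
    ∑ x, f x = (∑ x, f (Fin.cons false x)) + ∑ x, f (Fin.cons true x) := by
  have h : ∑ x : Pt (N + 1), f x = ∑ p : Bool × Pt N, f (Fin.cons p.1 p.2) :=
    (Fintype.sum_equiv (Fin.consEquiv fun _ => Bool) (fun p => f (Fin.cons p.1 p.2)) f
      fun _ => rfl).symm
  rw [h, Fintype.sum_prod_type, Fintype.sum_bool, add_comm]

/-- A column of the square as a column of its halves. -/
def col : Pt (N + 1) ⊕ Pt (N + 1) → Col N :=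
  Sum.map (fun y => (y 0, Fin.tail y)) (fun y => (y 0, Fin.tail y))

lemma sum_col (f : Col N → ℝ) : ∑ k, f (col k) = ∑ k, f k := by
  simp only [Fintype.sum_sum_type, Fintype.sum_prod_type, Fintype.sum_bool, sum_pt_succ, col,
    Sum.map_inl, Sum.map_inr, Fin.cons_zero, Fin.tail_cons]
  ring

lemma sm_cons (A B : Fn (N + 1)) (i : Bool) (x : Pt N) (k : Pt (N + 1) ⊕ Pt (N + 1)) :
    sm A B (Fin.cons i x) k = (1 / 2) * row A B i x (col k) := by
  rcases k with y | y <;>
  · obtain ⟨j, t, rfl⟩ : ∃ j t, y = Fin.cons j t := ⟨_, _, (Fin.cons_self_tail y).symm⟩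
    simp [sm, row, mk, kid, col, pow_succ]
    ring

lemma row_gram (A B : Fn (N + 1)) (i : Bool) :
    sm (kid A i false) (kid B i (i ^^ false)) * (sm (kid A i false) (kid B i (i ^^ false)))ᵀ
      + sm (kid A i true) (kid B i (i ^^ true)) * (sm (kid A i true) (kid B i (i ^^ true)))ᵀ
      = row A B i * (row A B i)ᵀ := by
  ext x x'
  cases i <;>
  · simp [mul_apply, Fintype.sum_sum_type, Fintype.sum_prod_type, sm, row, mk]
    ring

lemma hsq_row (A B : Fn (N + 1)) (i : Bool) :
    hsq (sm (kid A i false) (kid B i (i ^^ false))) + hsq (sm (kid A i true) (kid B i (i ^^ true)))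
      = hsq (row A B i) := by
  have e : ∀ {K : Type} [Fintype K] (U : Matrix (Pt N) K ℝ), hsq U = ∑ x, (U * Uᵀ) x x :=
    fun U => by simp [hsq, mul_apply, sq]
  rw [e, e, e, ← row_gram A B i, ← Finset.sum_add_distrib]
  rfl

lemma hsq_sm (A B : Fn (N + 1)) :
    hsq (sm A B) = (hsq (row A B false) + hsq (row A B true)) / 4 := by
  simp only [hsq]
  rw [sum_pt_succ]
  simp only [sm_cons, mul_pow, ← Finset.mul_sum]
  rw [Finset.sum_congr rfl fun x _ => sum_col fun k => row A B false x k ^ 2,
    Finset.sum_congr rfl fun x _ => sum_col fun k => row A B true x k ^ 2]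
  ring

lemma gg_parent (A B : Fn (N + 1)) (hs : 0 < s) :
    ((tee (1 / 2) s (row A B false)).trace + (tee (1 / 2) s (row A B true)).trace) / 4
      + hsq (dt s A B) / 16 ≤ gg s (sm A B) := by
  let Zr : Bool → Matrix (Pt N) (Col N) ℝ := fun i => rs s A B i * row A B i
  let Z : Matrix (Pt (N + 1)) (Pt (N + 1) ⊕ Pt (N + 1)) ℝ :=
    fun x k => (1 / 2) * Zr (x 0) (Fin.tail x) (col k)
  have hz : ∀ i x k, Z (Fin.cons i x) k = (1 / 2) * Zr i x (col k) := fun i x k => by
    simp [Z]
  have hip : ip (sm A B) Z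
      = ((tee (1 / 2) s (row A B false)).trace + (tee (1 / 2) s (row A B true)).trace) / 4 := by
    simp only [ip]
    rw [sum_pt_succ]
    simp only [hz, sm_cons, mul_mul_mul_comm _ (row A B _ _ _), ← Finset.mul_sum]
    rw [Finset.sum_congr rfl fun x _ => sum_col fun k => row A B false x k * Zr false x k,
      Finset.sum_congr rfl fun x _ => sum_col fun k => row A B true x k * Zr true x k]
    simp only [tee, Matrix.mul_assoc, ← ip_eq_trace]
    simp only [ip, Zr, rs]
    ring
  have hZ : hsq Z = (hsq (Zr false) + hsq (Zr true)) / 4 := by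
    simp only [hsq]
    rw [sum_pt_succ]
    simp only [hz, mul_pow, ← Finset.mul_sum]
    rw [Finset.sum_congr rfl fun x _ => sum_col fun k => Zr false x k ^ 2,
      Finset.sum_congr rfl fun x _ => sum_col fun k => Zr true x k ^ 2]
    ring
  have hUZ : hsq ((sm A B)ᵀ * Z)
      = hsq (tee (1 / 2) s (row A B false) + tee (1 / 2) s (row A B true)) / 16 := by
    have e : ∀ k k', ((sm A B)ᵀ * Z) k k' = (1 / 4) *
        (tee (1 / 2) s (row A B false) + tee (1 / 2) s (row A B true)) (col k) (col k') := by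
      intro k k'
      rw [mul_apply, sum_pt_succ, tee, tee, Matrix.mul_assoc, Matrix.mul_assoc]
      simp only [transpose_apply, sm_cons, hz, Zr, rs, Matrix.add_apply, mul_apply,
        mul_add, Finset.mul_sum]
      congr 1 <;> exact Finset.sum_congr rfl fun x _ => by ring
    simp only [hsq, e, mul_pow, ← Finset.mul_sum]
    rw [Finset.sum_congr rfl fun k _ => sum_col fun k' =>
      (tee (1 / 2) s (row A B false) + tee (1 / 2) s (row A B true)) (col k) k' ^ 2,
      sum_col fun k => ∑ k', (tee (1 / 2) s (row A B false) + tee (1 / 2) s (row A B true)) k k' ^ 2]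
    ring
  have ht := trial_le (sm A B) hs Z
  rw [hip, hZ, hUZ, hsq_add] at ht
  have h0 := hsq_res_identity (row A B false) (show (0 : ℝ) ≤ 1 / 2 by norm_num) hs
  have h1 := hsq_res_identity (row A B true) (show (0 : ℝ) ≤ 1 / 2 by norm_num) hs
  rw [dt, hsq_sub]
  simp only [Zr, rs] at ht
  linarith

/-- The potential grows by the squared difference. -/
lemma pot_gap (A B : Fn (N + 1)) (hs : 0 < s) :
    s * hsq (dt s A B) / 16 + pot s (sm A B)
      ≤ (∑ i : Bool, ∑ j : Bool, pot s (sm (kid A i j) (kid B i (i ^^ j)))) / 4 := by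
  have hk := fun i => kids_le (row A B i) hs (fun j => sm (kid A i j) (kid B i (i ^^ j)))
    (row_gram A B i)
  have h := mul_le_mul_of_nonneg_left (gg_parent A B hs) hs.le
  have h0 := mul_le_mul_of_nonneg_left (add_le_add (hk false) (hk true)) hs.le
  simp only [pot, Fintype.sum_bool]
  have e0 := hsq_row A B false
  have e1 := hsq_row A B true
  have e := hsq_sm A B
  linarith

end Vale.Agent.P075
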