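import Mathlib

/-!
Regularised inverses of a Gram matrix: completing squares and simple norm bounds.
-/

namespace Vale.Agent.P075

open Matrix

variable {X K L J : Type*} [Fintype X] [Fintype K] [Fintype L] [Fintype J]

/-- Sum of the squares of all entries. -/
def hsq (P : Matrix X K ℝ) : ℝ := ∑ i, ∑ j, P i j ^ 2

/-- Entrywise inner product. -/
def ip (P Q : Matrix X K ℝ) : ℝ := ∑ i, ∑ j, P i j * Q i j

lemma hsq_eq (P : Matrix X K ℝ) : hsq P = ip P P := by simp [hsq, ip, sq]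

lemma hsq_nonneg (P : Matrix X K ℝ) : 0 ≤ hsq P :=
  Finset.sum_nonneg fun _ _ => Finset.sum_nonneg fun _ _ => sq_nonneg _

lemma hsq_transpose (P : Matrix X K ℝ) : hsq Pᵀ = hsq P := Finset.sum_comm

lemma ip_eq_trace (P Q : Matrix X K ℝ) : ip P Q = (Pᵀ * Q).trace := by
  simp only [ip, trace, diag, mul_apply, transpose_apply]
  exact Finset.sum_comm

lemma ip_comm (P Q : Matrix X K ℝ) : ip P Q = ip Q P := by simp [ip, mul_comm]

lemma ip_add_left (P Q S : Matrix X K ℝ) : ip (P + Q) S = ip P S + ip Q S := by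
  simp [ip, add_mul, Finset.sum_add_distrib]

lemma ip_add_right (P Q S : Matrix X K ℝ) : ip P (Q + S) = ip P Q + ip P S := by
  simp [ip, mul_add, Finset.sum_add_distrib]

lemma ip_smul_left (c : ℝ) (P Q : Matrix X K ℝ) : ip (c • P) Q = c * ip P Q := by
  simp [ip, Finset.mul_sum, mul_assoc]

lemma ip_smul_right (c : ℝ) (P Q : Matrix X K ℝ) : ip P (c • Q) = c * ip P Q := by
  simp [ip, Finset.mul_sum, mul_left_comm]

lemma hsq_add (P Q : Matrix X K ℝ) : hsq (P + Q) = hsq P + 2 * ip P Q + hsq Q := by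
  simp only [hsq_eq, ip_add_left, ip_add_right, ip_comm Q P]; ring

lemma hsq_sub (P Q : Matrix X K ℝ) : hsq (P - Q) = hsq P - 2 * ip P Q + hsq Q := by
  simp only [hsq, ip, Matrix.sub_apply, sub_sq, Finset.sum_add_distrib, Finset.sum_sub_distrib,
    Finset.mul_sum, mul_assoc]

lemma hsq_smul (c : ℝ) (P : Matrix X K ℝ) : hsq (c • P) = c ^ 2 * hsq P := by
  simp [hsq, Finset.mul_sum, mul_pow]

lemma ip_mul_left (M : Matrix X L ℝ) (P : Matrix L K ℝ) (Q : Matrix X K ℝ) :
    ip (M * P) Q = ip P (Mᵀ * Q) := by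
  simp [ip_eq_trace, Matrix.mul_assoc]

lemma ip_mul_right (P : Matrix X L ℝ) (M : Matrix L K ℝ) (Q : Matrix X K ℝ) :
    ip (P * M) Q = ip P (Q * Mᵀ) := by
  simp only [ip_eq_trace, transpose_mul]
  rw [Matrix.mul_assoc, trace_mul_comm, Matrix.mul_assoc]

lemma sq_entry_le (P : Matrix X K ℝ) (i : X) (j : K) : P i j ^ 2 ≤ hsq P :=
  (Finset.single_le_sum (fun l _ => sq_nonneg (P i l)) (Finset.mem_univ j)).trans
    (Finset.single_le_sum (f := fun l => ∑ j, P l j ^ 2)
      (fun _ _ => Finset.sum_nonneg fun _ _ => sq_nonneg _) (Finset.mem_univ i))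

lemma hsq_mul_le (P : Matrix X L ℝ) (Q : Matrix L K ℝ) : hsq (P * Q) ≤ hsq P * hsq Q := by
  simp only [hsq]
  rw [Finset.sum_mul]
  refine Finset.sum_le_sum fun i _ => ?_
  calc ∑ j, (P * Q) i j ^ 2 ≤ ∑ j, (∑ l, P i l ^ 2) * ∑ l, Q l j ^ 2 :=
        Finset.sum_le_sum fun j _ => by
          rw [mul_apply]; exact Finset.sum_mul_sq_le_sq_mul_sq _ _ _
    _ = _ := by rw [← Finset.mul_sum, Finset.sum_comm]

lemma abs_trace_mul_le (P : Matrix X K ℝ) (Q : Matrix K X ℝ) {c : ℝ} (hc : 0 < c) :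
    |(P * Q).trace| ≤ (c * hsq P + hsq Q / c) / 2 := by
  simp only [trace, diag, mul_apply, hsq]
  rw [Finset.sum_comm (γ := K) (α := X) (f := fun i j => Q i j ^ 2), Finset.mul_sum,
    Finset.sum_div, ← Finset.sum_add_distrib, Finset.sum_div]
  refine (Finset.abs_sum_le_sum_abs _ _).trans (Finset.sum_le_sum fun i _ => ?_)
  rw [Finset.mul_sum, Finset.sum_div, ← Finset.sum_add_distrib, Finset.sum_div]
  refine (Finset.abs_sum_le_sum_abs _ _).trans (Finset.sum_le_sum fun j _ => ?_)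
  rw [abs_mul, le_div_iff₀ (by norm_num), ← sq_abs (P i j), ← sq_abs (Q j i)]
  rw [← mul_le_mul_iff_left₀ hc, add_mul, div_mul_cancel₀ _ hc.ne']
  nlinarith [sq_nonneg (c * |P i j| - |Q j i|)]

variable [DecidableEq X]

/-- The regularised inverse. -/
noncomputable def res (w s : ℝ) (U : Matrix X K ℝ) : Matrix X X ℝ :=
  (w • (U * Uᵀ) + s • 1)⁻¹

/-- The regularised projection seen on the columns. -/
noncomputable def tee (w s : ℝ) (U : Matrix X K ℝ) : Matrix K K ℝ := Uᵀ * res w s U * U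

variable {w s : ℝ} (U : Matrix X K ℝ)

lemma posDef_base (hw : 0 ≤ w) (hs : 0 < s) : (w • (U * Uᵀ) + s • 1).PosDef := by
  have h : (U * Uᵀ).PosSemidef := by
    simpa [conjTranspose_eq_transpose_of_trivial] using posSemidef_self_mul_conjTranspose U
  exact Matrix.PosDef.posSemidef_add (h.smul hw) (Matrix.PosDef.one.smul hs)

lemma base_mul_res (hw : 0 ≤ w) (hs : 0 < s) : (w • (U * Uᵀ) + s • 1) * res w s U = 1 :=
  mul_nonsing_inv _ ((Matrix.isUnit_iff_isUnit_det _).1 (posDef_base U hw hs).isUnit)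

lemma res_mul_base (hw : 0 ≤ w) (hs : 0 < s) : res w s U * (w • (U * Uᵀ) + s • 1) = 1 :=
  nonsing_inv_mul _ ((Matrix.isUnit_iff_isUnit_det _).1 (posDef_base U hw hs).isUnit)

lemma res_transpose : (res w s U)ᵀ = res w s U := by
  simp [res, transpose_nonsing_inv]

lemma res_eq (hw : 0 ≤ w) (hs : 0 < s) :
    w • (U * (Uᵀ * res w s U)) + s • res w s U = 1 := by
  simpa [Matrix.add_mul, Matrix.mul_assoc] using base_mul_res U hw hs

lemma res_eq' (hw : 0 ≤ w) (hs : 0 < s) :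
    w • (res w s U * U * Uᵀ) + s • res w s U = 1 := by
  simpa [Matrix.mul_add, Matrix.mul_assoc] using res_mul_base U hw hs

lemma gram_res_comm (hw : 0 < w) (hs : 0 < s) :
    U * (Uᵀ * res w s U) = res w s U * U * Uᵀ := by
  have h := (res_eq U hw.le hs).trans (res_eq' U hw.le hs).symm
  exact smul_right_injective _ hw.ne' (add_right_cancel h)

lemma hsq_res_identity (hw : 0 ≤ w) (hs : 0 < s) :
    s * hsq (res w s U * U) + w * hsq (tee w s U) = (tee w s U).trace := by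
  have h1 : (w • (U * Uᵀ) + s • 1) * (res w s U * U) = U := by
    rw [← Matrix.mul_assoc, base_mul_res U hw hs, Matrix.one_mul]
  have h2 : (tee w s U).trace = ip (res w s U * U) U := by
    rw [ip_eq_trace, tee, transpose_mul, res_transpose]
  rw [h2]
  conv_rhs => arg 2; rw [← h1]
  rw [Matrix.add_mul, Matrix.smul_mul, Matrix.smul_mul, Matrix.one_mul, ip_add_right,
    ip_smul_right, ip_smul_right, ← hsq_eq, Matrix.mul_assoc U, tee, Matrix.mul_assoc,
    hsq_eq (Uᵀ * _), ip_mul_left Uᵀ, transpose_transpose, add_comm]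

lemma hsq_res_mul_le (hw : 0 ≤ w) (hs : 0 < s) (V : Matrix X L ℝ) :
    s ^ 2 * hsq (res w s U * V) + 2 * w * s * hsq (Uᵀ * (res w s U * V)) ≤ hsq V := by
  set W := res w s U * V with hW
  have hV : V = w • (U * (Uᵀ * W)) + s • W := by
    have := congrArg (· * V) (base_mul_res U hw hs)
    simpa [Matrix.add_mul, Matrix.mul_assoc, hW] using this.symm
  rw [hV, hsq_add, hsq_smul, hsq_smul, ip_smul_left, ip_smul_right, ip_mul_left, ← hsq_eq]
  nlinarith [mul_nonneg (sq_nonneg w) (hsq_nonneg (U * (Uᵀ * W)))]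

lemma hsq_rho_le (hw : 0 ≤ w) (hs : 0 < s) (V : Matrix X L ℝ) :
    hsq (s • res w s U * V) ≤ hsq V := by
  rw [Matrix.smul_mul, hsq_smul]
  nlinarith [hsq_res_mul_le U hw hs V, mul_nonneg (mul_nonneg hw hs.le)
    (hsq_nonneg (Uᵀ * (res w s U * V)))]

lemma hsq_rho_right_le (hw : 0 ≤ w) (hs : 0 < s) (V : Matrix L X ℝ) :
    hsq (V * (s • res w s U)) ≤ hsq V := by
  rw [← hsq_transpose, transpose_mul, transpose_smul, res_transpose, ← hsq_transpose V]
  exact hsq_rho_le U hw hs _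

lemma hsq_half_res_le (hs : 0 < s) (V : Matrix X L ℝ) :
    s * hsq (Uᵀ * res (1 / 2) s U * V) ≤ hsq V := by
  rw [Matrix.mul_assoc]
  nlinarith [hsq_res_mul_le U (show (0 : ℝ) ≤ 1 / 2 by norm_num) hs V,
    mul_nonneg (sq_nonneg s) (hsq_nonneg (res (1 / 2) s U * V))]

lemma hsq_half_res_right_le (hs : 0 < s) (V : Matrix L X ℝ) :
    s * hsq (V * res (1 / 2) s U * U) ≤ hsq V := by
  rw [← hsq_transpose, transpose_mul, transpose_mul, res_transpose, ← hsq_transpose V,
    ← Matrix.mul_assoc]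
  exact hsq_half_res_le U hs _

lemma hsq_rho_sub_le (hs : 0 < s) (V : Matrix X L ℝ) :
    hsq (s • res (1 / 2) s U * V - V) ≤ hsq U * hsq V / s := by
  have e : s • res (1 / 2) s U * V - V
      = (-(1 / 2) : ℝ) • (U * (Uᵀ * res (1 / 2) s U * V)) := by
    have := congrArg (· * V) (res_eq U (show (0 : ℝ) ≤ 1 / 2 by norm_num) hs)
    simp only [Matrix.add_mul, Matrix.smul_mul, Matrix.one_mul, Matrix.mul_assoc] at this
    rw [neg_smul, Matrix.smul_mul, Matrix.mul_assoc Uᵀ]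
    conv_lhs => arg 2; rw [← this]
    abel
  rw [e, hsq_smul, le_div_iff₀ hs]
  nlinarith [hsq_mul_le U (Uᵀ * res (1 / 2) s U * V), hsq_half_res_le U hs V, hsq_nonneg U,
    hsq_nonneg V, hsq_nonneg (U * (Uᵀ * res (1 / 2) s U * V)),
    hsq_nonneg (Uᵀ * res (1 / 2) s U * V)]

lemma trace_tee_le (hs : 0 < s) :
    (tee (1 / 2) s U).trace ≤ 2 * Fintype.card K := by
  set T := tee (1 / 2) s U
  have h1 := hsq_res_identity U (show (0 : ℝ) ≤ 1 / 2 by norm_num) hs
  have h2 : T.trace ^ 2 ≤ (Fintype.card K : ℝ) * hsq T := by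
    refine (sq_sum_le_card_mul_sum_sq (s := Finset.univ) (f := fun k => T k k)).trans ?_
    exact mul_le_mul_of_nonneg_left (Finset.sum_le_sum fun i _ =>
      Finset.single_le_sum (fun l _ => sq_nonneg (T i l)) (Finset.mem_univ i)) (by positivity)
  nlinarith [mul_nonneg hs.le (hsq_nonneg (res (1 / 2) s U * U)), hsq_nonneg T,
    (Nat.cast_nonneg (Fintype.card K) : (0 : ℝ) ≤ _)]

lemma hsq_rho_self_le (hs : 0 < s) :
    hsq (s • res (1 / 2) s U * U) ≤ s * (2 * Fintype.card K) := by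
  rw [Matrix.smul_mul, hsq_smul]
  nlinarith [hsq_res_identity U (show (0 : ℝ) ≤ 1 / 2 by norm_num) hs, trace_tee_le U hs,
    hsq_nonneg (tee (1 / 2) s U), hs]

/-- Regularised rank. -/
noncomputable def gg (s : ℝ) (U : Matrix X K ℝ) : ℝ := (tee 1 s U).trace

/-- The potential at one level. -/
noncomputable def pot (s : ℝ) (U : Matrix X K ℝ) : ℝ := hsq U - s * gg s U

lemma trial_le (hs : 0 < s) (Z : Matrix X K ℝ) :
    2 * ip U Z - hsq (Uᵀ * Z) - s * hsq Z ≤ gg s U := by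
  set Z0 := res 1 s U * U with hZ0
  have h0 : s * hsq Z0 + 1 * hsq (Uᵀ * Z0) = gg s U := by
    have := hsq_res_identity U zero_le_one hs
    simpa only [gg, hZ0, tee, Matrix.mul_assoc] using this
  have hU : U * (Uᵀ * Z0) + s • Z0 = U := by
    have := congrArg (· * U) (base_mul_res U zero_le_one hs)
    simpa [Matrix.add_mul, Matrix.mul_assoc, hZ0] using this
  have hc : ip U Z = ip (Uᵀ * Z0) (Uᵀ * Z) + s * ip Z0 Z := by
    conv_lhs => arg 1; rw [← hU]
    rw [ip_add_left, ip_smul_left, ip_mul_left]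
  have h1 : 0 ≤ hsq (Uᵀ * Z0 - Uᵀ * Z) + s * hsq (Z0 - Z) :=
    add_nonneg (hsq_nonneg _) (mul_nonneg hs.le (hsq_nonneg _))
  rw [hsq_sub, hsq_sub] at h1
  linarith

lemma gg_le_resid (hs : 0 < s) (P : Matrix X X ℝ) :
    s * gg s U ≤ hsq (U - P * U) + s * hsq P := by
  set J := res 1 s U with hJ
  set P0 := J * U * Uᵀ with hP0
  have hU : U - P0 * U = s • (J * U) := by
    have := congrArg (· * U) (res_eq' U zero_le_one hs)
    simp only [one_smul, Matrix.add_mul, Matrix.smul_mul, Matrix.one_mul] at this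
    rw [hP0, hJ, sub_eq_iff_eq_add, add_comm]
    exact this.symm
  have e : U - P * U = s • (J * U) - (P - P0) * U := by
    rw [← hU, Matrix.sub_mul]; abel
  have h0 : s * hsq (J * U) + hsq P0 = gg s U := by
    have := hsq_res_identity U zero_le_one hs
    rw [one_mul] at this
    have e2 : hsq P0 = hsq (tee 1 s U) := by
      rw [hsq_eq, hsq_eq, hP0, ip_mul_right, transpose_transpose, tee,
        Matrix.mul_assoc Uᵀ, ip_mul_left Uᵀ, transpose_transpose, ← Matrix.mul_assoc U Uᵀ,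
        ← hJ]
      conv_rhs => rw [← Matrix.mul_assoc, Matrix.mul_assoc U Uᵀ, hJ,
        gram_res_comm U one_pos hs, ← hJ]
    rw [e2, hJ]; exact this
  have h1 : ip (J * U) ((P - P0) * U) = ip P0 (P - P0) := by
    rw [ip_comm, ip_mul_right, hP0, ip_comm]
  have e3 : hsq P = hsq P0 + 2 * ip P0 (P - P0) + hsq (P - P0) := by
    rw [← hsq_add, add_sub_cancel]
  have h2 : 0 ≤ hsq ((P - P0) * U) := hsq_nonneg _
  have h3 : 0 ≤ s * hsq (P - P0) := mul_nonneg hs.le (hsq_nonneg _)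
  rw [e, hsq_sub, hsq_smul, ip_smul_left, h1, e3]
  nlinarith

lemma pot_nonneg (hs : 0 < s) : 0 ≤ pot s U := by
  have := gg_le_resid U hs 0
  simp [hsq_eq, ip] at this
  simp only [pot, hsq_eq, ip]
  linarith

lemma pot_le_self (hs : 0 < s) : pot s U ≤ hsq U := by
  have := trial_le U hs 0
  simp [hsq, ip] at this
  have := mul_nonneg hs.le this
  unfold pot; linarith

lemma pot_le_sq (hs : 0 < s) : pot s U ≤ hsq U ^ 2 / s := by
  have := mul_le_mul_of_nonneg_left (trial_le U hs (s⁻¹ • U)) hs.le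
  have h2 : hsq (Uᵀ * U) ≤ hsq U ^ 2 := (hsq_mul_le _ _).trans_eq (by rw [hsq_transpose, sq])
  rw [Matrix.mul_smul, hsq_smul, hsq_smul, ip_smul_right, ← hsq_eq] at this
  field_simp at this
  unfold pot
  rw [le_div_iff₀ hs]
  nlinarith

lemma hsq_sub_mul_eq (P : Matrix X X ℝ) :
    hsq (U - P * U) = ip ((1 - P)ᵀ * (1 - P)) (U * Uᵀ) := by
  rw [← ip_mul_right, Matrix.mul_assoc, ip_mul_left, transpose_transpose, ip_comm,
    Matrix.sub_mul, Matrix.one_mul, hsq_eq]

/-- Two children with the same total Gram matrix have at most the mean regularised rank. -/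
lemma kids_le (hs : 0 < s) (V : Bool → Matrix X L ℝ)
    (hV : V false * (V false)ᵀ + V true * (V true)ᵀ = U * Uᵀ) :
    gg s (V false) + gg s (V true) ≤ (tee (1 / 2) s U).trace := by
  set R := res (1 / 2) s U with hR
  set P := (1 / 2 : ℝ) • (R * U * Uᵀ) with hP
  have h : ∀ j, s * gg s (V j) ≤ hsq (V j - P * V j) + s * hsq P := fun j => gg_le_resid _ hs P
  have hs2 : hsq (V false - P * V false) + hsq (V true - P * V true) = hsq (U - P * U) := by
    rw [hsq_sub_mul_eq, hsq_sub_mul_eq, hsq_sub_mul_eq, ← ip_add_right, hV]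
  have hU : U - P * U = s • (R * U) := by
    have := congrArg (· * U) (res_eq' U (show (0 : ℝ) ≤ 1 / 2 by norm_num) hs)
    simp only [Matrix.add_mul, Matrix.smul_mul, Matrix.one_mul] at this
    rw [hP, Matrix.smul_mul, hR, sub_eq_iff_eq_add, add_comm]
    exact this.symm
  have hP2 : hsq P = (1 / 4) * hsq (tee (1 / 2) s U) := by
    rw [hP, hsq_smul, hsq_eq, hsq_eq, ip_mul_right, transpose_transpose, tee,
      Matrix.mul_assoc Uᵀ, ip_mul_left Uᵀ, transpose_transpose, ← Matrix.mul_assoc U Uᵀ, ← hR]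
    conv_rhs => rw [← Matrix.mul_assoc, Matrix.mul_assoc U Uᵀ, hR,
      gram_res_comm U (by norm_num) hs, ← hR]
    norm_num
  have h0 := hsq_res_identity U (show (0 : ℝ) ≤ 1 / 2 by norm_num) hs
  rw [hU, hsq_smul] at hs2
  have := add_le_add (h false) (h true)
  rw [← mul_le_mul_iff_right₀ hs]
  nlinarith

end Vale.Agent.P075
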