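import Vale.Agent.P075.Node

/-!
The root term telescopes in the regularisation level as a product of two gap differences.
-/

namespace Vale.Agent.P075

open Matrix

variable {N : ℕ}

/-- The regularised identity. -/
noncomputable def rho (t : ℝ) (A B : Fn (N + 1)) (i : Bool) : Matrix (Pt N) (Pt N) ℝ :=
  t • rs t A B i

/-- Regularised root term, one level for each vertex. -/
noncomputable def tau (p q r : ℝ) (A F B : Fn (N + 1)) : ℝ :=
  (∑ i : Bool, ∑ j : Bool, ∑ l : Bool, sgn i * sgn j * sgn l *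
    (rho p A B i * mk A i j * (rho q F (fun y x => A x y) j * mk F j l)
      * (rho r (fun z x => B x z) (fun z y => F y z) l * (mk B i l)ᵀ)).trace) / 8

lemma mk_transpose (A : Fn (N + 1)) (i j : Bool) : mk (fun y x => A x y) j i = (mk A i j)ᵀ := rfl

lemma tau_rot (p q r : ℝ) (A F B : Fn (N + 1)) :
    tau q r p F (fun z x => B x z) (fun y x => A x y) = tau p q r A F B := by
  simp only [tau, mk_transpose, transpose_transpose]
  refine congrArg (· / 8) (Eq.symm ?_)
  rw [Finset.sum_comm]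
  refine Finset.sum_congr rfl fun j _ => ?_
  rw [Finset.sum_comm]
  refine Finset.sum_congr rfl fun l _ => Finset.sum_congr rfl fun i _ => ?_
  conv_rhs => rw [trace_mul_cycle]
  ring

lemma hsq_submatrix_le {X K X' K' : Type*} [Fintype X] [Fintype K] [Fintype X'] [Fintype K']
    (P : Matrix X K ℝ) {f : X' → X} {g : K' → K} (hf : Function.Injective f)
    (hg : Function.Injective g) : hsq (P.submatrix f g) ≤ hsq P := by
  simp only [hsq, submatrix_apply]
  calc ∑ i, ∑ j, P (f i) (g j) ^ 2 ≤ ∑ i, ∑ j, P (f i) j ^ 2 :=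
        Finset.sum_le_sum fun i _ => (Finset.sum_map Finset.univ ⟨g, hg⟩
          fun j => P (f i) j ^ 2).symm.trans_le
          (Finset.sum_le_univ_sum_of_nonneg fun j => sq_nonneg _)
    _ ≤ _ := (Finset.sum_map Finset.univ ⟨f, hf⟩ fun i => ∑ j, P i j ^ 2).symm.trans_le
          (Finset.sum_le_univ_sum_of_nonneg fun i => Finset.sum_nonneg fun j _ => sq_nonneg _)

/-- Selects the columns of the first function. -/
def cl (j : Bool) : Pt N → Col N := fun y => Sum.inl (j, y)

/-- Selects the columns of the second function. -/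
def cr (j : Bool) : Pt N → Col N := fun y => Sum.inr (j, y)

lemma cl_inj (j : Bool) : Function.Injective (cl (N := N) j) :=
  fun a b h => by simpa [cl] using h

lemma cr_inj (j : Bool) : Function.Injective (cr (N := N) j) :=
  fun a b h => by simpa [cr] using h

lemma mk_left (A B : Fn (N + 1)) (i j : Bool) : mk A i j = (row A B i).submatrix id (cl j) := rfl

lemma mk_right (A B : Fn (N + 1)) (i j : Bool) : mk B i j = (row A B i).submatrix id (cr j) := rfl

/-- The difference matrix at the second vertex. -/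
lemma dt_second (q : ℝ) (A F : Fn (N + 1)) (i l : Bool) :
    mk A i false * (rho q F (fun y x => A x y) false * mk F false l)
      - mk A i true * (rho q F (fun y x => A x y) true * mk F true l)
      = q • (dt q F (fun y x => A x y)).submatrix (cr i) (cl l) := by
  simp only [dt, tee, rho, rs]
  generalize res (1 / 2) q (row F (fun y x => A x y) false) = R0
  generalize res (1 / 2) q (row F (fun y x => A x y) true) = R1
  simp only [Matrix.smul_mul, Matrix.mul_smul, ← smul_sub, ← Matrix.mul_assoc]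
  congr 1

/-- The difference matrix at the third vertex. -/
lemma dt_third (r : ℝ) (F B : Fn (N + 1)) (j i : Bool) :
    mk F j false * (rho r (fun z x => B x z) (fun z y => F y z) false * (mk B i false)ᵀ)
      - mk F j true * (rho r (fun z x => B x z) (fun z y => F y z) true * (mk B i true)ᵀ)
      = r • (dt r (fun z x => B x z) (fun z y => F y z)).submatrix (cr j) (cl i) := by
  simp only [dt, tee, rho, rs]
  generalize res (1 / 2) r (row (fun z x => B x z) (fun z y => F y z) false) = R0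
  generalize res (1 / 2) r (row (fun z x => B x z) (fun z y => F y z) true) = R1
  simp only [Matrix.smul_mul, Matrix.mul_smul, ← smul_sub, ← Matrix.mul_assoc]
  congr 1

lemma rho_step {s : ℝ} (hs : 0 < s) (A B : Fn (N + 1)) (i : Bool) :
    rho (4 * s) A B i - rho s A B i
      = (3 / 2 * s) • (rs (4 * s) A B i * (row A B i * (row A B i)ᵀ) * rs s A B i) := by
  set G := row A B i * (row A B i)ᵀ
  set R := rs s A B i with hR
  set R' := rs (4 * s) A B i with hR'
  have h1 : (1 / 2 : ℝ) • (G * R) + s • R = 1 := by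
    simpa [Matrix.add_mul, hR, rs] using
      base_mul_res (row A B i) (show (0 : ℝ) ≤ 1 / 2 by norm_num) hs
  have h2 : (1 / 2 : ℝ) • (R' * G) + (4 * s) • R' = 1 := by
    simpa [Matrix.mul_add, hR', rs] using
      res_mul_base (row A B i) (show (0 : ℝ) ≤ 1 / 2 by norm_num) (show 0 < 4 * s by linarith)
  have e1 := congrArg (R' * ·) h1
  have e2 := congrArg (· * R) h2
  simp only [Matrix.mul_add, Matrix.add_mul, Matrix.mul_smul, Matrix.smul_mul, Matrix.one_mul,
    Matrix.mul_one, ← Matrix.mul_assoc] at e1 e2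
  simp only [rho, ← hR, ← hR']
  calc (4 * s) • R' - s • R
      = (4 * s) • ((1 / 2 : ℝ) • (R' * G * R) + s • (R' * R))
        - s • ((1 / 2 : ℝ) • (R' * G * R) + (4 * s) • (R' * R)) := by rw [e1, e2]
    _ = _ := by module

/-- One vertex moves from a level to four times the level. -/
lemma abs_tau_step {σ ν μ : ℝ} (hσ : 0 < σ) (hν : 0 < ν) (hμ : 0 < μ) (hν2 : ν ≤ 2 * σ)
    (hμ2 : μ ≤ 2 * σ) (A F B : Fn (N + 1)) :
    |tau (4 * σ ^ 2) (ν ^ 2) (μ ^ 2) A F B - tau (σ ^ 2) (ν ^ 2) (μ ^ 2) A F B|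
      ≤ σ ^ 3 * hsq (dt (4 * σ ^ 2) A B) + σ ^ 3 * hsq (dt (σ ^ 2) A B)
        + ν ^ 3 * hsq (dt (ν ^ 2) F (fun y x => A x y))
        + μ ^ 3 * hsq (dt (μ ^ 2) (fun z x => B x z) (fun z y => F y z)) := by
  set s := σ ^ 2 with hs_def
  have hs : 0 < s := by positivity
  set Ay : Fn (N + 1) := fun y x => A x y with hAy
  set Bz : Fn (N + 1) := fun z x => B x z with hBz
  set Fz : Fn (N + 1) := fun z y => F y z with hFz
  let T := fun i => tee (1 / 2) s (row A B i)
  let T' := fun i => tee (1 / 2) (4 * s) (row A B i)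
  let Y : Bool → Bool → Matrix (Col N) (Pt N) ℝ := fun i j => (T i).submatrix id (cl j)
  let Y' : Bool → Bool → Matrix (Pt N) (Col N) ℝ := fun i l => (T' i).submatrix (cr l) id
  let P := fun j => rho (ν ^ 2) F Ay j
  let Q := fun l => rho (μ ^ 2) Bz Fz l
  let K : Bool → Bool → Matrix (Pt N) (Pt N) ℝ := fun j l => P j * mk F j l * Q l
  have hY : ∀ i j, Y i j = (row A B i)ᵀ * rs s A B i * mk A i j := fun i j => rfl
  have hY' : ∀ i l, Y' i l = (mk B i l)ᵀ * rs (4 * s) A B i * row A B i := fun i l => rfl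
  -- the change as a signed sum of products
  have hdiff : tau (4 * s) (ν ^ 2) (μ ^ 2) A F B - tau s (ν ^ 2) (μ ^ 2) A F B
      = (3 / 2 * s) * (∑ i : Bool, ∑ j : Bool, ∑ l : Bool,
          sgn i * sgn j * sgn l * (Y' i l * Y i j * K j l).trace) / 8 := by
    simp only [tau, ← sub_div, ← Finset.sum_sub_distrib, Finset.mul_sum]
    refine congrArg (· / 8) (Finset.sum_congr rfl fun i _ => Finset.sum_congr rfl fun j _ =>
      Finset.sum_congr rfl fun l _ => ?_)
    rw [← mul_sub, ← trace_sub, ← Matrix.sub_mul, ← Matrix.sub_mul, ← Matrix.sub_mul,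
      rho_step hs, mul_left_comm]
    congr 1
    simp only [hY, hY', K, P, Q, Matrix.smul_mul, trace_smul, smul_eq_mul, Matrix.mul_assoc]
    conv_rhs => rw [trace_mul_comm]
    simp only [Matrix.mul_assoc, hAy, hBz, hFz]
  -- split into two parts, each containing a difference at the first vertex
  set M1 : Bool → Matrix (Col N) (Pt N) ℝ := fun l => Y false false * K false l - Y false true * K true l
  set M2 : Bool → Matrix (Pt N) (Col N) ℝ := fun j => K j false * Y' true false - K j true * Y' true true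
  have hsplit : (∑ i : Bool, ∑ j : Bool, ∑ l : Bool,
          sgn i * sgn j * sgn l * (Y' i l * Y i j * K j l).trace)
      = (((dt (4 * s) A B).submatrix (cr false) id * M1 false).trace
          - ((dt (4 * s) A B).submatrix (cr true) id * M1 true).trace)
        + (((dt s A B).submatrix id (cl false) * M2 false).trace
          - ((dt s A B).submatrix id (cl true) * M2 true).trace) := by
    have d1 : ∀ l, (dt (4 * s) A B).submatrix (cr l) id = Y' false l - Y' true l := fun l => rfl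
    have d2 : ∀ j, (dt s A B).submatrix id (cl j) = Y false j - Y true j := fun j => rfl
    simp only [d1, d2, M1, M2, Matrix.sub_mul, Matrix.mul_sub, trace_sub, ← Matrix.mul_assoc,
      Fintype.sum_bool, sgn_true, sgn_false]
    simp only [trace_mul_cycle (Y true _) (K _ _), trace_mul_cycle (Y false _) (K _ _)]
    ring
  have hM1 : ∀ l, M1 l = (row A B false)ᵀ * rs s A B false
      * ((ν ^ 2) • (dt (ν ^ 2) F Ay).submatrix (cr false) (cl l) * Q l) := by
    intro l
    rw [← dt_second]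
    simp only [M1, hY, K, P, Q, hAy, Matrix.sub_mul, Matrix.mul_sub, Matrix.mul_assoc]
  have hM2 : ∀ j, M2 j = P j * (((μ ^ 2) • (dt (μ ^ 2) Bz Fz).submatrix (cr j) (cl true))
      * rs (4 * s) A B true * row A B true) := by
    intro j
    rw [← dt_third]
    simp only [M2, hY', K, P, Q, hBz, hFz, Matrix.sub_mul, Matrix.mul_sub, Matrix.mul_assoc]
  have b1 : ∀ l, s * |((dt (4 * s) A B).submatrix (cr l) id * M1 l).trace|
      ≤ (σ ^ 3 * hsq (dt (4 * s) A B) + 2 * ν ^ 3 * hsq (dt (ν ^ 2) F Ay)) / 2 := by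
    intro l
    have hM : s * hsq (M1 l) ≤ ν ^ 4 * hsq (dt (ν ^ 2) F Ay) := by
      rw [hM1]
      refine (hsq_half_res_le (row A B false) hs _).trans ?_
      refine (hsq_rho_right_le (row Bz Fz l) (by norm_num) (by positivity) _).trans ?_
      rw [hsq_smul, show (ν ^ 2) ^ 2 = ν ^ 4 by ring]
      exact mul_le_mul_of_nonneg_left (hsq_submatrix_le _ (cr_inj _) (cl_inj _)) (by positivity)
    have ht := mul_le_mul_of_nonneg_left
      (abs_trace_mul_le ((dt (4 * s) A B).submatrix (cr l) id) (M1 l) hσ) hs.le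
    have hD := hsq_submatrix_le (dt (4 * s) A B) (cr_inj l) Function.injective_id
    refine ht.trans ?_
    rw [← mul_le_mul_iff_left₀ hσ]
    have e : s * ((σ * hsq ((dt (4 * s) A B).submatrix (cr l) id) + hsq (M1 l) / σ) / 2) * σ
        = (σ ^ 4 * hsq ((dt (4 * s) A B).submatrix (cr l) id) + s * hsq (M1 l)) / 2 := by
      rw [hs_def]; field_simp
    rw [e]
    nlinarith [mul_le_mul_of_nonneg_left hD (show 0 ≤ σ ^ 4 by positivity),
      mul_nonneg (mul_nonneg (show 0 ≤ ν ^ 3 by positivity) (hsq_nonneg (dt (ν ^ 2) F Ay)))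
        (sub_nonneg.2 hν2)]
  have b2 : ∀ j, s * |((dt s A B).submatrix id (cl j) * M2 j).trace|
      ≤ (σ ^ 3 * hsq (dt s A B) + 2 * μ ^ 3 * hsq (dt (μ ^ 2) Bz Fz)) / 2 := by
    intro j
    have hM : s * hsq (M2 j) ≤ μ ^ 4 * hsq (dt (μ ^ 2) Bz Fz) := by
      rw [hM2]
      refine le_trans ?_ (le_trans (hsq_half_res_right_le (row A B true)
        (show 0 < 4 * s by linarith) ((μ ^ 2) • (dt (μ ^ 2) Bz Fz).submatrix (cr j) (cl true))) ?_)
      · exact mul_le_mul (by linarith) (hsq_rho_le (row F Ay j) (by norm_num) (by positivity) _)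
          (hsq_nonneg _) (by linarith)
      · rw [hsq_smul, show (μ ^ 2) ^ 2 = μ ^ 4 by ring]
        exact mul_le_mul_of_nonneg_left (hsq_submatrix_le _ (cr_inj _) (cl_inj _)) (by positivity)
    have ht := mul_le_mul_of_nonneg_left
      (abs_trace_mul_le ((dt s A B).submatrix id (cl j)) (M2 j) hσ) hs.le
    have hD := hsq_submatrix_le (dt s A B) Function.injective_id (cl_inj j)
    refine ht.trans ?_
    rw [← mul_le_mul_iff_left₀ hσ]
    have e : s * ((σ * hsq ((dt s A B).submatrix id (cl j)) + hsq (M2 j) / σ) / 2) * σ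
        = (σ ^ 4 * hsq ((dt s A B).submatrix id (cl j)) + s * hsq (M2 j)) / 2 := by
      rw [hs_def]; field_simp
    rw [e]
    nlinarith [mul_le_mul_of_nonneg_left hD (show 0 ≤ σ ^ 4 by positivity),
      mul_nonneg (mul_nonneg (show 0 ≤ μ ^ 3 by positivity) (hsq_nonneg (dt (μ ^ 2) Bz Fz)))
        (sub_nonneg.2 hμ2)]
  rw [hdiff, hsplit, abs_div, abs_mul, abs_of_pos (by positivity : (0 : ℝ) < 3 / 2 * s),
    abs_of_pos (by norm_num : (0 : ℝ) < 8)]
  set u := ((dt (4 * s) A B).submatrix (cr false) id * M1 false).trace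
  set v := ((dt (4 * s) A B).submatrix (cr true) id * M1 true).trace
  set u' := ((dt s A B).submatrix id (cl false) * M2 false).trace
  set v' := ((dt s A B).submatrix id (cl true) * M2 true).trace
  have h4 : |(u - v) + (u' - v')| ≤ |u| + |v| + (|u'| + |v'|) :=
    (abs_add_le _ _).trans (add_le_add (abs_sub _ _) (abs_sub _ _))
  have := mul_le_mul_of_nonneg_left h4 hs.le
  have hn1 : 0 ≤ σ ^ 3 * hsq (dt (4 * s) A B) := mul_nonneg (by positivity) (hsq_nonneg _)
  have hn2 : 0 ≤ σ ^ 3 * hsq (dt s A B) := mul_nonneg (by positivity) (hsq_nonneg _)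
  have hn3 : 0 ≤ ν ^ 3 * hsq (dt (ν ^ 2) F Ay) := mul_nonneg (by positivity) (hsq_nonneg _)
  have hn4 : 0 ≤ μ ^ 3 * hsq (dt (μ ^ 2) Bz Fz) := mul_nonneg (by positivity) (hsq_nonneg _)
  linarith [b1 false, b1 true, b2 false, b2 true]

/-- The part of the gap seen at level `σ`. -/
noncomputable def dd (σ : ℝ) (A B : Fn (N + 1)) : ℝ := σ ^ 3 * hsq (dt (σ ^ 2) A B)

/-- Sum over the three vertices. -/
noncomputable def dd3 (σ : ℝ) (A F B : Fn (N + 1)) : ℝ :=
  dd σ A B + dd σ F (fun y x => A x y) + dd σ (fun z x => B x z) (fun z y => F y z)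

lemma dd_nonneg {σ : ℝ} (hσ : 0 ≤ σ) (A B : Fn (N + 1)) : 0 ≤ dd σ A B :=
  mul_nonneg (pow_nonneg hσ 3) (hsq_nonneg _)

lemma dd3_nonneg {σ : ℝ} (hσ : 0 ≤ σ) (A F B : Fn (N + 1)) : 0 ≤ dd3 σ A F B :=
  add_nonneg (add_nonneg (dd_nonneg hσ _ _) (dd_nonneg hσ _ _)) (dd_nonneg hσ _ _)

/-- All three vertices move. -/
lemma abs_tau_diag {σ : ℝ} (hσ : 0 < σ) (A F B : Fn (N + 1)) :
    |tau ((2 * σ) ^ 2) ((2 * σ) ^ 2) ((2 * σ) ^ 2) A F B
        - tau (σ ^ 2) (σ ^ 2) (σ ^ 2) A F B|
      ≤ 3 * (dd3 σ A F B + dd3 (2 * σ) A F B) := by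
  have h2 : 0 < 2 * σ := by linarith
  have hle : σ ≤ 2 * σ := by linarith
  have e4 : 4 * σ ^ 2 = (2 * σ) ^ 2 := by ring
  have g1 := abs_tau_step hσ h2 h2 le_rfl le_rfl A F B
  have g2 := abs_tau_step hσ h2 hσ le_rfl hle F (fun z x => B x z) (fun y x => A x y)
  have g3 := abs_tau_step hσ hσ hσ hle hle (fun z x => B x z) A (fun z y => F y z)
  rw [tau_rot (σ ^ 2) (4 * σ ^ 2) ((2 * σ) ^ 2) A F B,
    tau_rot (σ ^ 2) (σ ^ 2) ((2 * σ) ^ 2) A F B] at g2
  have r3 : ∀ t : ℝ, tau t (σ ^ 2) (σ ^ 2) (fun z x => B x z) A (fun z y => F y z)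
      = tau (σ ^ 2) (σ ^ 2) t A F B := fun t =>
    (tau_rot (σ ^ 2) t (σ ^ 2) F (fun z x => B x z) (fun y x => A x y)).trans
      (tau_rot (σ ^ 2) (σ ^ 2) t A F B)
  rw [r3, r3] at g3
  beta_reduce at g1 g2 g3
  rw [e4] at g1 g2 g3
  have q : ∀ G H : Fn (N + 1), 0 ≤ σ ^ 3 * hsq (dt ((2 * σ) ^ 2) G H) ∧
      σ ^ 3 * hsq (dt ((2 * σ) ^ 2) G H) ≤ (2 * σ) ^ 3 * hsq (dt ((2 * σ) ^ 2) G H) :=
    fun G H => ⟨mul_nonneg (by positivity) (hsq_nonneg _),
      mul_le_mul_of_nonneg_right (pow_le_pow_left₀ hσ.le hle 3) (hsq_nonneg _)⟩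
  have p := fun G H => dd_nonneg (N := N) hσ.le G H
  have p2 := fun G H => dd_nonneg (N := N) h2.le G H
  simp only [dd3, dd] at p p2 ⊢
  have t1 := abs_sub_le (tau ((2 * σ) ^ 2) ((2 * σ) ^ 2) ((2 * σ) ^ 2) A F B)
    (tau (σ ^ 2) ((2 * σ) ^ 2) ((2 * σ) ^ 2) A F B) (tau (σ ^ 2) (σ ^ 2) (σ ^ 2) A F B)
  have t2 := abs_sub_le (tau (σ ^ 2) ((2 * σ) ^ 2) ((2 * σ) ^ 2) A F B)
    (tau (σ ^ 2) (σ ^ 2) ((2 * σ) ^ 2) A F B) (tau (σ ^ 2) (σ ^ 2) (σ ^ 2) A F B)
  linarith [q A B, q F (fun y x => A x y), q (fun z x => B x z) (fun z y => F y z),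
    p A B, p F (fun y x => A x y), p (fun z x => B x z) (fun z y => F y z),
    p2 A B, p2 F (fun y x => A x y), p2 (fun z x => B x z) (fun z y => F y z),
    (q A B).1, (q A B).2, (q F (fun y x => A x y)).2,
    (q (fun z x => B x z) (fun z y => F y z)).2]

end Vale.Agent.P075
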