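import Vale.Agent.P075.Problem

/-!
From the finite bound to the dyadic bound: exact identity for grid step functions, then two
dominated-convergence limits (grid samples of continuous functions; continuous approximations of
bounded measurable functions).
-/

namespace Vale.Agent.P075

open MeasureTheory Filter Topology

namespace Transfer

/-- Left endpoint of the grid interval of scale `m` containing `x`. -/
noncomputable def flo (m : ℤ) (x : ℝ) : ℝ := (2 : ℝ) ^ m * ⌊x / (2 : ℝ) ^ m⌋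

lemma flo_flo (m : ℤ) (x : ℝ) : flo m (flo m x) = flo m x := by
  have h : (2 : ℝ) ^ m ≠ 0 := (zpow_pos two_pos m).ne'
  unfold flo
  rw [mul_div_cancel_left₀ _ h, Int.floor_intCast]

lemma flo_of_mem {k : ℤ} {a : ℕ} {x : ℝ} (hx : x ∈ ivl k a) :
    flo k x = (2 : ℝ) ^ k * a := by
  have h : (0 : ℝ) < (2 : ℝ) ^ k := zpow_pos two_pos k
  have hf : ⌊x / (2 : ℝ) ^ k⌋ = (a : ℤ) := by
    rw [Int.floor_eq_iff]
    push_cast
    rw [le_div_iff₀ h, div_lt_iff₀ h]
    constructor <;> nlinarith [hx.1, hx.2]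
  simp [flo, hf]

lemma abs_flo_sub_le (m : ℤ) (x : ℝ) : |flo m x - x| ≤ (2 : ℝ) ^ m := by
  have h : (0 : ℝ) < (2 : ℝ) ^ m := zpow_pos two_pos m
  have e : flo m x - x = -((2 : ℝ) ^ m * Int.fract (x / (2 : ℝ) ^ m)) := by
    rw [Int.fract, flo]; field_simp; ring
  rw [e, abs_neg, abs_mul, abs_of_pos h, abs_of_nonneg (Int.fract_nonneg _)]
  exact mul_le_of_le_one_right h.le (Int.fract_lt_one _).le

lemma measurable_flo (m : ℤ) : Measurable (flo m) := by
  unfold flo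
  fun_prop

/-- Grid point of a bit vector below a node. -/
noncomputable def pt : (N : ℕ) → ℤ → ℕ → Pt N → ℝ
  | 0, k, a, _ => (2 : ℝ) ^ k * a
  | N + 1, k, a, x => pt N (k - 1) (Nat.bit (x 0) a) (Fin.tail x)

lemma pt_cons {N : ℕ} (k : ℤ) (a : ℕ) (i : Bool) (x : Pt N) :
    pt (N + 1) k a (Fin.cons i x) = pt N (k - 1) (Nat.bit i a) x := by
  simp [pt, Fin.tail_cons]

/-- Samples of a function below a node pair. -/
noncomputable def smp (N : ℕ) (k : ℤ) (a b : ℕ) (G : ℝ → ℝ → ℝ) : Fn N :=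
  fun x y => G (pt N k a x) (pt N k b y)

lemma kid_smp (N : ℕ) (k : ℤ) (a b : ℕ) (G : ℝ → ℝ → ℝ) (i j : Bool) :
    kid (smp (N + 1) k a b G) i j = smp N (k - 1) (Nat.bit i a) (Nat.bit j b) G := by
  funext x y
  simp [kid, smp, pt_cons]

lemma two_zpow_eq (k : ℤ) : (2 : ℝ) ^ k = 2 * (2 : ℝ) ^ (k - 1) := by
  rw [zpow_sub_one₀ (two_ne_zero : (2 : ℝ) ≠ 0)]; ring

lemma ivl_false (k : ℤ) (a : ℕ) : ivl (k - 1) (Nat.bit false a) =
    Set.Ico ((2 : ℝ) ^ k * a) ((2 : ℝ) ^ k * (a + 1 / 2)) := by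
  unfold ivl
  rw [two_zpow_eq k, Nat.bit_false_apply]
  push_cast
  congr 1 <;> ring

lemma ivl_true (k : ℤ) (a : ℕ) : ivl (k - 1) (Nat.bit true a) =
    Set.Ico ((2 : ℝ) ^ k * (a + 1 / 2)) ((2 : ℝ) ^ k * (a + 1)) := by
  unfold ivl
  rw [two_zpow_eq k, Nat.bit_true_apply]
  push_cast
  congr 1 <;> ring

lemma ivl_union (k : ℤ) (a : ℕ) :
    ivl (k - 1) (Nat.bit false a) ∪ ivl (k - 1) (Nat.bit true a) = ivl k a := by
  rw [ivl_false, ivl_true, ivl]
  have h : (0 : ℝ) < (2 : ℝ) ^ k := zpow_pos two_pos k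
  exact Set.Ico_union_Ico_eq_Ico (by nlinarith) (by nlinarith)

lemma ivl_disj (k : ℤ) (a : ℕ) :
    Disjoint (ivl (k - 1) (Nat.bit false a)) (ivl (k - 1) (Nat.bit true a)) := by
  rw [ivl_false, ivl_true, Set.disjoint_left]
  intro x h1 h2
  linarith [h1.2, h2.1]

lemma haar_of_mem {k : ℤ} {a : ℕ} {i : Bool} {x : ℝ} (hx : x ∈ ivl (k - 1) (Nat.bit i a)) :
    haar k a x = sgn i := by
  cases i
  · rw [ivl_false] at hx
    have h2 : x ∉ Set.Ico ((2 : ℝ) ^ k * (a + 1 / 2)) ((2 : ℝ) ^ k * (a + 1)) := fun h => by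
      linarith [h.1, hx.2]
    unfold haar
    rw [Set.indicator_of_mem hx, Set.indicator_of_notMem h2]
    simp
  · rw [ivl_true] at hx
    have h1 : x ∉ Set.Ico ((2 : ℝ) ^ k * a) ((2 : ℝ) ^ k * (a + 1 / 2)) := fun h => by
      linarith [h.2, hx.1]
    unfold haar
    rw [Set.indicator_of_mem hx, Set.indicator_of_notMem h1]
    simp

lemma measurableSet_ivl (k : ℤ) (a : ℕ) : MeasurableSet (ivl k a) := measurableSet_Ico

/-- Integral of a grid step function over an interval. -/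
lemma int_step : ∀ (N : ℕ) (k : ℤ) (a : ℕ) (f : ℝ → ℝ), (∀ x, f x = f (flo (k - N) x)) →
    IntegrableOn f (ivl k a) ∧
      ∫ x in ivl k a, f x = (2 : ℝ) ^ k * av (fun u : Pt N => f (pt N k a u)) := by
  intro N
  induction N with
  | zero =>
    intro k a f hf
    have hc : Set.EqOn f (fun _ => f ((2 : ℝ) ^ k * a)) (ivl k a) := fun x hx => by
      have h0 := hf x
      rw [Nat.cast_zero, sub_zero, flo_of_mem hx] at h0
      exact h0
    refine ⟨(integrableOn_congr_fun hc (measurableSet_ivl _ _)).mpr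
      (integrableOn_const (by simp [ivl])), ?_⟩
    rw [setIntegral_congr_fun ((measurableSet_ivl _ _)) hc, setIntegral_const, av_zero_dim]
    have h : (0 : ℝ) < (2 : ℝ) ^ k := zpow_pos two_pos k
    simp only [ivl, Real.volume_real_Ico, smul_eq_mul, pt]
    rw [max_eq_left (by nlinarith)]
    ring
  | succ n ih =>
    intro k a f hf
    have hs : k - 1 - (n : ℤ) = k - ((n + 1 : ℕ) : ℤ) := by push_cast; ring
    obtain ⟨i0, e0⟩ := ih (k - 1) (Nat.bit false a) f (by rw [hs]; exact hf)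
    obtain ⟨i1, e1⟩ := ih (k - 1) (Nat.bit true a) f (by rw [hs]; exact hf)
    refine ⟨ivl_union k a ▸ i0.union i1, ?_⟩
    rw [← ivl_union k a, setIntegral_union (ivl_disj k a) (measurableSet_ivl _ _) i0 i1, e0, e1,
      av_succ, two_zpow_eq k]
    simp only [pt_cons]
    ring

/-- Integral of a grid step function against a Haar function. -/
lemma int_haar (N : ℕ) (k : ℤ) (a : ℕ) (g : ℝ → ℝ)
    (hg : ∀ x, g x = g (flo (k - ((N + 1 : ℕ) : ℤ)) x)) :
    ∫ x in ivl k a, g x * haar k a x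
      = (2 : ℝ) ^ k * av (fun u : Pt (N + 1) => hh u * g (pt (N + 1) k a u)) := by
  have hs : k - 1 - (N : ℤ) = k - ((N + 1 : ℕ) : ℤ) := by push_cast; ring
  have key : ∀ i : Bool, IntegrableOn (fun x => g x * haar k a x) (ivl (k - 1) (Nat.bit i a)) ∧
      ∫ x in ivl (k - 1) (Nat.bit i a), g x * haar k a x
        = (2 : ℝ) ^ (k - 1) * (sgn i * av (fun u : Pt N => g (pt N (k - 1) (Nat.bit i a) u))) := by
    intro i
    obtain ⟨hi, he⟩ := int_step N (k - 1) (Nat.bit i a) g (by rw [hs]; exact hg)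
    have hc : Set.EqOn (fun x => g x * haar k a x) (fun x => g x * sgn i)
        (ivl (k - 1) (Nat.bit i a)) := fun x hx => by simp [haar_of_mem hx]
    refine ⟨(integrableOn_congr_fun hc (measurableSet_ivl _ _)).mpr (Integrable.mul_const hi _), ?_⟩
    rw [setIntegral_congr_fun (measurableSet_ivl _ _) hc, integral_mul_const, he]
    ring
  rw [← ivl_union k a,
    setIntegral_union (ivl_disj k a) (measurableSet_ivl _ _) (key false).1 (key true).1,
    (key false).2, (key true).2, av_succ, two_zpow_eq k]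
  simp only [pt_cons, hh_cons, sgn_false, sgn_true, av_mul_left]
  ring

/-- Constancy on grid squares of scale `m`. -/
def Stp (m : ℤ) (G : ℝ → ℝ → ℝ) : Prop := ∀ x y, G x y = G (flo m x) (flo m y)

lemma Stp.fst {m : ℤ} {G : ℝ → ℝ → ℝ} (h : Stp m G) (x y : ℝ) : G (flo m x) y = G x y := by
  rw [h x y, h (flo m x) y, flo_flo]

lemma Stp.snd {m : ℤ} {G : ℝ → ℝ → ℝ} (h : Stp m G) (x y : ℝ) : G x (flo m y) = G x y := by
  rw [h x y, h x (flo m y), flo_flo]

lemma LI_eq_term (N : ℕ) (k : ℤ) (a b : ℕ) {G0 G1 G2 : ℝ → ℝ → ℝ}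
    (h0 : Stp (k - ((N + 1 : ℕ) : ℤ)) G0) (h1 : Stp (k - ((N + 1 : ℕ) : ℤ)) G1)
    (h2 : Stp (k - ((N + 1 : ℕ) : ℤ)) G2) :
    LI k (a, b) G0 G1 G2 = (4 : ℝ) ^ k * term (smp (N + 1) k a b G0)
      (smp (N + 1) k b (a ^^^ b) G1) (smp (N + 1) k a (a ^^^ b) (fun x z => G2 z x)) := by
  set s : ℝ := (2 : ℝ) ^ k with hs
  set c := a ^^^ b
  have in2 : ∀ x0 x1 : ℝ, ∫ x2 in ivl k c,
      G0 x0 x1 * G1 x1 x2 * G2 x2 x0 * (haar k a x0 * haar k b x1 * haar k c x2)
      = (s * av (fun z : Pt (N + 1) => hh z *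
          (G0 x0 x1 * G1 x1 (pt (N + 1) k c z) * G2 (pt (N + 1) k c z) x0 * haar k a x0)))
        * haar k b x1 := by
    intro x0 x1
    have e := int_haar N k c
      (fun x2 => G0 x0 x1 * G1 x1 x2 * G2 x2 x0 * (haar k a x0 * haar k b x1))
      (fun x => by simp only [h1.snd, h2.fst])
    simp only [mul_assoc] at e ⊢
    rw [e, ← av_mul_right, ← av_mul_left]
    simp only [← av_mul_left]
    refine congrArg av (funext fun z => ?_)
    ring
  have in1 : ∀ x0 : ℝ, ∫ x1 in ivl k b, ∫ x2 in ivl k c,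
      G0 x0 x1 * G1 x1 x2 * G2 x2 x0 * (haar k a x0 * haar k b x1 * haar k c x2)
      = (s * (s * av (fun y : Pt (N + 1) => av fun z : Pt (N + 1) => hh y * hh z *
          (G0 x0 (pt (N + 1) k b y) * G1 (pt (N + 1) k b y) (pt (N + 1) k c z)
            * G2 (pt (N + 1) k c z) x0))))
        * haar k a x0 := by
    intro x0
    simp only [in2]
    rw [int_haar N k b _ (fun x => by simp only [h0.snd, h1.fst]), ← hs]
    simp only [← av_mul_left, ← av_mul_right]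
    refine congrArg av (funext fun y => congrArg av (funext fun z => ?_))
    ring
  unfold LI
  rw [show a ^^^ b = c from rfl]
  simp only [in1]
  rw [int_haar N k a _ (fun x => by simp only [h0.fst, h2.snd]), ← hs,
    show (4 : ℝ) ^ k = s * s by rw [hs, ← mul_zpow]; norm_num, zpow_neg, ← hs]
  have hs0 : s ≠ 0 := (zpow_pos two_pos k).ne'
  simp only [term, smp, ← av_mul_left]
  refine congrArg av (funext fun x => congrArg av (funext fun y => congrArg av (funext fun z => ?_)))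
  field_simp

/-- Sum of the absolute values of the terms at depth `j` below a node. -/
noncomputable def U (G0 G1 G2 : ℝ → ℝ → ℝ) : ℕ → ℤ → ℕ → ℕ → ℝ
  | 0, k, a, b => |LI k (a, b) G0 G1 G2|
  | j + 1, k, a, b => ∑ i : Bool, ∑ i' : Bool, U G0 G1 G2 j (k - 1) (Nat.bit i a) (Nat.bit i' b)

lemma U_nonneg (G0 G1 G2 : ℝ → ℝ → ℝ) : ∀ (j : ℕ) (k : ℤ) (a b : ℕ), 0 ≤ U G0 G1 G2 j k a b
  | 0, _, _, _ => abs_nonneg _
  | j + 1, _, _, _ => Finset.sum_nonneg fun _ _ => Finset.sum_nonneg fun _ _ => U_nonneg _ _ _ j _ _ _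

lemma xor_bit (i j : Bool) (a b : ℕ) :
    Nat.bit i a ^^^ Nat.bit j b = Nat.bit (i ^^ j) (a ^^^ b) := by
  rw [Nat.xor_bit]

lemma Tot_smp {G0 G1 G2 : ℝ → ℝ → ℝ} : ∀ (N : ℕ) (k : ℤ) (a b : ℕ) (c : ℕ → ℝ),
    Stp (k - N) G0 → Stp (k - N) G1 → Stp (k - N) G2 →
      (4 : ℝ) ^ k * Tot N c (smp N k a b G0) (smp N k b (a ^^^ b) G1)
          (smp N k a (a ^^^ b) (fun x z => G2 z x))
        = ∑ j ∈ Finset.range N, c j * U G0 G1 G2 j k a b := by
  intro N
  induction N with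
  | zero => simp [Tot_zero]
  | succ n ih =>
    intro k a b c h0 h1 h2
    have hs : k - 1 - (n : ℤ) = k - ((n + 1 : ℕ) : ℤ) := by push_cast; ring
    have e4 : (4 : ℝ) ^ k = 4 * (4 : ℝ) ^ (k - 1) := by
      rw [zpow_sub_one₀ (by norm_num : (4 : ℝ) ≠ 0)]; ring
    rw [Tot_succ, Finset.sum_range_succ', mul_add, add_comm]
    congr 1
    · simp only [U, Finset.mul_sum]
      rw [Finset.sum_div, Finset.mul_sum, Finset.sum_comm (s := Finset.range n)]
      refine Finset.sum_congr rfl fun i _ => ?_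
      rw [Finset.sum_div, Finset.mul_sum, Finset.sum_comm (s := Finset.range n)]
      refine Finset.sum_congr rfl fun i' _ => ?_
      rw [← ih (k - 1) (Nat.bit i a) (Nat.bit i' b) (fun j => c (j + 1)) (by rwa [hs])
        (by rwa [hs]) (by rwa [hs]), xor_bit, kid_smp, kid_smp, kid_smp, e4]
      ring
    · rw [U, LI_eq_term n k a b h0 h1 h2, abs_mul,
        abs_of_pos (zpow_pos (by norm_num : (0 : ℝ) < 4) k)]
      ring

lemma sum_le_U (G0 G1 G2 : ℝ → ℝ → ℝ) : ∀ (j : ℕ) (k : ℤ) (a b : ℕ) (T : Finset (ℕ × ℕ)),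
    (∀ p ∈ T, p.1 / 2 ^ j = a ∧ p.2 / 2 ^ j = b) →
      ∑ p ∈ T, |LI (k - j) p G0 G1 G2| ≤ U G0 G1 G2 j k a b := by
  intro j
  induction j with
  | zero =>
    intro k a b T h
    have hT : T ⊆ {(a, b)} := fun p hp => by
      obtain ⟨e1, e2⟩ := h p hp
      simp only [pow_zero, Nat.div_one] at e1 e2
      simp [Prod.ext_iff, e1, e2]
    refine (Finset.sum_le_sum_of_subset_of_nonneg hT fun _ _ _ => abs_nonneg _).trans ?_
    simp [U]
  | succ n ih =>
    intro k a b T h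
    let g : ℕ × ℕ → Bool × Bool :=
      fun p => (decide (p.1 / 2 ^ n % 2 = 1), decide (p.2 / 2 ^ n % 2 = 1))
    rw [← Finset.sum_fiberwise T g, Fintype.sum_prod_type, U]
    refine Finset.sum_le_sum fun i _ => Finset.sum_le_sum fun i' _ => ?_
    rw [show k - ((n + 1 : ℕ) : ℤ) = k - 1 - n by push_cast; ring]
    refine ih (k - 1) (Nat.bit i a) (Nat.bit i' b) _ fun p hp => ?_
    obtain ⟨hpT, hg⟩ := Finset.mem_filter.1 hp
    obtain ⟨e1, e2⟩ := h p hpT
    rw [pow_succ, ← Nat.div_div_eq_div_mul] at e1 e2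
    obtain ⟨g1, g2⟩ := Prod.mk.inj hg
    subst g1 g2
    constructor
    · by_cases hb : p.1 / 2 ^ n % 2 = 1 <;> simp [hb, Nat.bit_val] <;> omega
    · by_cases hb : p.2 / 2 ^ n % 2 = 1 <;> simp [hb, Nat.bit_val] <;> omega

/-- Cube integral over the top square. -/
noncomputable def I3 (K : ℤ) (G : ℝ → ℝ → ℝ) : ℝ :=
  ∫ p in ivl K 0 ×ˢ ivl K 0, |G p.1 p.2| ^ 3

/-- Pointwise bound by `R` with measurability. -/
def Nice (R : ℝ) (G : ℝ → ℝ → ℝ) : Prop :=
  Measurable (Function.uncurry G) ∧ ∀ x y, |G x y| ≤ R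

instance finite_ivl (k : ℤ) (n : ℕ) : IsFiniteMeasure (volume.restrict (ivl k n)) :=
  ⟨by simp [ivl]⟩

lemma restrict_sq (K L : ℤ) (a b : ℕ) :
    (volume : Measure (ℝ × ℝ)).restrict (ivl K a ×ˢ ivl L b)
      = (volume.restrict (ivl K a)).prod (volume.restrict (ivl L b)) := by
  rw [Measure.volume_eq_prod, Measure.prod_restrict]

lemma I3_nonneg (K : ℤ) (G : ℝ → ℝ → ℝ) : 0 ≤ I3 K G :=
  integral_nonneg fun _ => by positivity

lemma I3_step {N : ℕ} {K : ℤ} {R : ℝ} {G : ℝ → ℝ → ℝ} (hG : Nice R G) (h : Stp (K - N) G) :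
    I3 K G = (4 : ℝ) ^ K * av2 (fun x y => |smp N K 0 0 G x y| ^ 3) := by
  have hi : Integrable (fun p : ℝ × ℝ => |G p.1 p.2| ^ 3)
      ((volume.restrict (ivl K 0)).prod (volume.restrict (ivl K 0))) := by
    refine Integrable.of_bound ?_ (R ^ 3) (Eventually.of_forall fun p => ?_)
    · have hm : Measurable fun p : ℝ × ℝ => G p.1 p.2 := hG.1
      exact (hm.abs.pow_const 3).aestronglyMeasurable
    · rw [Real.norm_eq_abs, abs_of_nonneg (by positivity)]
      exact pow_le_pow_left₀ (abs_nonneg _) (hG.2 _ _) 3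
  rw [I3, restrict_sq, integral_prod _ hi]
  have e : ∀ x, ∫ y in ivl K 0, |G x y| ^ 3
      = (2 : ℝ) ^ K * av (fun v : Pt N => |G x (pt N K 0 v)| ^ 3) :=
    fun x => (int_step N K 0 _ (fun y => by simp only [h.snd])).2
  simp only [e]
  rw [(int_step N K 0 _ (fun x => by simp only [h.fst])).2, av_mul_left, ← mul_assoc, ← mul_zpow]
  norm_num [av2, smp]

/-- The inequality to be proved, on a top square. -/
def Bnd (C θ : ℝ) (K : ℤ) (S : Finset ℤ) (T : Finset (ℕ × ℕ)) (G0 G1 G2 : ℝ → ℝ → ℝ) : Prop :=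
  ∑ k ∈ S, ∑ p ∈ T, |LI k p G0 G1 G2| ≤
    C * (1 + (S.card : ℝ)) ^ θ *
      (I3 K G0 ^ (1 / 3 : ℝ) * I3 K G1 ^ (1 / 3 : ℝ) * I3 K G2 ^ (1 / 3 : ℝ))

lemma bnd_step {C θ R : ℝ} (hF : FiniteBound C θ) {K : ℤ} {N : ℕ} {S : Finset ℤ}
    {T : Finset (ℕ × ℕ)} (hS : ∀ k ∈ S, k ≤ K ∧ (K - k).toNat < N)
    (hT : ∀ k ∈ S, ∀ p ∈ T, p.1 < 2 ^ (K - k).toNat ∧ p.2 < 2 ^ (K - k).toNat)
    {G0 G1 G2 : ℝ → ℝ → ℝ} (n0 : Nice R G0) (n1 : Nice R G1) (n2 : Nice R G2)
    (h0 : Stp (K - N) G0) (h1 : Stp (K - N) G1) (h2 : Stp (K - N) G2) :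
    Bnd C θ K S T G0 G1 G2 := by
  set J : Finset ℕ := S.image fun k => (K - k).toNat with hJ
  set c : ℕ → ℝ := fun j => if j ∈ J then 1 else 0 with hc
  have hsub : J ⊆ Finset.range N := fun j hj => by
    obtain ⟨k, hk, rfl⟩ := Finset.mem_image.1 hj
    exact Finset.mem_range.2 (hS k hk).2
  have hsum : ∑ j ∈ Finset.range N, c j ≤ 1 + (S.card : ℝ) := by
    have hle : (J.card : ℝ) ≤ S.card := by exact_mod_cast Finset.card_image_le
    simp only [hc, Finset.sum_boole]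
    rw [Finset.filter_mem_eq_inter, Finset.inter_eq_right.2 hsub]
    linarith
  have inj : Set.InjOn (fun k : ℤ => (K - k).toNat) S := fun k hk l hl e => by
    have := (hS k hk).1
    have := (hS l hl).1
    simp only at e
    omega
  have lhs : ∑ k ∈ S, ∑ p ∈ T, |LI k p G0 G1 G2|
      ≤ ∑ j ∈ Finset.range N, c j * U G0 G1 G2 j K 0 0 := by
    calc ∑ k ∈ S, ∑ p ∈ T, |LI k p G0 G1 G2|
        ≤ ∑ k ∈ S, U G0 G1 G2 (K - k).toNat K 0 0 := by
          refine Finset.sum_le_sum fun k hk => ?_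
          have e : K - ((K - k).toNat : ℤ) = k := by have := (hS k hk).1; omega
          have := sum_le_U G0 G1 G2 (K - k).toNat K 0 0 T
            fun p hp => ⟨Nat.div_eq_of_lt (hT k hk p hp).1, Nat.div_eq_of_lt (hT k hk p hp).2⟩
          rwa [e] at this
      _ = ∑ j ∈ J, U G0 G1 G2 j K 0 0 := by rw [hJ, Finset.sum_image inj]
      _ = ∑ j ∈ Finset.range N, c j * U G0 G1 G2 j K 0 0 := by
          simp only [hc, ite_mul, one_mul, zero_mul, Finset.sum_ite_mem]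
          rw [Finset.inter_eq_right.2 hsub]
  refine lhs.trans ?_
  rw [← Tot_smp N K 0 0 c h0 h1 h2, Nat.xor_self]
  have hb := hF N c (smp N K 0 0 G0) (smp N K 0 0 G1) (smp N K 0 0 fun x z => G2 z x)
    (1 + (S.card : ℝ)) (fun j => by simp only [hc]; split_ifs <;> norm_num)
    (fun j => by simp only [hc]; split_ifs <;> norm_num) (by simp) hsum
  refine (mul_le_mul_of_nonneg_left hb (by positivity)).trans (le_of_eq ?_)
  have hB : av2 (fun x y => |smp N K 0 0 (fun x z => G2 z x) x y| ^ 3)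
      = av2 (fun x y => |smp N K 0 0 G2 x y| ^ 3) :=
    av_comm fun x y => |G2 (pt N K 0 y) (pt N K 0 x)| ^ 3
  have hpos : ∀ G, 0 ≤ av2 (fun x y => |smp N K 0 0 G x y| ^ 3) :=
    fun G => av_nonneg fun x => av_nonneg fun y => by positivity
  have h4 : (0 : ℝ) ≤ (4 : ℝ) ^ K := by positivity
  have cube : ((4 : ℝ) ^ K) ^ (1 / 3 : ℝ) * ((4 : ℝ) ^ K) ^ (1 / 3 : ℝ)
      * ((4 : ℝ) ^ K) ^ (1 / 3 : ℝ) = (4 : ℝ) ^ K := by
    rw [← Real.rpow_add (by positivity), ← Real.rpow_add (by positivity)]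
    norm_num
  rw [I3_step n0 h0, I3_step n1 h1, I3_step n2 h2, Real.mul_rpow h4 (hpos G0),
    Real.mul_rpow h4 (hpos G1), Real.mul_rpow h4 (hpos G2)]
  simp only [nrm3, hB]
  linear_combination (-(C * (1 + (S.card : ℝ)) ^ θ
    * (av2 (fun x y => |smp N K 0 0 G0 x y| ^ 3)) ^ (1 / 3 : ℝ)
    * (av2 (fun x y => |smp N K 0 0 G1 x y| ^ 3)) ^ (1 / 3 : ℝ)
    * (av2 (fun x y => |smp N K 0 0 G2 x y| ^ 3)) ^ (1 / 3 : ℝ))) * cube

/-- Almost everywhere convergence on the plane. -/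
def Conv (G : ℕ → ℝ → ℝ → ℝ) (F : ℝ → ℝ → ℝ) : Prop :=
  ∀ᵐ p : ℝ × ℝ, Tendsto (fun n => G n p.1 p.2) atTop (𝓝 (F p.1 p.2))

lemma measurable_haar (k : ℤ) (n : ℕ) : Measurable (haar k n) :=
  (measurable_const.indicator measurableSet_Ico).sub (measurable_const.indicator measurableSet_Ico)

lemma abs_haar_le (k : ℤ) (n : ℕ) (x : ℝ) : |haar k n x| ≤ 2 := by
  have h : ∀ s : Set ℝ, |s.indicator (1 : ℝ → ℝ) x| ≤ 1 := fun s => by
    by_cases hx : x ∈ s <;> simp [hx]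
  unfold haar
  refine (abs_sub _ _).trans ?_
  linarith [h (Set.Ico ((2 : ℝ) ^ k * n) ((2 : ℝ) ^ k * (n + 1 / 2))),
    h (Set.Ico ((2 : ℝ) ^ k * (n + 1 / 2)) ((2 : ℝ) ^ k * (n + 1)))]

/-- The integrand of a term. -/
noncomputable def integrand (k : ℤ) (a b : ℕ) (G0 G1 G2 : ℝ → ℝ → ℝ) (w : ℝ × ℝ × ℝ) : ℝ :=
  G0 w.1 w.2.1 * G1 w.2.1 w.2.2 * G2 w.2.2 w.1
    * (haar k a w.1 * haar k b w.2.1 * haar k (a ^^^ b) w.2.2)

lemma measurable_integrand (k : ℤ) (a b : ℕ) {R : ℝ} {G0 G1 G2 : ℝ → ℝ → ℝ}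
    (n0 : Nice R G0) (n1 : Nice R G1) (n2 : Nice R G2) :
    Measurable (integrand k a b G0 G1 G2) := by
  have m0 : Measurable fun w : ℝ × ℝ × ℝ => G0 w.1 w.2.1 :=
    n0.1.comp (measurable_fst.prodMk (measurable_fst.comp measurable_snd))
  have m1 : Measurable fun w : ℝ × ℝ × ℝ => G1 w.2.1 w.2.2 := n1.1.comp measurable_snd
  have m2 : Measurable fun w : ℝ × ℝ × ℝ => G2 w.2.2 w.1 :=
    n2.1.comp ((measurable_snd.comp measurable_snd).prodMk measurable_fst)
  exact ((m0.mul m1).mul m2).mul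
    ((((measurable_haar k a).comp measurable_fst).mul
      ((measurable_haar k b).comp (measurable_fst.comp measurable_snd))).mul
      ((measurable_haar k _).comp (measurable_snd.comp measurable_snd)))

lemma abs_integrand_le (k : ℤ) (a b : ℕ) {R : ℝ} {G0 G1 G2 : ℝ → ℝ → ℝ}
    (n0 : Nice R G0) (n1 : Nice R G1) (n2 : Nice R G2) (w : ℝ × ℝ × ℝ) :
    ‖integrand k a b G0 G1 G2 w‖ ≤ R * R * R * (2 * 2 * 2) := by
  have hR : 0 ≤ R := (abs_nonneg _).trans (n0.2 0 0)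
  simp only [integrand, Real.norm_eq_abs, abs_mul]
  gcongr
  · exact n0.2 _ _
  · exact n1.2 _ _
  · exact n2.2 _ _
  all_goals exact abs_haar_le _ _ _

/-- The measure of the box of a term. -/
noncomputable def box (k : ℤ) (a b : ℕ) : Measure (ℝ × ℝ × ℝ) :=
  (volume.restrict (ivl k a)).prod
    ((volume.restrict (ivl k b)).prod (volume.restrict (ivl k (a ^^^ b))))

instance finite_box (k : ℤ) (a b : ℕ) : IsFiniteMeasure (box k a b) := by
  unfold box; infer_instance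

lemma LI_eq_box (k : ℤ) (a b : ℕ) {R : ℝ} {G0 G1 G2 : ℝ → ℝ → ℝ}
    (n0 : Nice R G0) (n1 : Nice R G1) (n2 : Nice R G2) :
    LI k (a, b) G0 G1 G2 = (2 : ℝ) ^ (-k) * ∫ w, integrand k a b G0 G1 G2 w ∂box k a b := by
  have hm := measurable_integrand k a b n0 n1 n2
  have hb := abs_integrand_le k a b n0 n1 n2
  have hi : Integrable (integrand k a b G0 G1 G2) (box k a b) :=
    Integrable.of_bound hm.aestronglyMeasurable _ (Eventually.of_forall hb)
  unfold box at hi ⊢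
  rw [integral_prod _ hi, LI]
  congr 1
  refine integral_congr_ae (Eventually.of_forall fun x0 => ?_)
  have hi2 : Integrable (fun v : ℝ × ℝ => integrand k a b G0 G1 G2 (x0, v))
      ((volume.restrict (ivl k b)).prod (volume.restrict (ivl k (a ^^^ b)))) :=
    Integrable.of_bound (hm.comp measurable_prodMk_left).aestronglyMeasurable _
      (Eventually.of_forall fun v => hb (x0, v))
  exact (integral_prod _ hi2).symm

lemma tendsto_LI (k : ℤ) (p : ℕ × ℕ) {R : ℝ} {G0 G1 G2 : ℕ → ℝ → ℝ → ℝ}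
    {F0 F1 F2 : ℝ → ℝ → ℝ} (n0 : ∀ n, Nice R (G0 n)) (n1 : ∀ n, Nice R (G1 n))
    (n2 : ∀ n, Nice R (G2 n)) (f0 : Nice R F0) (f1 : Nice R F1) (f2 : Nice R F2)
    (c0 : Conv G0 F0) (c1 : Conv G1 F1) (c2 : Conv G2 F2) :
    Tendsto (fun n => LI k p (G0 n) (G1 n) (G2 n)) atTop (𝓝 (LI k p F0 F1 F2)) := by
  obtain ⟨a, b⟩ := p
  simp only [fun n => LI_eq_box k a b (n0 n) (n1 n) (n2 n), LI_eq_box k a b f0 f1 f2]
  refine Tendsto.const_mul _ (tendsto_integral_of_dominated_convergence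
    (fun _ => R * R * R * (2 * 2 * 2))
    (fun n => (measurable_integrand k a b (n0 n) (n1 n) (n2 n)).aestronglyMeasurable)
    (integrable_const _)
    (fun n => Eventually.of_forall (abs_integrand_le k a b (n0 n) (n1 n) (n2 n))) ?_)
  have r : ∀ {G : ℕ → ℝ → ℝ → ℝ} {F : ℝ → ℝ → ℝ}, Conv G F → ∀ (u v : ℕ),
      ∀ᵐ q ∂(volume.restrict (ivl k u)).prod (volume.restrict (ivl k v)),
        Tendsto (fun n => G n q.1 q.2) atTop (𝓝 (F q.1 q.2)) := by
    intro G F h u v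
    rw [← restrict_sq]
    exact ae_restrict_of_ae h
  have q0 : Measure.QuasiMeasurePreserving (Prod.map id Prod.fst) (box k a b)
      ((volume.restrict (ivl k a)).prod (volume.restrict (ivl k b))) :=
    MeasureTheory.QuasiMeasurePreserving.prodMap (Measure.QuasiMeasurePreserving.id _)
      Measure.quasiMeasurePreserving_fst
  have q1 : Measure.QuasiMeasurePreserving Prod.snd (box k a b)
      ((volume.restrict (ivl k b)).prod (volume.restrict (ivl k (a ^^^ b)))) :=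
    Measure.quasiMeasurePreserving_snd
  have q2 : Measure.QuasiMeasurePreserving (Prod.swap ∘ Prod.map id Prod.snd) (box k a b)
      ((volume.restrict (ivl k (a ^^^ b))).prod (volume.restrict (ivl k a))) :=
    Measure.measurePreserving_swap.quasiMeasurePreserving.comp
      (MeasureTheory.QuasiMeasurePreserving.prodMap (Measure.QuasiMeasurePreserving.id _)
        Measure.quasiMeasurePreserving_snd)
  filter_upwards [q0.ae (r c0 a b), q1.ae (r c1 b (a ^^^ b)), q2.ae (r c2 (a ^^^ b) a)]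
    with w w0 w1 w2
  exact ((w0.mul w1).mul w2).mul tendsto_const_nhds

lemma tendsto_I3 (K : ℤ) {R : ℝ} {G : ℕ → ℝ → ℝ → ℝ} {F : ℝ → ℝ → ℝ}
    (hn : ∀ n, Nice R (G n)) (hc : Conv G F) :
    Tendsto (fun n => I3 K (G n)) atTop (𝓝 (I3 K F)) := by
  unfold I3
  have : IsFiniteMeasure ((volume : Measure (ℝ × ℝ)).restrict (ivl K 0 ×ˢ ivl K 0)) := by
    rw [restrict_sq]; infer_instance
  refine tendsto_integral_of_dominated_convergence (fun _ => R ^ 3) (fun n => ?_)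
    (integrable_const _) (fun n => Eventually.of_forall fun p => ?_) ?_
  · have hm : Measurable fun p : ℝ × ℝ => G n p.1 p.2 := (hn n).1
    exact (hm.abs.pow_const 3).aestronglyMeasurable
  · rw [Real.norm_eq_abs, abs_of_nonneg (by positivity)]
    exact pow_le_pow_left₀ (abs_nonneg _) ((hn n).2 _ _) 3
  · filter_upwards [ae_restrict_of_ae hc] with p hp
    exact hp.abs.pow 3

lemma bnd_limit {C θ R : ℝ} {K : ℤ} {S : Finset ℤ} {T : Finset (ℕ × ℕ)}
    {G0 G1 G2 : ℕ → ℝ → ℝ → ℝ} {F0 F1 F2 : ℝ → ℝ → ℝ} (n0 : ∀ n, Nice R (G0 n))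
    (n1 : ∀ n, Nice R (G1 n)) (n2 : ∀ n, Nice R (G2 n))
    (f0 : Nice R F0) (f1 : Nice R F1) (f2 : Nice R F2)
    (c0 : Conv G0 F0) (c1 : Conv G1 F1) (c2 : Conv G2 F2)
    (h : ∀ n, Bnd C θ K S T (G0 n) (G1 n) (G2 n)) : Bnd C θ K S T F0 F1 F2 := by
  have r : ∀ {G : ℕ → ℝ → ℝ → ℝ} {F : ℝ → ℝ → ℝ}, (∀ n, Nice R (G n)) → Conv G F →
      Tendsto (fun n => I3 K (G n) ^ (1 / 3 : ℝ)) atTop (𝓝 (I3 K F ^ (1 / 3 : ℝ))) :=
    fun hn hc => (tendsto_I3 K hn hc).rpow_const (Or.inr (by norm_num))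
  exact le_of_tendsto_of_tendsto'
    (tendsto_finsetSum S fun k _ => tendsto_finsetSum T fun p _ =>
      (tendsto_LI k p n0 n1 n2 f0 f1 f2 c0 c1 c2).abs)
    (((((r n0 c0).mul (r n1 c1)).mul (r n2 c2))).const_mul _) h

/-- Grid sampling. -/
noncomputable def sample (m : ℤ) (g : ℝ → ℝ → ℝ) (x y : ℝ) : ℝ := g (flo m x) (flo m y)

lemma nice_sample (m : ℤ) {R : ℝ} {g : ℝ → ℝ → ℝ} (h : Nice R g) : Nice R (sample m g) :=
  ⟨h.1.comp (((measurable_flo m).comp measurable_fst).prodMk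
    ((measurable_flo m).comp measurable_snd)), fun _ _ => h.2 _ _⟩

lemma stp_sample (m : ℤ) (g : ℝ → ℝ → ℝ) : Stp m (sample m g) := fun x y => by
  simp [sample, flo_flo]

lemma conv_sample (K : ℤ) (N₀ : ℕ) {g : ℝ → ℝ → ℝ} (hg : Continuous (Function.uncurry g)) :
    Conv (fun n => sample (K - ((n + N₀ : ℕ) : ℤ)) g) g := by
  have hz : Tendsto (fun n : ℕ => (2 : ℝ) ^ (K - ((n + N₀ : ℕ) : ℤ))) atTop (𝓝 0) := by
    have e : ∀ n : ℕ, (2 : ℝ) ^ (K - ((n + N₀ : ℕ) : ℤ))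
        = (2 : ℝ) ^ (K - (N₀ : ℤ)) * (1 / 2 : ℝ) ^ n := fun n => by
      rw [one_div, inv_pow, ← zpow_natCast, ← zpow_neg, ← zpow_add₀ two_ne_zero]
      congr 1
      push_cast; ring
    simp only [e]
    simpa using (tendsto_pow_atTop_nhds_zero_of_lt_one (by norm_num : (0 : ℝ) ≤ 1 / 2)
      (by norm_num)).const_mul ((2 : ℝ) ^ (K - (N₀ : ℤ)))
  have hx : ∀ x : ℝ, Tendsto (fun n : ℕ => flo (K - ((n + N₀ : ℕ) : ℤ)) x) atTop (𝓝 x) :=
    fun x => tendsto_iff_norm_sub_tendsto_zero.2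
      (squeeze_zero (fun n => norm_nonneg _) (fun n => abs_flo_sub_le _ _) hz)
  refine Eventually.of_forall fun p => ?_
  exact (hg.tendsto (p.1, p.2)).comp ((hx p.1).prodMk_nhds (hx p.2))

lemma adm_integrable {F : ℝ → ℝ → ℝ} (h : Adm F) : Integrable (Function.uncurry F) := by
  obtain ⟨hm, ⟨B, hB⟩, ⟨R, hR⟩⟩ := h
  have hQ : IntegrableOn (Function.uncurry F) (Set.Icc (-R) R ×ˢ Set.Icc (-R) R) :=
    Measure.integrableOn_of_bounded (M := B)
      (isCompact_Icc.prod isCompact_Icc).measure_lt_top.ne hm.aestronglyMeasurable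
      (Eventually.of_forall fun p => hB p.1 p.2)
  refine hQ.integrable_of_forall_notMem_eq_zero fun p hp => hR p.1 p.2 ?_
  by_contra hc
  push Not at hc
  simp only [max_le_iff, abs_le] at hc
  exact hp ⟨hc.1, hc.2⟩

lemma exists_cont {R : ℝ} {F : ℝ → ℝ → ℝ} (hF : Adm F) (hR : ∀ x y, |F x y| ≤ R) :
    ∃ g : ℕ → ℝ → ℝ → ℝ, (∀ n, Continuous (Function.uncurry (g n))) ∧
      (∀ n, Nice R (g n)) ∧ Conv g F := by
  have hR0 : 0 ≤ R := (abs_nonneg _).trans (hR 0 0)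
  set f : ℝ × ℝ → ℝ := Function.uncurry F
  have hf : MemLp f 1 := memLp_one_iff_integrable.2 (adm_integrable hF)
  have hε : ∀ n : ℕ, ((n : ENNReal) + 1)⁻¹ ≠ 0 := fun n => by simp
  choose g _hg1 hg2 hg3 _hg4 using fun n : ℕ =>
    hf.exists_hasCompactSupport_eLpNorm_sub_le (by simp) (hε n)
  have ht : Tendsto (fun n => eLpNorm (g n - f) 1 (volume : Measure (ℝ × ℝ))) atTop (𝓝 0) := by
    refine tendsto_of_tendsto_of_tendsto_of_le_of_le tendsto_const_nhds
      (ENNReal.tendsto_inv_nat_nhds_zero.comp (tendsto_add_atTop_nat 1)) (fun n => zero_le)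
      fun n => ?_
    simpa [eLpNorm_sub_comm] using hg2 n
  have hm := tendstoInMeasure_of_tendsto_eLpNorm one_ne_zero
    (fun n => (hg3 n).aestronglyMeasurable) hf.1 ht
  obtain ⟨ns, -, hns⟩ := hm.exists_seq_tendsto_ae
  let G : ℕ → ℝ → ℝ → ℝ := fun n x y => max (-R) (min R (g (ns n) (x, y)))
  have hG : ∀ n, Continuous (Function.uncurry (G n)) := fun n =>
    continuous_const.max (continuous_const.min ((hg3 (ns n)).comp (by fun_prop)))
  refine ⟨G, hG, fun n => ⟨(hG n).measurable, fun x y => ?_⟩, ?_⟩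
  · rw [abs_le]
    exact ⟨le_max_left _ _, max_le (by linarith) (min_le_left _ _)⟩
  · filter_upwards [hns] with p hp
    have e : max (-R) (min R (f p)) = F p.1 p.2 := by
      have := abs_le.1 (hR p.1 p.2)
      rw [show f p = F p.1 p.2 from rfl, min_eq_right this.2, max_eq_right this.1]
    rw [← e]
    exact ((continuous_const.max (continuous_const.min continuous_id)).tendsto (f p)).comp hp

lemma I3_le_L3 (K : ℤ) {F : ℝ → ℝ → ℝ} (hF : Adm F) :
    I3 K F ^ (1 / 3 : ℝ) ≤ L3 F := by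
  refine Real.rpow_le_rpow (I3_nonneg K F) (setIntegral_mono_set ?_
    (Eventually.of_forall fun p => by positivity) ?_) (by norm_num)
  · obtain ⟨hm, ⟨B, hB⟩, -⟩ := id hF
    have hm' : Measurable fun p : ℝ × ℝ => F p.1 p.2 := hm
    refine (((adm_integrable hF).norm.const_mul (B ^ 2)).mono'
      (hm'.abs.pow_const 3).aestronglyMeasurable (Eventually.of_forall fun p => ?_)).integrableOn
    rw [Real.norm_eq_abs, abs_of_nonneg (by positivity), pow_succ]
    exact mul_le_mul_of_nonneg_right (pow_le_pow_left₀ (abs_nonneg _) (hB _ _) 2) (abs_nonneg _)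
  · refine LE.le.eventuallyLE (Set.prod_mono ?_ ?_) <;>
    · intro x hx
      simpa [ivl] using hx.1

end Transfer

open Transfer in
/-- The finite bound implies the dyadic bound with the same constant and exponent. -/
theorem dyadicBound_of_finiteBound {C θ : ℝ} (hC : 0 ≤ C) (_hθ : 0 ≤ θ) (h : FiniteBound C θ) :
    DyadicBound C θ := by
  intro S T F0 F1 F2 a0 a1 a2
  obtain ⟨B0, b0⟩ := a0.2.1
  obtain ⟨B1, b1⟩ := a1.2.1
  obtain ⟨B2, b2⟩ := a2.2.1
  set R := max B0 (max B1 B2)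
  have r0 : ∀ x y, |F0 x y| ≤ R := fun x y => (b0 x y).trans (le_max_left _ _)
  have r1 : ∀ x y, |F1 x y| ≤ R :=
    fun x y => (b1 x y).trans (le_trans (le_max_left _ _) (le_max_right _ _))
  have r2 : ∀ x y, |F2 x y| ≤ R :=
    fun x y => (b2 x y).trans (le_trans (le_max_right _ _) (le_max_right _ _))
  set P : ℕ := ∑ p ∈ T, (p.1 + p.2)
  set K : ℤ := (∑ k ∈ S, |k|) + (P : ℤ) with hKdef
  have hK : ∀ k ∈ S, k + P ≤ K := fun k hk => by
    have h1 : |k| ≤ ∑ l ∈ S, |l| :=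
      Finset.single_le_sum (f := fun l : ℤ => |l|) (fun l _ => abs_nonneg l) hk
    have h2 := le_abs_self k
    omega
  have hT : ∀ k ∈ S, ∀ p ∈ T, p.1 < 2 ^ (K - k).toNat ∧ p.2 < 2 ^ (K - k).toNat := by
    intro k hk p hp
    have h1 : p.1 + p.2 ≤ P :=
      Finset.single_le_sum (f := fun q : ℕ × ℕ => q.1 + q.2) (fun q _ => Nat.zero_le _) hp
    have h2 := hK k hk
    have h3 : (K - k).toNat < 2 ^ (K - k).toNat := Nat.lt_two_pow_self
    omega
  set N₀ : ℕ := ∑ k ∈ S, ((K - k).toNat + 1)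
  have hS : ∀ n : ℕ, ∀ k ∈ S, k ≤ K ∧ (K - k).toNat < n + N₀ := fun n k hk => by
    have h1 : (K - k).toNat + 1 ≤ N₀ :=
      Finset.single_le_sum (f := fun l : ℤ => (K - l).toNat + 1) (fun l _ => Nat.zero_le _) hk
    have h2 := hK k hk
    omega
  obtain ⟨g0, gc0, gn0, gl0⟩ := exists_cont a0 r0
  obtain ⟨g1, gc1, gn1, gl1⟩ := exists_cont a1 r1
  obtain ⟨g2, gc2, gn2, gl2⟩ := exists_cont a2 r2
  have cont : ∀ j : ℕ, Bnd C θ K S T (g0 j) (g1 j) (g2 j) := fun j =>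
    bnd_limit (fun _ => nice_sample _ (gn0 j)) (fun _ => nice_sample _ (gn1 j))
      (fun _ => nice_sample _ (gn2 j)) (gn0 j) (gn1 j) (gn2 j)
      (conv_sample K N₀ (gc0 j)) (conv_sample K N₀ (gc1 j)) (conv_sample K N₀ (gc2 j))
      fun n => bnd_step h (hS n) hT (nice_sample _ (gn0 j)) (nice_sample _ (gn1 j))
        (nice_sample _ (gn2 j)) (stp_sample _ _) (stp_sample _ _) (stp_sample _ _)
  have main : Bnd C θ K S T F0 F1 F2 :=
    bnd_limit gn0 gn1 gn2 ⟨a0.1, r0⟩ ⟨a1.1, r1⟩ ⟨a2.1, r2⟩ gl0 gl1 gl2 cont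
  refine main.trans (mul_le_mul_of_nonneg_left ?_ (mul_nonneg hC (by positivity)))
  have nn : ∀ G, 0 ≤ I3 K G ^ (1 / 3 : ℝ) := fun G => Real.rpow_nonneg (I3_nonneg K G) _
  have l0 := I3_le_L3 K a0
  have l1 := I3_le_L3 K a1
  have l2 := I3_le_L3 K a2
  have := (nn F0).trans l0
  have := (nn F1).trans l1
  exact mul_le_mul (mul_le_mul l0 l1 (nn F1) (by linarith)) l2 (nn F2) (by positivity)

end Vale.Agent.P075
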