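import Vale.Agent.P075.Term

/-!
The uniform finite bound.
-/

namespace Vale.Agent.P075

open Matrix Filter Topology

variable {N : ℕ}

section series

/-- One level of the potential of a Gram matrix of size `h`. -/
noncomputable def lev (h : ℝ) (k : ℤ) : ℝ := (2 : ℝ) ^ k * min h (h ^ 2 / (4 : ℝ) ^ k)

lemma lev_nonneg {h : ℝ} (hh : 0 ≤ h) (k : ℤ) : 0 ≤ lev h k :=
  mul_nonneg (zpow_pos (by norm_num) k).le
    (le_min hh (div_nonneg (sq_nonneg h) (zpow_pos (by norm_num) k).le))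

/-- A two-sided geometric weight. -/
noncomputable def geo (t : ℤ) : ℝ := (1 / 2 : ℝ) ^ t.natAbs

lemma geo_summable : Summable geo :=
  Summable.of_nat_of_neg (by simpa [geo] using summable_geometric_two)
    (by simpa [geo] using summable_geometric_two)

lemma zpow_four (k : ℤ) : (4 : ℝ) ^ k = ((2 : ℝ) ^ k) ^ 2 := by
  rw [show (4 : ℝ) = 2 * 2 by norm_num, mul_zpow, sq]

lemma lev_le {h : ℝ} (hh : 0 < h) :
    ∃ k0 : ℤ, ∀ k, lev h k ≤ 4 * (h * Real.sqrt h) * geo (k - k0) := by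
  refine ⟨Int.log 4 h, fun k => ?_⟩
  set k0 := Int.log 4 h
  have h1 : (4 : ℝ) ^ k0 ≤ h := by simpa using Int.zpow_log_le_self (b := 4) (by norm_num) hh
  have h2 : h ≤ (4 : ℝ) ^ (k0 + 1) := by
    simpa using (Int.lt_zpow_succ_log_self (b := 4) (by norm_num) h).le
  have hk : (2 : ℝ) ^ k0 ≤ Real.sqrt h := Real.le_sqrt_of_sq_le (by rwa [← zpow_four])
  have p0 : (0 : ℝ) < 2 ^ k0 := zpow_pos (by norm_num) _
  have pk : (0 : ℝ) < 2 ^ k := zpow_pos (by norm_num) _
  obtain ⟨n, hn⟩ : ∃ n : ℕ, k = k0 + n ∨ k0 = k + n := by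
    rcases le_total k0 k with hle | hle
    · exact ⟨(k - k0).toNat, Or.inl (by omega)⟩
    · exact ⟨(k0 - k).toNat, Or.inr (by omega)⟩
  have hg : geo (k - k0) = (1 / 2 : ℝ) ^ n := by
    unfold geo; congr 1; omega
  have key : lev h k ≤ 4 * (h * 2 ^ k0) * geo (k - k0) := by
    rw [hg, one_div, inv_pow]
    rcases hn with hn | hn
    · refine (mul_le_mul_of_nonneg_left (min_le_right _ _) pk.le).trans ?_
      rw [zpow_four, hn, zpow_add₀ (by norm_num), zpow_natCast]
      have h3 : h ≤ 4 * ((2 : ℝ) ^ k0) ^ 2 := by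
        rw [← zpow_four, mul_comm, ← zpow_add_one₀ (by norm_num)]; exact h2
      have p : (0 : ℝ) < 2 ^ n := pow_pos (by norm_num) _
      field_simp
      nlinarith [mul_nonneg hh.le (sub_nonneg.2 h3)]
    · refine (mul_le_mul_of_nonneg_left (min_le_left _ _) pk.le).trans ?_
      rw [hn, zpow_add₀ (by norm_num : (2 : ℝ) ≠ 0), zpow_natCast, mul_comm]
      have p : (0 : ℝ) < 2 ^ n := pow_pos (by norm_num) _
      field_simp
      nlinarith [mul_pos hh pk]
  refine key.trans (mul_le_mul_of_nonneg_right ?_ (by unfold geo; positivity))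
  nlinarith [mul_le_mul_of_nonneg_left hk hh.le]

lemma lev_summable {h : ℝ} (hh : 0 ≤ h) : Summable (lev h) ∧
    ∑' k, lev h k ≤ 4 * (h * Real.sqrt h) * ∑' t, geo t := by
  rcases hh.eq_or_lt with rfl | hpos
  · have e : lev 0 = fun _ => 0 := funext fun k => by simp [lev]
    simp [e, summable_zero]
  · obtain ⟨k0, hk⟩ := lev_le hpos
    have hs : Summable fun k => 4 * (h * Real.sqrt h) * geo (k - k0) :=
      ((Equiv.subRight k0).summable_iff.2 geo_summable).mul_left _
    have h1 : Summable (lev h) := Summable.of_nonneg_of_le (lev_nonneg hh) hk hs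
    refine ⟨h1, (h1.tsum_le_tsum hk hs).trans_eq ?_⟩
    rw [tsum_mul_left]
    exact congrArg _ ((Equiv.subRight k0).tsum_eq geo)

end series

/-- The potential at one vertex. -/
noncomputable def Gam (A B : Fn N) : ℝ :=
  ∑' k : ℤ, (2 : ℝ) ^ k * pot ((4 : ℝ) ^ k) (sm A B)

/-- The potential of a square. -/
noncomputable def Gam3 (A F B : Fn N) : ℝ :=
  Gam A B + Gam F (fun y x => A x y) + Gam (fun z x => B x z) (fun z y => F y z)

lemma lev_pot (A B : Fn N) (k : ℤ) : 0 ≤ (2 : ℝ) ^ k * pot ((4 : ℝ) ^ k) (sm A B) ∧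
    (2 : ℝ) ^ k * pot ((4 : ℝ) ^ k) (sm A B) ≤ lev (hsq (sm A B)) k := by
  have p : (0 : ℝ) < 4 ^ k := zpow_pos (by norm_num) _
  exact ⟨mul_nonneg (zpow_pos (by norm_num) _).le (pot_nonneg _ p),
    mul_le_mul_of_nonneg_left (le_min (pot_le_self _ p) (pot_le_sq _ p))
      (zpow_pos (by norm_num) _).le⟩

lemma Gam_summable (A B : Fn N) :
    Summable fun k : ℤ => (2 : ℝ) ^ k * pot ((4 : ℝ) ^ k) (sm A B) :=
  Summable.of_nonneg_of_le (fun k => (lev_pot A B k).1) (fun k => (lev_pot A B k).2)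
    (lev_summable (hsq_nonneg _)).1

lemma Gam_nonneg (A B : Fn N) : 0 ≤ Gam A B := tsum_nonneg fun k => (lev_pot A B k).1

lemma Gam3_nonneg (A F B : Fn N) : 0 ≤ Gam3 A F B :=
  add_nonneg (add_nonneg (Gam_nonneg _ _) (Gam_nonneg _ _)) (Gam_nonneg _ _)

lemma Gam_gap (A B : Fn (N + 1)) (S : Finset ℤ) :
    (∑ k ∈ S, dd ((2 : ℝ) ^ k) A B) / 16 + Gam A B
      ≤ (∑ i : Bool, ∑ j : Bool, Gam (kid A i j) (kid B i (i ^^ j))) / 4 := by
  let g : Bool → Bool → ℤ → ℝ := fun i j k =>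
    (2 : ℝ) ^ k * pot ((4 : ℝ) ^ k) (sm (kid A i j) (kid B i (i ^^ j)))
  let p : ℤ → ℝ := fun k => (2 : ℝ) ^ k * pot ((4 : ℝ) ^ k) (sm A B)
  have hd : ∀ k, dd ((2 : ℝ) ^ k) A B / 16
      ≤ ((g true true k + g true false k) + (g false true k + g false false k)) / 4 - p k := by
    intro k
    have h := mul_le_mul_of_nonneg_left (pot_gap A B (zpow_pos (by norm_num) k : (0 : ℝ) < 4 ^ k))
      (zpow_pos (by norm_num) k : (0 : ℝ) < 2 ^ k).le
    simp only [Fintype.sum_bool] at h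
    simp only [g, p, dd, ← zpow_four]
    have e : (2 : ℝ) ^ k * (4 : ℝ) ^ k = ((2 : ℝ) ^ k) ^ 3 := by rw [zpow_four]; ring
    rw [← e]
    linarith
  have hg : ∀ i j, Summable (g i j) := fun i j => Gam_summable _ _
  have hsum : Summable fun k =>
      ((g true true k + g true false k) + (g false true k + g false false k)) / 4 - p k :=
    ((((hg _ _).add (hg _ _)).add ((hg _ _).add (hg _ _))).div_const 4).sub (Gam_summable A B)
  have h0 : ∀ k, 0 ≤ ((g true true k + g true false k) + (g false true k + g false false k)) / 4 - p k :=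
    fun k => le_trans (div_nonneg (dd_nonneg (zpow_pos (by norm_num) k).le _ _) (by norm_num)) (hd k)
  have h1 := (Finset.sum_le_sum fun k (_ : k ∈ S) => hd k).trans
    (hsum.sum_le_tsum S fun k _ => h0 k)
  rw [← Finset.sum_div, Summable.tsum_sub
    ((((hg _ _).add (hg _ _)).add ((hg _ _).add (hg _ _))).div_const 4) (Gam_summable A B),
    tsum_div_const, Summable.tsum_add ((hg _ _).add (hg _ _)) ((hg _ _).add (hg _ _)),
    Summable.tsum_add (hg _ _) (hg _ _), Summable.tsum_add (hg _ _) (hg _ _)] at h1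
  simp only [Gam, Fintype.sum_bool]
  simp only [g] at h1
  linarith

/-- The average of the children. -/
noncomputable def kids3 (A F B : Fn (N + 1)) : ℝ :=
  (∑ i : Bool, ∑ j : Bool, Gam3 (kid A i j) (kid F j (i ^^ j)) (kid B i (i ^^ j))) / 4

lemma Gam3_gap (A F B : Fn (N + 1)) (S : Finset ℤ) :
    (∑ k ∈ S, dd3 ((2 : ℝ) ^ k) A F B) / 16 + Gam3 A F B ≤ kids3 A F B := by
  have hA : ∀ i j : Bool, kid (fun y x => A x y) i j = fun y x => kid A j i x y := fun _ _ => rfl
  have hB : ∀ i j : Bool, kid (fun z x => B x z) i j = fun z x => kid B j i x z := fun _ _ => rfl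
  have hF : ∀ i j : Bool, kid (fun z y => F y z) i j = fun z y => kid F j i y z := fun _ _ => rfl
  have h1 := Gam_gap A B S
  have h2 := Gam_gap F (fun y x => A x y) S
  have h3 := Gam_gap (fun z x => B x z) (fun z y => F y z) S
  simp only [Fintype.sum_bool, hA, hB, hF, Bool.xor_self, Bool.true_xor, Bool.false_xor,
    Bool.not_false] at h1 h2 h3
  simp only [dd3, Finset.sum_add_distrib, kids3, Gam3, Fintype.sum_bool, Bool.xor_self,
    Bool.true_xor, Bool.false_xor, Bool.not_false]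
  linarith

lemma term_eq (A F B : Fn (N + 1)) :
    term A F B = (∑ i : Bool, ∑ j : Bool, ∑ l : Bool, sgn i * sgn j * sgn l *
      (mk A i j * mk F j l * (mk B i l)ᵀ).trace) / 8 := by
  have e : ∀ i j l, (mk A i j * mk F j l * (mk B i l)ᵀ).trace
      = av fun x => av fun y => av fun z => kid A i j x y * kid F j l y z * kid B i l x z := by
    intro i j l
    simp only [trace, diag, mul_apply, transpose_apply, mk, av_def, Finset.sum_mul, Finset.sum_div]
    refine Finset.sum_congr rfl fun x _ => ?_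
    rw [Finset.sum_comm]
    exact Finset.sum_congr rfl fun y _ => Finset.sum_congr rfl fun z _ => by ring
  simp only [term, av_succ_sum, hh_cons, av_mul_left, e, kid,
    av_div, Fintype.sum_bool, av_add]
  ring

lemma tendsto_matrix_zero {X K : Type*} [Fintype X] [Fintype K] {M : ℕ → Matrix X K ℝ}
    {g : ℕ → ℝ} (h : ∀ n, hsq (M n) ≤ g n) (hg : Tendsto g atTop (𝓝 0)) :
    Tendsto M atTop (𝓝 0) := by
  refine tendsto_pi_nhds.2 fun i => tendsto_pi_nhds.2 fun j => ?_
  refine squeeze_zero_norm (fun n => ?_) (by simpa using hg.sqrt)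
  exact Real.abs_le_sqrt ((sq_entry_le _ i j).trans (h n))

lemma tendsto_four : Tendsto (fun n : ℕ => ((4 : ℝ) ^ n)⁻¹) atTop (𝓝 0) := by
  simpa [inv_pow] using tendsto_pow_atTop_nhds_zero_of_lt_one (r := (4 : ℝ)⁻¹) (by norm_num)
    (by norm_num)

lemma rho_mul_lim_top (A B : Fn (N + 1)) (i : Bool) (V : Matrix (Pt N) (Pt N) ℝ) :
    Tendsto (fun n : ℕ => rho ((4 : ℝ) ^ n) A B i * V) atTop (𝓝 V) := by
  rw [← tendsto_sub_nhds_zero_iff]
  refine tendsto_matrix_zero (g := fun n => hsq (row A B i) * hsq V * ((4 : ℝ) ^ n)⁻¹)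
    (fun n => ?_) (by simpa using tendsto_four.const_mul (hsq (row A B i) * hsq V))
  rw [← div_eq_mul_inv]
  exact hsq_rho_sub_le _ (pow_pos (by norm_num) n) V

lemma rho_mk_lim_bot (A B : Fn (N + 1)) (i j : Bool) :
    Tendsto (fun n : ℕ => rho ((4 : ℝ) ^ n)⁻¹ A B i * mk A i j) atTop (𝓝 0) := by
  refine tendsto_matrix_zero (g := fun n => 2 * Fintype.card (Col N) * ((4 : ℝ) ^ n)⁻¹)
    (fun n => ?_) (by simpa using tendsto_four.const_mul (2 * (Fintype.card (Col N) : ℝ)))
  have e : rho ((4 : ℝ) ^ n)⁻¹ A B i * mk A i j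
      = ((((4 : ℝ) ^ n)⁻¹) • res (1 / 2) ((4 : ℝ) ^ n)⁻¹ (row A B i) * row A B i).submatrix id
        (cl j) := rfl
  rw [e]
  refine (hsq_submatrix_le _ Function.injective_id (cl_inj j)).trans ?_
  exact (hsq_rho_self_le _ (by positivity)).trans_eq (mul_comm _ _)

lemma tendsto_trace3 {X : Type*} [Fintype X] {P Q R : ℕ → Matrix X X ℝ} {p q r : Matrix X X ℝ}
    (hP : Tendsto P atTop (𝓝 p)) (hQ : Tendsto Q atTop (𝓝 q)) (hR : Tendsto R atTop (𝓝 r)) :
    Tendsto (fun n => (P n * Q n * R n).trace) atTop (𝓝 (p * q * r).trace) := by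
  have hm : Continuous fun u : Matrix X X ℝ × Matrix X X ℝ => u.1 * u.2 :=
    continuous_fst.matrix_mul continuous_snd
  have h1 := (hm.tendsto (p, q)).comp (hP.prodMk_nhds hQ)
  have h2 := (hm.tendsto (p * q, r)).comp (h1.prodMk_nhds hR)
  exact ((continuous_id.matrix_trace).tendsto (p * q * r)).comp h2

lemma tendsto_tau {p : ℕ → ℝ} {a f b : Bool → Bool → Matrix (Pt N) (Pt N) ℝ} (A F B : Fn (N + 1))
    (ha : ∀ i j, Tendsto (fun n => rho (p n) A B i * mk A i j) atTop (𝓝 (a i j)))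
    (hf : ∀ j l, Tendsto (fun n => rho (p n) F (fun y x => A x y) j * mk F j l) atTop (𝓝 (f j l)))
    (hb : ∀ l i, Tendsto (fun n => rho (p n) (fun z x => B x z) (fun z y => F y z) l * (mk B i l)ᵀ)
      atTop (𝓝 (b l i))) :
    Tendsto (fun n => tau (p n) (p n) (p n) A F B) atTop
      (𝓝 ((∑ i : Bool, ∑ j : Bool, ∑ l : Bool, sgn i * sgn j * sgn l *
        (a i j * f j l * b l i).trace) / 8)) := by
  refine (tendsto_finsetSum _ fun i _ => tendsto_finsetSum _ fun j _ =>
    tendsto_finsetSum _ fun l _ => Tendsto.const_mul _ ?_).div_const 8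
  exact tendsto_trace3 (ha i j) (hf j l) (hb l i)

/-- The key inequality. -/
lemma abs_term_le_gap (A F B : Fn (N + 1)) :
    |term A F B| ≤ 96 * (kids3 A F B - Gam3 A F B) := by
  set G := kids3 A F B - Gam3 A F B
  let f : ℤ → ℝ := fun k => tau (((2 : ℝ) ^ k) ^ 2) (((2 : ℝ) ^ k) ^ 2) (((2 : ℝ) ^ k) ^ 2) A F B
  let d : ℤ → ℝ := fun k => dd3 ((2 : ℝ) ^ k) A F B
  have hd : ∀ (m : ℕ) (e : ℤ), ∑ x ∈ Finset.range m, d ((x : ℤ) + e) ≤ 16 * G := by
    intro m e
    have := Gam3_gap A F B ((Finset.range m).map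
      ⟨fun x : ℕ => (x : ℤ) + e, fun a b h => by simpa using h⟩)
    rw [Finset.sum_map] at this
    change (∑ x ∈ Finset.range m, dd3 ((2 : ℝ) ^ ((x : ℤ) + e)) A F B) / 16 + _ ≤ _ at this
    simp only [G, d]
    linarith
  have hstep : ∀ k, |f (k + 1) - f k| ≤ 3 * (d k + d (k + 1)) := by
    intro k
    have e : (2 : ℝ) ^ (k + 1) = 2 * 2 ^ k := by rw [zpow_add_one₀ (by norm_num), mul_comm]
    simp only [f, d, e]
    exact abs_tau_diag (zpow_pos (by norm_num) k) A F B
  have hn : ∀ n : ℕ, |f n - f (-(n : ℤ))| ≤ 96 * G := by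
    intro n
    have ht := Finset.sum_range_sub (fun x : ℕ => f ((x : ℤ) + -(n : ℤ))) (2 * n)
    simp only [Nat.cast_mul, Nat.cast_ofNat, Nat.cast_zero, zero_add,
      show (2 : ℤ) * n + -(n : ℤ) = n by ring] at ht
    rw [← ht]
    refine (Finset.abs_sum_le_sum_abs _ _).trans
      ((Finset.sum_le_sum fun x _ => ?_).trans_eq' rfl |>.trans
        (show (∑ x ∈ Finset.range (2 * n),
          3 * (d ((x : ℤ) + -(n : ℤ)) + d ((x : ℤ) + (-(n : ℤ) + 1)))) ≤ 96 * G from ?_))
    · have := hstep ((x : ℤ) + -(n : ℤ))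
      rw [add_assoc] at this
      rwa [show ((x + 1 : ℕ) : ℤ) + -(n : ℤ) = (x : ℤ) + (-(n : ℤ) + 1) by push_cast; ring]
    · rw [← Finset.mul_sum, Finset.sum_add_distrib]
      linarith [hd (2 * n) (-(n : ℤ)), hd (2 * n) (-(n : ℤ) + 1)]
  have htop : Tendsto (fun n : ℕ => f n) atTop (𝓝 (term A F B)) := by
    rw [term_eq]
    have h := tendsto_tau (p := fun n : ℕ => (4 : ℝ) ^ n) A F B
      (fun i j => rho_mul_lim_top A B i (mk A i j))
      (fun j l => rho_mul_lim_top _ _ j (mk F j l))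
      (fun l i => rho_mul_lim_top _ _ l (mk B i l)ᵀ)
    refine h.congr fun n => ?_
    simp only [f, ← zpow_four, zpow_natCast]
  have hbot : Tendsto (fun n : ℕ => f (-(n : ℤ))) atTop (𝓝 0) := by
    have h := tendsto_tau (p := fun n : ℕ => ((4 : ℝ) ^ n)⁻¹) A F B
      (fun i j => rho_mk_lim_bot A B i j)
      (fun j l => rho_mk_lim_bot F (fun y x => A x y) j l)
      (fun l i => rho_mk_lim_bot (fun z x => B x z) (fun z y => F y z) l i)
    simp only [trace_zero, mul_zero, Finset.sum_const_zero, zero_div] at h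
    refine h.congr fun n => ?_
    simp only [f, ← zpow_four, _root_.zpow_neg, zpow_natCast]
  have hlim := (htop.sub hbot).abs
  rw [sub_zero] at hlim
  exact le_of_tendsto' hlim hn

/-- Constant of the leaves. -/
noncomputable def leafC : ℝ := 32 * ∑' t, geo t

lemma leafC_nonneg : 0 ≤ leafC :=
  mul_nonneg (by norm_num) (tsum_nonneg fun t => by unfold geo; positivity)

lemma Gam_leaf (A B : Fn 0) : Gam A B
    ≤ leafC * ((av2 fun x y => |A x y| ^ 3) + av2 fun x y => |B x y| ^ 3) := by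
  refine ((Gam_summable A B).tsum_le_tsum (fun k => (lev_pot A B k).2)
    (lev_summable (hsq_nonneg _)).1).trans ((lev_summable (hsq_nonneg _)).2.trans ?_)
  have e : hsq (sm A B) = A default default ^ 2 + B default default ^ 2 := by
    simp only [hsq, sm, Fintype.sum_unique, Fintype.sum_sum_type, Sum.elim_inl, Sum.elim_inr,
      pow_zero, div_one]
    exact congrArg₂ (fun x y => A x x ^ 2 + B y y ^ 2) (Subsingleton.elim _ _) (Subsingleton.elim _ _)
  rw [av2, av2, av_zero_dim, av_zero_dim, av_zero_dim, av_zero_dim, e, leafC]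
  generalize A default default = a
  generalize B default default = b
  have hs : 0 ≤ ∑' t, geo t := tsum_nonneg fun t => by unfold geo; positivity
  rw [show 32 * (∑' t, geo t) * (|a| ^ 3 + |b| ^ 3)
    = (32 * (|a| ^ 3 + |b| ^ 3)) * ∑' t, geo t by ring]
  refine mul_le_mul_of_nonneg_right ?_ hs
  set m := max |a| |b|
  have hm : 0 ≤ m := (abs_nonneg a).trans (le_max_left _ _)
  have h1 : a ^ 2 + b ^ 2 ≤ 2 * m ^ 2 := by
    nlinarith [sq_abs a, sq_abs b, le_max_left |a| |b|, le_max_right |a| |b|, abs_nonneg a,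
      abs_nonneg b]
  have h2 : Real.sqrt (a ^ 2 + b ^ 2) ≤ 2 * m :=
    Real.sqrt_le_iff.2 ⟨by linarith, by nlinarith⟩
  have h3 : m ^ 3 ≤ |a| ^ 3 + |b| ^ 3 := by
    rcases max_choice |a| |b| with h | h <;> simp only [m, h] <;>
      nlinarith [pow_nonneg (abs_nonneg a) 3, pow_nonneg (abs_nonneg b) 3]
  have := mul_le_mul h1 h2 (Real.sqrt_nonneg _) (by positivity)
  nlinarith

/-- The induction. -/
lemma Tot_le_cubes : ∀ (N : ℕ) (c : ℕ → ℝ) (A F B : Fn N), (∀ k, 0 ≤ c k) → (∀ k, c k ≤ 1) →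
    Tot N c A F B + 96 * Gam3 A F B ≤ 192 * leafC *
      ((av2 fun x y => |A x y| ^ 3) + (av2 fun x y => |F x y| ^ 3) + av2 fun x y => |B x y| ^ 3)
  | 0, c, A, F, B, _, _ => by
    have h1 := Gam_leaf A B
    have h2 := Gam_leaf F (fun y x => A x y)
    have h3 := Gam_leaf (fun z x => B x z) (fun z y => F y z)
    simp only [Tot_zero, Gam3, av2, av_zero_dim] at h1 h2 h3 ⊢
    linarith
  | n + 1, c, A, F, B, hc, hc1 => by
    have h0 : c 0 * |term A F B| ≤ 96 * (kids3 A F B - Gam3 A F B) :=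
      (mul_le_of_le_one_left (abs_nonneg _) (hc1 0)).trans (abs_term_le_gap A F B)
    have ih := fun i j => Tot_le_cubes n (fun k => c (k + 1)) (kid A i j) (kid F j (i ^^ j))
      (kid B i (i ^^ j)) (fun k => hc _) fun k => hc1 _
    have e : ∀ G : Fn (n + 1), (av2 fun x y => |G x y| ^ 3)
        = (∑ i : Bool, ∑ j : Bool, av2 fun x y => |kid G i j x y| ^ 3) / 4 := fun G => av2_succ _
    rw [Tot_succ, e A, e F, e B]
    simp only [kids3, Fintype.sum_bool, Bool.xor_self, Bool.true_xor, Bool.false_xor,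
      Bool.not_false] at h0 ⊢
    have i1 := ih true true
    have i2 := ih true false
    have i3 := ih false true
    have i4 := ih false false
    simp only [Bool.xor_self, Bool.true_xor, Bool.false_xor, Bool.not_false]
      at i1 i2 i3 i4
    linarith

/-- The finite bound without growth. -/
theorem uniform_bound : FiniteBound (576 * leafC) 0 := by
  intro N c A F B M hc hc1 _ _
  rw [Real.rpow_zero, mul_one]
  have hcube : ∀ G : Fn N, 0 ≤ av2 fun x y => |G x y| ^ 3 := fun G =>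
    av_nonneg fun x => av_nonneg fun y => by positivity
  have hn3 : ∀ G : Fn N, nrm3 G ^ 3 = av2 fun x y => |G x y| ^ 3 := fun G => by
    rw [nrm3, ← Real.rpow_natCast, ← Real.rpow_mul (hcube G)]
    norm_num
  have hsm : ∀ (a : ℝ) (G : Fn N),
      (av2 fun x y => |(a • G) x y| ^ 3) = |a| ^ 3 * av2 fun x y => |G x y| ^ 3 := fun a G => by
    simp only [av2, Pi.smul_apply, smul_eq_mul, abs_mul, mul_pow, av_mul_left]
  have hpos : ∀ G : Fn N, 0 ≤ nrm3 G := fun G => Real.rpow_nonneg (hcube G) _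
  by_cases h : nrm3 A = 0 ∨ nrm3 F = 0 ∨ nrm3 B = 0
  · have hz : ∀ G : Fn N, nrm3 G = 0 → G = (0 : ℝ) • G := by
      intro G hG
      have h0 := hn3 G
      rw [hG, zero_pow (by norm_num)] at h0
      funext x y
      simp only [av2, av_def, ← Finset.sum_div, eq_comm (a := (0 : ℝ))] at h0
      rw [div_eq_zero_iff, or_iff_left (by positivity), div_eq_zero_iff,
        or_iff_left (by positivity),
        Finset.sum_eq_zero_iff_of_nonneg fun _ _ => Finset.sum_nonneg fun _ _ => by positivity] at h0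
      have := (Finset.sum_eq_zero_iff_of_nonneg fun _ _ => by positivity).1
        (h0 x (Finset.mem_univ x)) y (Finset.mem_univ y)
      simpa using this
    have e : Tot N c A F B = 0 := by
      rcases h with h | h | h
      · rw [hz A h, ← one_smul ℝ F, ← one_smul ℝ B, Tot_smul]; simp
      · rw [hz F h, ← one_smul ℝ A, ← one_smul ℝ B, Tot_smul]; simp
      · rw [hz B h, ← one_smul ℝ A, ← one_smul ℝ F, Tot_smul]; simp
    rw [e]
    exact mul_nonneg (mul_nonneg (by norm_num) leafC_nonneg)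
      (mul_nonneg (mul_nonneg (hpos _) (hpos _)) (hpos _))
  · push Not at h
    obtain ⟨ha, hf, hb⟩ := h
    have key := Tot_le_cubes N c ((nrm3 A)⁻¹ • A) ((nrm3 F)⁻¹ • F) ((nrm3 B)⁻¹ • B) hc hc1
    have h1 : ∀ G : Fn N, nrm3 G ≠ 0 → |(nrm3 G)⁻¹| ^ 3 * (av2 fun x y => |G x y| ^ 3) = 1 := by
      intro G hG
      rw [← hn3, abs_of_nonneg (inv_nonneg.2 (hpos G)), ← mul_pow, inv_mul_cancel₀ hG, one_pow]
    rw [hsm, hsm, hsm, h1 A ha, h1 F hf, h1 B hb, Tot_smul] at key
    have hP : 0 < nrm3 A * nrm3 F * nrm3 B :=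
      mul_pos (mul_pos ((hpos A).lt_of_ne' ha) ((hpos F).lt_of_ne' hf)) ((hpos B).lt_of_ne' hb)
    rw [← mul_inv, ← mul_inv, abs_of_pos (inv_pos.2 hP)] at key
    have := Gam3_nonneg ((nrm3 A)⁻¹ • A) ((nrm3 F)⁻¹ • F) ((nrm3 B)⁻¹ • B)
    rw [← div_le_iff₀ hP, div_eq_inv_mul]
    linarith

end Vale.Agent.P075
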